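import Vale.Agent.P054.MathlibUsed
import Vale.Agent.P054.Bdl.B5
attribute [-instance] ProperSMul.toContinuousSMul IsTopologicalTorsor.toContinuousSMul IdemSemiring.toCanonicallyOrderedAdd IdemSemiring.toMulLeftMono IdemSemiring.toMulRightMono AddQuantale.instAddLeftMono AddQuantale.instAddRightMono Quantale.instMulLeftMono Quantale.instMulRightMono FiniteDimensional.rclike_to_real IsScalarTower.complexToReal FiniteDimensional.complexToReal

set_option linter.all false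
set_option autoImplicit false

open Finset Vale.Agent.P054K

namespace Vale.Agent.P054I

/-- the exponents of Theorem G: `bG 1 = 1`, `bG d = (9 (d ^ 2 + 1) + bG (d - 1)) / (18 d + 1)` -/
noncomputable def bG : ℕ → ℝ
  | 0 => 0
  | 1 => 1
  | (k + 2) => (9 * (((k:ℝ) + 2) ^ 2 + 1) + bG (k + 1)) / (18 * ((k:ℝ) + 2) + 1)

/-- the exponent of the free parameter -/
noncomputable def zG (d : ℕ) : ℝ := (bG d - bG (d - 1)) / (18 * ((d:ℝ) - 1))

theorem bG_one : bG 1 = 1 := by simp [bG]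

theorem bG_mul (d : ℕ) (hd : 2 ≤ d) :
    bG d * (18 * (d:ℝ) + 1) = 9 * ((d:ℝ) ^ 2 + 1) + bG (d - 1) := by
  obtain ⟨k, rfl⟩ : ∃ k, d = k + 2 := ⟨d - 2, by omega⟩
  have h1 : bG (k + 2) = (9 * (((k:ℝ) + 2) ^ 2 + 1) + bG (k + 1)) / (18 * ((k:ℝ) + 2) + 1) := rfl
  have h2 : k + 2 - 1 = k + 1 := by omega
  have h3 : (0:ℝ) < 18 * ((k:ℝ) + 2) + 1 := by positivity
  rw [h1, h2]
  push_cast
  exact div_mul_cancel₀ _ h3.ne'

theorem fd_mul (d : ℕ) (hd : 1 ≤ d) : fd d * (2 * (d:ℝ)) = (d:ℝ) ^ 2 + 1 := by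
  have h : (1:ℝ) ≤ d := by exact_mod_cast hd
  unfold fd
  exact div_mul_cancel₀ _ (by positivity)

theorem fd_pred (d : ℕ) (hd : 2 ≤ d) : fd (d - 1) < fd d := by
  have h : (2:ℝ) ≤ d := by exact_mod_cast hd
  have hc : ((d - 1 : ℕ) : ℝ) = (d:ℝ) - 1 := by rw [Nat.cast_sub (by omega)]; simp
  unfold fd
  rw [hc, div_lt_div_iff₀ (by linarith) (by linarith)]
  nlinarith

theorem bG_le_fd (d : ℕ) (hd : 1 ≤ d) : bG d ≤ fd d := by
  induction d with
  | zero => omega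
  | succ m ih =>
    rcases Nat.eq_zero_or_pos m with h | h
    · subst h
      rw [bG_one]
      unfold fd
      norm_num
    · have h1 := ih h
      have h2 := bG_mul (m + 1) (by omega)
      have h3 := fd_mul (m + 1) (by omega)
      have h4 := fd_pred (m + 1) (by omega)
      have hm : m + 1 - 1 = m := by omega
      rw [hm] at h2 h4
      have h5 : (0:ℝ) < 18 * ((m + 1 : ℕ) : ℝ) + 1 := by positivity
      refine le_of_mul_le_mul_right ?_ h5
      rw [h2]
      linarith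

theorem bG_lt_fd (d : ℕ) (hd : 2 ≤ d) : bG d < fd d := by
  have h1 := bG_le_fd (d - 1) (by omega)
  have h2 := bG_mul d hd
  have h3 := fd_mul d (by omega)
  have h4 := fd_pred d hd
  have h5 : (0:ℝ) < 18 * (d:ℝ) + 1 := by positivity
  refine lt_of_mul_lt_mul_right ?_ h5.le
  rw [h2]
  linarith

theorem half_le_bG (d : ℕ) (hd : 1 ≤ d) : (d:ℝ) / 2 + 1 / (4 * d) ≤ bG d := by
  induction d with
  | zero => omega
  | succ m ih =>
    rcases Nat.eq_zero_or_pos m with h | h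
    · subst h
      rw [bG_one]
      norm_num
    · have h1 := ih h
      have h2 := bG_mul (m + 1) (by omega)
      have hm : m + 1 - 1 = m := by omega
      rw [hm] at h2
      have hm1 : (1:ℝ) ≤ m := by exact_mod_cast h
      have hm0 : (0:ℝ) < m := by linarith
      have h5 : (0:ℝ) < 18 * ((m + 1 : ℕ) : ℝ) + 1 := by positivity
      refine le_of_mul_le_mul_right ?_ h5
      rw [h2]
      push_cast
      have h6 : ((m:ℝ) + 1) / 2 * (18 * (m + 1) + 1) = 9 * (m + 1) ^ 2 + (m + 1) / 2 := by ring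
      have h7 : 1 / (4 * ((m:ℝ) + 1)) * (18 * (m + 1) + 1) = 9 / 2 + 1 / (4 * (m + 1)) := by
        field_simp
        ring
      have h8 : 1 / (4 * ((m:ℝ) + 1)) ≤ 1 / 8 := by
        apply one_div_le_one_div_of_le (by norm_num)
        linarith
      have h9 : (m:ℝ) / 2 ≤ bG m := by
        have : (0:ℝ) ≤ 1 / (4 * m) := by positivity
        linarith
      rw [add_mul, h6, h7]
      linarith

theorem one_le_bG (d : ℕ) (hd : 1 ≤ d) : 1 ≤ bG d := by
  rcases Nat.lt_or_ge d 2 with h | h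
  · have : d = 1 := by omega
    subst this
    rw [bG_one]
  · have h1 := half_le_bG d hd
    have h2 : (2:ℝ) ≤ d := by exact_mod_cast h
    have h3 : (0:ℝ) ≤ 1 / (4 * d) := by positivity
    linarith

theorem bG_pred_lt (d : ℕ) (hd : 2 ≤ d) : bG (d - 1) < bG d := by
  have h1 := bG_le_fd (d - 1) (by omega)
  have h2 := bG_mul d hd
  have h3 := fd_mul d (by omega)
  have h4 := fd_pred d hd
  have hD : (2:ℝ) ≤ d := by exact_mod_cast hd
  have h5 : (0:ℝ) < 18 * (d:ℝ) + 1 := by positivity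
  refine lt_of_mul_lt_mul_right ?_ h5.le
  rw [h2]
  nlinarith

/-- the increments are at most `3/4` -/
theorem bG_incr (d : ℕ) (hd : 2 ≤ d) : bG d - bG (d - 1) ≤ 3 / 4 := by
  have h1 := bG_le_fd d (by omega)
  have h2 := half_le_bG (d - 1) (by omega)
  have hD : (2:ℝ) ≤ d := by exact_mod_cast hd
  have hc : ((d - 1 : ℕ) : ℝ) = (d:ℝ) - 1 := by rw [Nat.cast_sub (by omega)]; simp
  rw [hc] at h2
  have h3 : fd d = (d:ℝ) / 2 + 1 / (2 * d) := by
    unfold fd
    field_simp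
  have h4 : (1:ℝ) / (2 * d) ≤ 1 / 4 := by
    apply one_div_le_one_div_of_le (by norm_num)
    linarith
  have h5 : (0:ℝ) ≤ 1 / (4 * ((d:ℝ) - 1)) := by
    apply div_nonneg (by norm_num); linarith
  linarith

theorem zG_pos (d : ℕ) (hd : 2 ≤ d) : 0 < zG d := by
  have hD : (2:ℝ) ≤ d := by exact_mod_cast hd
  have := bG_pred_lt d hd
  unfold zG
  apply div_pos <;> linarith

theorem zG_mul (d : ℕ) (hd : 2 ≤ d) : 18 * ((d:ℝ) - 1) * zG d = bG d - bG (d - 1) := by
  have hD : (2:ℝ) ≤ d := by exact_mod_cast hd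
  unfold zG
  rw [mul_div_cancel₀]
  have : (0:ℝ) < 18 * ((d:ℝ) - 1) := by linarith
  exact this.ne'

theorem zG_eq (d : ℕ) (hd : 2 ≤ d) : 2 * (d:ℝ) * bG d + 2 * ((d:ℝ) - 1) * zG d = (d:ℝ) ^ 2 + 1 := by
  have h1 := zG_mul d hd
  have h2 := bG_mul d hd
  linarith

theorem zG_le (d : ℕ) (hd : 2 ≤ d) : 24 * ((d:ℝ) - 1) * zG d ≤ 1 := by
  have h1 := zG_mul d hd
  have h2 := bG_incr d hd
  linarith

theorem zG_le' (d : ℕ) (hd : 2 ≤ d) : zG d ≤ 1 / 24 := by
  have h1 := zG_le d hd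
  have h2 := zG_pos d hd
  have hD : (2:ℝ) ≤ d := by exact_mod_cast hd
  nlinarith

theorem zG_two (d : ℕ) (hd : 2 ≤ d) : (d:ℝ) + zG d ≤ 2 * bG d := by
  have h1 := zG_eq d hd
  have h2 := zG_le d hd
  have h3 := zG_pos d hd
  have hD : (2:ℝ) ≤ d := by exact_mod_cast hd
  have h0 : (0:ℝ) < d := by linarith
  refine le_of_mul_le_mul_right ?_ h0
  nlinarith

theorem zG_four (d : ℕ) (hd : 2 ≤ d) : 18 * zG d + ((d:ℝ) - 1) ≤ 2 * bG d := by
  have h1 := zG_le' d hd
  have h2 := zG_two d hd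
  have h3 := zG_pos d hd
  linarith

theorem zG_five (d : ℕ) (hd : 2 ≤ d) : 18 * ((d:ℝ) - 1) * zG d + bG (d - 1) ≤ bG d := by
  have h1 := zG_mul d hd
  linarith

/-- explicit bound -/
theorem bG_le (d : ℕ) (hd : 2 ≤ d) : bG d ≤ (9 * ((d:ℝ) ^ 2 + 1) + fd (d - 1)) / (18 * d + 1) := by
  have h1 := bG_le_fd (d - 1) (by omega)
  have h2 := bG_mul d hd
  have h5 : (0:ℝ) < 18 * (d:ℝ) + 1 := by positivity
  rw [le_div_iff₀ h5]
  linarith

end Vale.Agent.P054I
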