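import Vale.Agent.P054.MathlibUsed
import Vale.Agent.P054.H239.GRec
attribute [-instance] ProperSMul.toContinuousSMul IsTopologicalTorsor.toContinuousSMul IdemSemiring.toCanonicallyOrderedAdd IdemSemiring.toMulLeftMono IdemSemiring.toMulRightMono AddQuantale.instAddLeftMono AddQuantale.instAddRightMono Quantale.instMulLeftMono Quantale.instMulRightMono FiniteDimensional.rclike_to_real IsScalarTower.complexToReal FiniteDimensional.complexToReal

set_option linter.all false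
set_option autoImplicit false

open Finset Vale.Agent.P054K

namespace Vale.Agent.P054I

/-- `α` is a pinned exponent in dimension `d` -/
def Pex (d : ℕ) (α : ℝ) : Prop :=
  ∀ ε : ℝ, 0 < ε → ∃ C : ℝ, 0 < C ∧ ∀ t : ℕ, 1 ≤ t → PinnedBy d t (C * (t:ℝ) ^ (α + ε))

/-- large `t` is enough -/
theorem pex_of_large {d : ℕ} {α : ℝ} (hα : 0 ≤ α)
    (h : ∀ ε : ℝ, 0 < ε → ε ≤ 1 → ∃ T0 : ℝ, ∀ t : ℕ, T0 ≤ t → PinnedBy d t (2 * (t:ℝ) ^ (α + ε))) :
    Pex d α := by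
  intro ε hε
  obtain ⟨ε', hε'⟩ : ∃ ε' : ℝ, ε' = min ε 1 := ⟨_, rfl⟩
  have hε'0 : 0 < ε' := by rw [hε']; exact lt_min hε (by norm_num)
  have hε'1 : ε' ≤ ε := by rw [hε']; exact min_le_left _ _
  have hε'2 : ε' ≤ 1 := by rw [hε']; exact min_le_right _ _
  obtain ⟨T0, hT0⟩ := h ε' hε'0 hε'2
  obtain ⟨T1, hT1⟩ : ∃ T1 : ℕ, T1 = max 1 ⌈T0⌉₊ := ⟨_, rfl⟩
  have hT1a : 1 ≤ T1 := by rw [hT1]; exact le_max_left _ _
  have hT1b : T0 ≤ T1 := by
    rw [hT1]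
    exact (Nat.le_ceil T0).trans (by exact_mod_cast le_max_right _ _)
  have hT1r : (1:ℝ) ≤ T1 := by exact_mod_cast hT1a
  refine ⟨2 * (T1:ℝ) ^ (α + ε'), by positivity, ?_⟩
  intro t ht
  have ht' : (1:ℝ) ≤ t := by exact_mod_cast ht
  have hpow1 : (1:ℝ) ≤ (T1:ℝ) ^ (α + ε') := Real.one_le_rpow hT1r (by linarith only [hε'0, hα])
  rcases le_or_gt T0 (t:ℝ) with h1 | h1
  · apply pinnedBy_mono le_rfl _ (hT0 t h1)
    have h2 : (t:ℝ) ^ (α + ε') ≤ (t:ℝ) ^ (α + ε) :=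
      Real.rpow_le_rpow_of_exponent_le ht' (by linarith only [hε'1])
    have h3 : 0 ≤ (t:ℝ) ^ (α + ε) := by positivity
    nlinarith only [h2, hpow1, h3]
  · have h2 : t ≤ T1 := by
      have : (t:ℝ) ≤ T1 := h1.le.trans hT1b
      exact_mod_cast this
    apply pinnedBy_mono h2 _ (hT0 T1 hT1b)
    have h3 : (1:ℝ) ≤ (t:ℝ) ^ (α + ε) := Real.one_le_rpow ht' (by linarith only [hε, hα])
    have h4 : 0 ≤ 2 * (T1:ℝ) ^ (α + ε') := by positivity
    exact le_mul_of_one_le_right h4 h3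

/-- the induction step as a proposition -/
def StepG : Prop :=
  ∀ d : ℕ, 2 ≤ d → ∀ γ α ζ : ℝ, Pex (d - 1) γ → 0 ≤ γ → 1 ≤ α → 0 ≤ ζ → (d:ℝ) + ζ ≤ 2 * α →
    (d:ℝ) ^ 2 + 1 ≤ 2 * d * α + 2 * ((d:ℝ) - 1) * ζ → 18 * ζ + ((d:ℝ) - 1) ≤ 2 * α →
    18 * ((d:ℝ) - 1) * ζ + γ ≤ α → Pex d α

theorem pex_one : Pex 1 1 := by
  intro ε hε
  obtain ⟨C, hC, h⟩ := main_pinned2 1 le_rfl ε hε
  refine ⟨C, hC, ?_⟩
  intro t ht
  have h1 := h t ht
  have h2 : fd 1 = 1 := by unfold fd; norm_num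
  rw [h2] at h1
  exact h1

theorem pex_bG (hstep : StepG) (d : ℕ) (hd : 1 ≤ d) : Pex d (bG d) := by
  induction d with
  | zero => omega
  | succ m ih =>
    rcases Nat.eq_zero_or_pos m with h | h
    · subst h
      rw [Nat.zero_add, bG_one]
      exact pex_one
    · have hd2 : 2 ≤ m + 1 := by omega
      have hm : m + 1 - 1 = m := by omega
      have h5 := zG_five (m + 1) hd2
      rw [hm] at h5
      refine hstep (m + 1) hd2 (bG m) (bG (m + 1)) (zG (m + 1)) ?_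
        (by have := one_le_bG m h; linarith) (one_le_bG _ (by omega))
        (zG_pos _ hd2).le (zG_two _ hd2) (zG_eq _ hd2).ge (zG_four _ hd2) h5
      rw [hm]
      exact ih h

open scoped Classical in
/-- from the pinned exponent to the lower bound -/
theorem lower_of_pex {d : ℕ} {f : ℝ} (hf : 0 < f) (hp : Pex d f) (ε : ℝ) (hε : 0 < ε) :
    ∃ c : ℝ, 0 < c ∧ ∀ P : Finset (EuclideanSpace ℝ (Fin d)), 2 ≤ P.card → ∃ p ∈ P,
      c * (P.card : ℝ) ^ (1 / f - ε) ≤ ((((P.erase p).image (dist p)).card : ℕ) : ℝ) := by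
  obtain ⟨C, hC0, hC⟩ := hp (ε * f ^ 2) (by positivity)
  have hexp : 1 / f - ε ≤ 1 / (f + ε * f ^ 2) := by
    rw [le_div_iff₀ (by positivity)]
    have h1 : (1 / f - ε) * (f + ε * f ^ 2) = 1 - ε ^ 2 * f ^ 2 := by field_simp; ring
    rw [h1]
    have : 0 ≤ ε ^ 2 * f ^ 2 := by positivity
    linarith only [this]
  obtain ⟨g, hg⟩ : ∃ g : ℝ, g = f + ε * f ^ 2 := ⟨_, rfl⟩
  rw [← hg] at hexp hC
  have hg0 : 0 < g := by rw [hg]; positivity
  obtain ⟨c, hc⟩ : ∃ c : ℝ, c = (1 / C) ^ (1 / g) := ⟨_, rfl⟩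
  have hc0 : 0 < c := by rw [hc]; positivity
  refine ⟨c, hc0, ?_⟩
  intro P hP
  have hPne : P.Nonempty := Finset.card_pos.mp (by omega)
  obtain ⟨p, hp, hmax⟩ := P.exists_max_image (fun p => ((P.erase p).image (dist p)).card) hPne
  refine ⟨p, hp, ?_⟩
  obtain ⟨t, ht⟩ : ∃ t : ℕ, t = ((P.erase p).image (dist p)).card := ⟨_, rfl⟩
  have ht1 : 1 ≤ t := by
    rw [ht, Nat.one_le_iff_ne_zero, ← Nat.pos_iff_ne_zero, Finset.card_pos, Finset.image_nonempty,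
      ← Finset.card_pos, Finset.card_erase_of_mem hp]
    omega
  have hpin : ∀ q ∈ P, (P.image (dist q)).card ≤ t + 1 := by
    intro q hq
    have h1 : P.image (dist q) = insert (dist q q) ((P.erase q).image (dist q)) := by
      rw [← Finset.image_insert, Finset.insert_erase hq]
    rw [h1, ht]
    exact (Finset.card_insert_le _ _).trans (Nat.add_le_add_right (hmax q hq) 1)
  rw [← ht]
  have h1 := hC t ht1 P (fun q hq => by convert hpin q hq)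
  have hn1 : (1:ℝ) ≤ P.card := by exact_mod_cast (show 1 ≤ P.card by omega)
  have ht0 : (0:ℝ) ≤ t := Nat.cast_nonneg t
  have h2 : (1 / C * (P.card:ℝ)) ≤ (t:ℝ) ^ g := by
    rw [one_div, inv_mul_le_iff₀ hC0]; exact h1
  have hCi : 0 ≤ 1 / C := by positivity
  have hn0 : (0:ℝ) ≤ P.card := by linarith only [hn1]
  have h3 : (1 / C * (P.card:ℝ)) ^ (1 / g) ≤ t := by
    calc (1 / C * (P.card:ℝ)) ^ (1 / g) ≤ ((t:ℝ) ^ g) ^ (1 / g) :=
          Real.rpow_le_rpow (mul_nonneg hCi hn0) h2 (by positivity)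
      _ = t := by
          rw [← Real.rpow_mul ht0, mul_one_div_cancel hg0.ne', Real.rpow_one]
  refine le_trans ?_ h3
  rw [Real.mul_rpow hCi hn0, ← hc]
  apply mul_le_mul_of_nonneg_left _ hc0.le
  exact Real.rpow_le_rpow_of_exponent_le hn1 hexp

/-- the set of distances from `p` -/
theorem pinset {d : ℕ} (P : Finset (EuclideanSpace ℝ (Fin d))) (p : EuclideanSpace ℝ (Fin d)) :
    {r : ℝ | ∃ q ∈ P, q ≠ p ∧ r = dist p q}.ncard =
      (open scoped Classical in ((P.erase p).image (dist p)).card) := by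
  classical
  have h1 : {r : ℝ | ∃ q ∈ P, q ≠ p ∧ r = dist p q} =
      (((P.erase p).image (dist p) : Finset ℝ) : Set ℝ) := by
    ext r
    simp only [Set.mem_ofPred_eq, Finset.coe_image, Set.mem_image, Finset.mem_coe,
      Finset.mem_erase]
    constructor
    · rintro ⟨q, hq, hne, rfl⟩
      exact ⟨q, ⟨hne, hq⟩, rfl⟩
    · rintro ⟨q, ⟨hne, hq⟩, rfl⟩
      exact ⟨q, hq, hne, rfl⟩
  rw [h1, Set.ncard_coe_finset]

/-- the lower bound for the pinned number of distances and for the number of distances -/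
theorem lower_sets {d : ℕ} {f : ℝ} (hf : 0 < f) (hp : Pex d f) (ε : ℝ) (hε : 0 < ε) :
    ∃ c : ℝ, 0 < c ∧
      (∀ P : Finset (EuclideanSpace ℝ (Fin d)), 2 ≤ P.card → ∃ p ∈ P,
        c * (P.card : ℝ) ^ (1 / f - ε) ≤
          (({r : ℝ | ∃ q ∈ P, q ≠ p ∧ r = dist p q}.ncard : ℕ) : ℝ)) ∧
      (∀ P : Finset (EuclideanSpace ℝ (Fin d)), 2 ≤ P.card →
        c * (P.card : ℝ) ^ (1 / f - ε) ≤
          (({r : ℝ | ∃ p ∈ P, ∃ q ∈ P, p ≠ q ∧ r = dist p q}.ncard : ℕ) : ℝ)) := by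
  classical
  obtain ⟨c, hc, h⟩ := lower_of_pex hf hp ε hε
  have hpin : ∀ P : Finset (EuclideanSpace ℝ (Fin d)), 2 ≤ P.card → ∃ p ∈ P,
      c * (P.card : ℝ) ^ (1 / f - ε) ≤
        (({r : ℝ | ∃ q ∈ P, q ≠ p ∧ r = dist p q}.ncard : ℕ) : ℝ) := by
    intro P hP
    obtain ⟨p, hp, hp2⟩ := h P hP
    refine ⟨p, hp, ?_⟩
    rw [pinset]
    exact hp2
  refine ⟨c, hc, hpin, ?_⟩
  intro P hP
  obtain ⟨p, hp, hp2⟩ := hpin P hP
  refine hp2.trans ?_
  have hfin : {r : ℝ | ∃ p ∈ P, ∃ q ∈ P, p ≠ q ∧ r = dist p q}.Finite := by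
    apply Set.Finite.subset (Finset.finite_toSet ((P ×ˢ P).image (fun pq => dist pq.1 pq.2)))
    rintro r ⟨a, ha, b, hb, _, rfl⟩
    rw [Finset.mem_coe, Finset.mem_image]
    exact ⟨(a, b), Finset.mem_product.mpr ⟨ha, hb⟩, rfl⟩
  have hsub : {r : ℝ | ∃ q ∈ P, q ≠ p ∧ r = dist p q} ⊆
      {r : ℝ | ∃ p ∈ P, ∃ q ∈ P, p ≠ q ∧ r = dist p q} := by
    rintro r ⟨q, hq, hne, rfl⟩
    exact ⟨p, hp, q, hq, hne.symm, rfl⟩
  exact_mod_cast Set.ncard_le_ncard hsub hfin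

end Vale.Agent.P054I
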