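import Vale.Agent.P054.MathlibUsed
import Vale.Agent.P054.H449.IM.Defs
import Vale.Agent.P054.H239.GEnd
attribute [-instance] ProperSMul.toContinuousSMul IsTopologicalTorsor.toContinuousSMul IdemSemiring.toCanonicallyOrderedAdd IdemSemiring.toMulLeftMono IdemSemiring.toMulRightMono AddQuantale.instAddLeftMono AddQuantale.instAddRightMono Quantale.instMulLeftMono Quantale.instMulRightMono FiniteDimensional.rclike_to_real IsScalarTower.complexToReal FiniteDimensional.complexToReal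

set_option linter.all false
set_option autoImplicit false

open Finset Vale.Agent.P054K

namespace Vale.Agent.P054I

/-- all side conditions of the key inequality hold for large `t` -/
theorem params (d A : ℕ) (α η : ℝ) (hα0 : 0 ≤ α) (hη0 : 0 < η) (hη1 : η ≤ 1) :
    ∃ (I : ℕ) (T0 : ℝ), 1 ≤ T0 ∧ ∀ t : ℕ, T0 ≤ t → ∀ n : ℕ, (n:ℝ) ≤ 2 * (t:ℝ) ^ α →
      ∃ (l : ℕ) (N : ℝ), (t:ℝ) ^ η ≤ l ∧ (l:ℝ) ≤ 2 * (t:ℝ) ^ η ∧ 1 ≤ N ∧
        2 * Real.log N + 1 ≤ l ∧ 2 ^ (I + 1) ≤ l ∧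
        16 * (2 * Real.log N + 1) * (A * ((t + 1 : ℕ) : ℝ) + 2) ≤ (l:ℝ) ^ I ∧
        2 * (n:ℝ) ^ 2 ≤ N ∧ (n:ℝ) * ((t + 1 : ℕ) : ℝ) ≤ N ∧
        20 * (Real.log (A * N * (l:ℝ) ^ 2 * ((t + 1 : ℕ) : ℝ) + 3) + 1) ≤ l ∧
        ∀ j < d, PinnedBy j t (l * ((t + 1 : ℕ) : ℝ) ^ j) := by
  obtain ⟨I, hI⟩ : ∃ I : ℕ, I = ⌈3 / η⌉₊ := ⟨_, rfl⟩
  have hI3 : 3 ≤ η * I := by
    have h1 : 3 / η ≤ I := by rw [hI]; exact Nat.le_ceil _
    rw [div_le_iff₀ hη0] at h1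
    linarith only [h1]
  have hA0 : (0:ℝ) ≤ A := Nat.cast_nonneg A
  obtain ⟨B, hB⟩ : ∃ B : ℝ, B = 64 * A + 11 := ⟨_, rfl⟩
  have hB0 : 0 < B := by rw [hB]; linarith only [hA0]
  have hCex : ∀ j, ∃ C : ℝ, 0 < C ∧
      ∀ t : ℕ, 1 ≤ t → PinnedBy j t (C * (t:ℝ) ^ (fe j + η / 2)) := by
    intro j
    exact main_pinned j (η / 2) (by linarith only [hη0])
  choose C hC0 hC using hCex
  obtain ⟨T1, hT1, hev1⟩ := ev_log2 B (2 * α + 2 * η + 3) η hB0 hη0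
  obtain ⟨T2, hT2, hev2⟩ := ev_rpow (2 ^ (I + 1)) 0 η hη0
  obtain ⟨T3, hT3, hev3⟩ := ev_rpow (32 * A + 32) (1 + η) 3 (by linarith only [hη1])
  have hev5' : ∃ T5 : ℝ, ∀ j, j < d → ∀ T : ℝ, T5 ≤ T → C j * T ^ (η / 2) ≤ T ^ η := by
    have h1 : ∀ j, ∃ T0 : ℝ, 1 ≤ T0 ∧ ∀ T : ℝ, T0 ≤ T → C j * T ^ (η / 2) ≤ T ^ η :=
      fun j => ev_rpow (C j) (η / 2) η (by linarith only [hη0])
    choose T5 hT5 hev5 using h1
    refine ⟨∑ j ∈ Finset.range d, T5 j, ?_⟩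
    intro j hj T hT
    apply hev5 j T
    refine le_trans ?_ hT
    exact Finset.single_le_sum (fun i _ => by linarith only [hT5 i]) (mem_range.mpr hj)
  obtain ⟨T5, hev5⟩ := hev5'
  refine ⟨I, max (max T1 T2) (max T3 T5), hT1.trans ((le_max_left _ _).trans (le_max_left _ _)), ?_⟩
  intro t ht n hn
  have hT1' : T1 ≤ t := ((le_max_left _ _).trans (le_max_left _ _)).trans ht
  have hT2' : T2 ≤ t := ((le_max_right _ _).trans (le_max_left _ _)).trans ht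
  have hT3' : T3 ≤ t := ((le_max_left _ _).trans (le_max_right _ _)).trans ht
  have hT5' : T5 ≤ t := ((le_max_right _ _).trans (le_max_right _ _)).trans ht
  obtain ⟨T, hTt⟩ : ∃ T : ℝ, T = t := ⟨_, rfl⟩
  have hT : 1 ≤ T := by rw [hTt]; exact hT1.trans hT1'
  have ht1' : 1 ≤ t := by
    have : (1:ℝ) ≤ t := by rw [← hTt]; exact hT
    exact_mod_cast this
  have e1 := hev1 t hT1'
  have e2 := hev2 t hT2'
  have e3 := hev3 t hT3'
  rw [← hTt] at e1 e2 e3 hn ⊢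
  have hT0 : 0 < T := by linarith only [hT]
  have hTη : 1 ≤ T ^ η := Real.one_le_rpow hT hη0.le
  obtain ⟨l, hl⟩ : ∃ l : ℕ, l = ⌈T ^ η⌉₊ := ⟨_, rfl⟩
  have hl1 : T ^ η ≤ l := by rw [hl]; exact Nat.le_ceil _
  have hl2 : (l:ℝ) ≤ 2 * T ^ η := by
    have := Nat.ceil_lt_add_one (show 0 ≤ T ^ η by positivity)
    rw [← hl] at this
    linarith only [hTη, this]
  have hl0 : (0:ℝ) < l := by linarith only [hTη, hl1]
  obtain ⟨N, hN⟩ : ∃ N : ℝ, N = 8 * T ^ (2 * α + 2) := ⟨_, rfl⟩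
  have hTN : 1 ≤ T ^ (2 * α + 2) := Real.one_le_rpow hT (by linarith only [hα0])
  have hN1 : 1 ≤ N := by rw [hN]; linarith only [hTN]
  have hcast : (((t + 1 : ℕ)) : ℝ) = T + 1 := by push_cast; rw [hTt]
  have ht1 : (((t + 1 : ℕ)) : ℝ) ≤ 2 * T := by rw [hcast]; linarith only [hT]
  have hTα : 1 ≤ T ^ α := Real.one_le_rpow hT hα0
  have hbig : 0 < T ^ (2 * α + 2 * η + 3) := by positivity
  have hbig2 : T ^ (2 * α + 2) ≤ T ^ (2 * α + 2 * η + 3) :=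
    Real.rpow_le_rpow_of_exponent_le hT (by linarith only [hη0])
  have hlogN : 2 * Real.log N + 1 ≤ T ^ η := by
    refine le_trans ?_ e1
    have h1 : N ≤ B * T ^ (2 * α + 2 * η + 3) := by
      rw [hN, hB]
      nlinarith only [hTN, hbig2, hbig, hA0, mul_nonneg hA0 hbig.le]
    have h2 := Real.log_le_log (by linarith only [hN1]) h1
    have h3 : 0 ≤ Real.log N := Real.log_nonneg hN1
    linarith only [h2, h3]
  refine ⟨l, N, hl1, hl2, hN1, hlogN.trans hl1, ?_, ?_, ?_, ?_, ?_, ?_⟩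
  · have h1 : ((2 ^ (I + 1) : ℕ) : ℝ) ≤ l := by
      rw [Real.rpow_zero, mul_one] at e2
      push_cast
      exact e2.trans hl1
    exact_mod_cast h1
  · have h1 : (A:ℝ) * (((t + 1 : ℕ)) : ℝ) + 2 ≤ (2 * A + 2) * T := by
      have h2 : (A:ℝ) * (((t + 1 : ℕ)) : ℝ) ≤ A * (2 * T) := mul_le_mul_of_nonneg_left ht1 hA0
      nlinarith only [h2, hT]
    have h2 : 16 * (2 * Real.log N + 1) * (A * (((t + 1 : ℕ)) : ℝ) + 2) ≤
        16 * T ^ η * ((2 * A + 2) * T) := by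
      have h3 : 0 ≤ Real.log N := Real.log_nonneg hN1
      apply mul_le_mul _ h1 (by positivity) (by positivity)
      linarith only [hlogN]
    have h4 : 16 * T ^ η * ((2 * A + 2) * T) = (32 * A + 32) * T ^ (1 + η) := by
      rw [Real.rpow_add hT0, Real.rpow_one]; ring
    have h5 : T ^ (3:ℝ) ≤ (l:ℝ) ^ I := by
      calc T ^ (3:ℝ) ≤ T ^ ((I:ℝ) * η) :=
            Real.rpow_le_rpow_of_exponent_le hT (by linarith only [hI3])
        _ = (T ^ η) ^ I := (rpow_nat_mul T η hT0.le I).symm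
        _ ≤ (l:ℝ) ^ I := pow_le_pow_left₀ (by positivity) hl1 I
    linarith only [e3, h2, h4, h5]
  · rw [hN]
    have h1 : (n:ℝ) ^ 2 ≤ (2 * T ^ α) ^ 2 := pow_le_pow_left₀ (Nat.cast_nonneg n) hn 2
    have h2 : (2 * T ^ α) ^ 2 = 4 * T ^ (2 * α) := by
      rw [mul_pow, rpow_nat_mul T α hT0.le 2]; norm_num
    have h3 : T ^ (2 * α) ≤ T ^ (2 * α + 2) :=
      Real.rpow_le_rpow_of_exponent_le hT (by linarith only [])
    rw [h2] at h1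
    linarith only [h1, h3]
  · rw [hN]
    have h1 : (n:ℝ) * (((t + 1 : ℕ)) : ℝ) ≤ (2 * T ^ α) * (2 * T) :=
      mul_le_mul hn ht1 (Nat.cast_nonneg _) (by positivity)
    have h2 : (2 * T ^ α) * (2 * T) = 4 * T ^ (α + 1) := by
      rw [Real.rpow_add hT0, Real.rpow_one]; ring
    have h3 : T ^ (α + 1) ≤ T ^ (2 * α + 2) :=
      Real.rpow_le_rpow_of_exponent_le hT (by linarith only [hα0])
    rw [h2] at h1
    linarith only [hTN, h1, h3]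
  · refine le_trans ?_ (e1.trans hl1)
    have h1 : A * N * (l:ℝ) ^ 2 * (((t + 1 : ℕ)) : ℝ) + 3 ≤ B * T ^ (2 * α + 2 * η + 3) := by
      have h2 : (l:ℝ) ^ 2 ≤ (2 * T ^ η) ^ 2 := pow_le_pow_left₀ hl0.le hl2 2
      have h3 : (2 * T ^ η) ^ 2 = 4 * T ^ (2 * η) := by
        rw [mul_pow, rpow_nat_mul T η hT0.le 2]; norm_num
      rw [h3] at h2
      have hAN : 0 ≤ (A:ℝ) * N := mul_nonneg hA0 (by linarith only [hN1])
      have h4 : A * N * (l:ℝ) ^ 2 * (((t + 1 : ℕ)) : ℝ) ≤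
          A * N * (4 * T ^ (2 * η)) * (2 * T) := by
        apply mul_le_mul _ ht1 (Nat.cast_nonneg _) (by positivity)
        exact mul_le_mul_of_nonneg_left h2 hAN
      have h5 : A * N * (4 * T ^ (2 * η)) * (2 * T) = 64 * A * T ^ (2 * α + 2 * η + 3) := by
        rw [hN]
        have h6 : (2 * α + 2 * η + 3 : ℝ) = (2 * α + 2) + (2 * η) + 1 := by ring
        rw [h6, Real.rpow_add hT0 (2 * α + 2 + 2 * η) 1, Real.rpow_add hT0 (2 * α + 2) (2 * η),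
          Real.rpow_one]
        ring
      have h7 : 1 ≤ T ^ (2 * α + 2 * η + 3) := Real.one_le_rpow hT (by linarith only [hη0, hα0])
      rw [h5] at h4
      rw [hB]
      nlinarith only [h4, h7]
    have h0 : 0 < A * N * (l:ℝ) ^ 2 * (((t + 1 : ℕ)) : ℝ) + 3 := by
      have hAN : 0 ≤ (A:ℝ) * N := mul_nonneg hA0 (by linarith only [hN1])
      have : 0 ≤ (((t + 1 : ℕ)) : ℝ) := Nat.cast_nonneg _
      positivity
    have h2 := Real.log_le_log h0 h1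
    linarith only [h2]
  · intro j hj
    have h0 := hC j t ht1'
    have e5 := hev5 j hj t hT5'
    rw [← hTt] at h0 e5
    apply pinnedBy_mono le_rfl _ h0
    have h1 : T ^ (fe j + η / 2) ≤ T ^ (η / 2) * T ^ j := by
      rw [← Real.rpow_natCast T j, ← Real.rpow_add hT0]
      apply Real.rpow_le_rpow_of_exponent_le hT
      have := fe_le_self j
      linarith only [this]
    have h2 : T ^ j ≤ (((t + 1 : ℕ)) : ℝ) ^ j := by
      apply pow_le_pow_left₀ hT0.le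
      rw [hcast]; linarith only []
    calc C j * T ^ (fe j + η / 2) ≤ C j * (T ^ (η / 2) * T ^ j) :=
          mul_le_mul_of_nonneg_left h1 (hC0 j).le
      _ = (C j * T ^ (η / 2)) * T ^ j := by ring
      _ ≤ l * (((t + 1 : ℕ)) : ℝ) ^ j :=
          mul_le_mul (e5.trans hl1) h2 (by positivity) hl0.le

/-- contradiction from one alternative -/
theorem no_case {T X M a b : ℝ} (hT : 1 ≤ T) (h1 : T ^ a ≤ X) (h2 : X ≤ M * T ^ b)
    (h3 : (2 * M) * T ^ b ≤ T ^ a) : False := by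
  have h4 : 0 < T ^ a := Real.rpow_pos_of_pos (by linarith only [hT]) a
  linarith only [h1, h2, h3, h4]

/-- the induction step from the key inequality -/
theorem step_large (d : ℕ) (hd : 2 ≤ d) (K : ℝ) (c A E : ℕ) (hK : 1 ≤ K)
    (hkey : KeyG d K c A E) (γ α ζ : ℝ) (hγ : Pex (d - 1) γ) (hγ0 : 0 ≤ γ) (h1 : 1 ≤ α)
    (hζ : 0 ≤ ζ) (h2 : (d:ℝ) + ζ ≤ 2 * α)
    (h3 : (d:ℝ) ^ 2 + 1 ≤ 2 * d * α + 2 * ((d:ℝ) - 1) * ζ) (h4 : 18 * ζ + ((d:ℝ) - 1) ≤ 2 * α)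
    (h5 : 3 * (E:ℝ) * ζ + γ ≤ α) (ε : ℝ) (hε : 0 < ε) (hε1 : ε ≤ 1) :
    ∃ T0 : ℝ, ∀ t : ℕ, T0 ≤ t → PinnedBy d t (2 * (t:ℝ) ^ (α + ε)) := by
  classical
  have hD : (2:ℝ) ≤ d := by exact_mod_cast hd
  have hc0 : (0:ℝ) ≤ c := Nat.cast_nonneg c
  obtain ⟨η, hη⟩ : ∃ η : ℝ, η = ε / (2 * (c + 1)) := ⟨_, rfl⟩
  have hη0 : 0 < η := by rw [hη]; positivity
  have hcd : (c + 1) * η = ε / 2 := by rw [hη]; field_simp
  have hcη0 : 0 ≤ (c:ℝ) * η := mul_nonneg hc0 hη0.le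
  have hcη : (c:ℝ) * η + η = ε / 2 := by linarith only [hcd]
  obtain ⟨β, hβ⟩ : ∃ β : ℝ, β = α + ε := ⟨_, rfl⟩
  have hβ0 : 0 ≤ β := by linarith only [hβ, h1, hε]
  obtain ⟨I, T0, hT01, hpar⟩ := params d A β η hβ0 hη0 (by linarith only [hcη, hcη0, hε1])
  obtain ⟨Cg, hCg0, hCg⟩ := hγ η hη0
  obtain ⟨M1, hM1⟩ : ∃ M : ℝ, M = K * 2 ^ c * 2 := ⟨_, rfl⟩
  obtain ⟨M2, hM2⟩ : ∃ M : ℝ, M = K * 2 ^ c * 2 ^ d := ⟨_, rfl⟩
  obtain ⟨M3, hM3⟩ : ∃ M : ℝ, M = K * 2 ^ c * 2 ^ (d ^ 2 + 1) := ⟨_, rfl⟩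
  obtain ⟨M4, hM4⟩ : ∃ M : ℝ, M = K * 2 ^ c * 2 ^ (d - 1) := ⟨_, rfl⟩
  obtain ⟨M5, hM5⟩ : ∃ M : ℝ, M = K * 2 ^ c * (Cg + 1) := ⟨_, rfl⟩
  obtain ⟨S1, hS1, ev1⟩ := ev_rpow (2 * M1) ((c:ℝ) * η + 1) β (by linarith only [hβ, h1, hcη, hη0, hε])
  obtain ⟨S2, hS2, ev2⟩ := ev_rpow (2 * M2) ((c:ℝ) * η + ζ + d) (((2:ℕ):ℝ) * β) (by
    push_cast
    linarith only [hβ, h2, hcη, hη0, hε])
  obtain ⟨S3, hS3, ev3⟩ := ev_rpow (2 * M3) ((c:ℝ) * η + ((d ^ 2 + 1 : ℕ) : ℝ))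
    (((2 * d : ℕ) : ℝ) * β + ((2 * (d - 1) : ℕ) : ℝ) * ζ) (by
      have hc : ((2 * (d - 1) : ℕ) : ℝ) = 2 * ((d:ℝ) - 1) := by
        rw [Nat.cast_mul, Nat.cast_sub (by omega)]; simp
      have h6 : 2 * (d:ℝ) * β = 2 * d * α + 2 * d * ε := by rw [hβ]; ring
      have h7 : ε ≤ 2 * (d:ℝ) * ε := by nlinarith only [hε, hD]
      rw [hc]
      push_cast
      linarith only [h3, hcη, hη0, h6, h7, hε])
  obtain ⟨S4, hS4, ev4⟩ := ev_rpow (2 * M4) ((c:ℝ) * η + ((18:ℕ):ℝ) * ζ + ((d - 1 : ℕ) : ℝ))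
    (((2:ℕ):ℝ) * β) (by
      have hc : ((d - 1 : ℕ) : ℝ) = (d:ℝ) - 1 := by rw [Nat.cast_sub (by omega)]; simp
      rw [hc]
      push_cast
      linarith only [hβ, h4, hcη, hη0, hε])
  obtain ⟨S5, hS5, ev5⟩ := ev_rpow (2 * M5) ((c:ℝ) * η + ((3 * E : ℕ) : ℝ) * ζ + (γ + η)) β (by
    push_cast
    linarith only [hβ, h5, hcη, hε])
  refine ⟨max (max (max S1 S2) (max S3 S4)) (max S5 T0), ?_⟩
  intro t ht
  have hS1' : S1 ≤ t :=
    ((le_max_left _ _).trans ((le_max_left _ _).trans (le_max_left _ _))).trans ht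
  have hS2' : S2 ≤ t :=
    ((le_max_right _ _).trans ((le_max_left _ _).trans (le_max_left _ _))).trans ht
  have hS3' : S3 ≤ t :=
    ((le_max_left _ _).trans ((le_max_right _ _).trans (le_max_left _ _))).trans ht
  have hS4' : S4 ≤ t :=
    ((le_max_right _ _).trans ((le_max_right _ _).trans (le_max_left _ _))).trans ht
  have hS5' : S5 ≤ t := ((le_max_left _ _).trans (le_max_right _ _)).trans ht
  have hT0' : T0 ≤ t := ((le_max_right _ _).trans (le_max_right _ _)).trans ht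
  have e1 := ev1 t hS1'
  have e2 := ev2 t hS2'
  have e3 := ev3 t hS3'
  have e4 := ev4 t hS4'
  have e5 := ev5 t hS5'
  have hpar' := hpar t hT0'
  obtain ⟨T, hTt⟩ : ∃ T : ℝ, T = t := ⟨_, rfl⟩
  have hT : 1 ≤ T := by rw [hTt]; exact hT01.trans hT0'
  have htn : 1 ≤ t := by
    have : (1:ℝ) ≤ t := by rw [← hTt]; exact hT
    exact_mod_cast this
  have hCgt := hCg t htn
  rw [← hTt] at e1 e2 e3 e4 e5 hpar' hCgt
  rw [← hβ, ← hTt]
  intro P hP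
  have hT0 : 0 < T := by linarith only [hT]
  by_contra hcon
  push Not at hcon
  have hTβ : 1 ≤ T ^ β := Real.one_le_rpow hT hβ0
  obtain ⟨n, hn⟩ : ∃ n : ℕ, n = ⌈T ^ β⌉₊ := ⟨_, rfl⟩
  have hn1 : T ^ β ≤ n := by rw [hn]; exact Nat.le_ceil _
  have hn2 : (n:ℝ) ≤ 2 * T ^ β := by
    have := Nat.ceil_lt_add_one (show 0 ≤ T ^ β by positivity)
    rw [← hn] at this
    linarith only [hTβ, this]
  have hnP : n ≤ P.card := by
    have : (n:ℝ) < P.card := lt_of_le_of_lt hn2 hcon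
    exact_mod_cast this.le
  obtain ⟨P', hP'sub, hP'card⟩ := exists_subset_card_eq hnP
  have hP' : ∀ p ∈ P', (P'.image (dist p)).card ≤ t + 1 := by
    intro p hp
    refine (card_le_card (image_subset_image hP'sub)).trans ?_
    convert hP p (hP'sub hp)
  obtain ⟨l, N, hl1, hl2, hN1, q0, q1, q2, q3, q4, q5, q6⟩ := hpar' n hn2
  have hTη : 1 ≤ T ^ η := Real.one_le_rpow hT hη0.le
  have hl0 : (0:ℝ) < l := by linarith only [hTη, hl1]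
  have hcast : (((t + 1 : ℕ)) : ℝ) = T + 1 := by push_cast; rw [hTt]
  have ht1 : (((t + 1 : ℕ)) : ℝ) ≤ 2 * T := by rw [hcast]; linarith only [hT]
  have ht10 : (0:ℝ) ≤ ((t + 1 : ℕ) : ℝ) := Nat.cast_nonneg _
  have hz : 1 ≤ T ^ ζ := Real.one_le_rpow hT hζ
  have hg : 1 ≤ (Cg + 1) * T ^ (γ + η) := by
    have h6 : 1 ≤ T ^ (γ + η) := Real.one_le_rpow hT (by linarith only [hγ0, hη0])
    nlinarith only [h6, hCg0]
  have hgP : PinnedBy (d - 1) t ((Cg + 1) * T ^ (γ + η)) := by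
    apply pinnedBy_mono le_rfl _ hCgt
    have h6 : 0 ≤ T ^ (γ + η) := by positivity
    nlinarith only [h6]
  have hfin := hkey P' t (t + 1) l I N ((Cg + 1) * T ^ (γ + η)) (T ^ ζ) rfl
    (fun p hp => by convert hP' p hp) hN1 q0 q1 q2 (by rw [hP'card]; exact q3)
    (by rw [hP'card]; exact q4) q5 q6 hgP hg hz
  rw [hP'card] at hfin
  -- the polylogarithmic factor
  have hlc : K * (l:ℝ) ^ c ≤ (K * 2 ^ c) * T ^ ((c:ℝ) * η) := by
    have h6 : (l:ℝ) ^ c ≤ (2 * T ^ η) ^ c := pow_le_pow_left₀ hl0.le hl2 c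
    rw [mul_pow, rpow_nat_mul T η hT0.le c] at h6
    calc K * (l:ℝ) ^ c ≤ K * (2 ^ c * T ^ ((c:ℝ) * η)) :=
          mul_le_mul_of_nonneg_left h6 (by linarith only [hK])
      _ = (K * 2 ^ c) * T ^ ((c:ℝ) * η) := by ring
  have hK0 : 0 ≤ K * 2 ^ c := by positivity
  have hlc0 : 0 ≤ (K * 2 ^ c) * T ^ ((c:ℝ) * η) := by positivity
  have htk : ∀ k : ℕ, (((t + 1 : ℕ)) : ℝ) ^ k ≤ 2 ^ k * T ^ (k:ℝ) := by
    intro k
    have h6 := pow_le_pow_left₀ ht10 ht1 k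
    rw [mul_pow] at h6
    rw [Real.rpow_natCast]
    exact h6
  have hnk : ∀ k : ℕ, T ^ ((k:ℝ) * β) ≤ (n:ℝ) ^ k := by
    intro k
    rw [← rpow_nat_mul T β hT0.le]
    exact pow_le_pow_left₀ (by positivity) hn1 _
  rcases hfin with h | h | h | h | h
  · apply no_case hT hn1 (h.trans _) e1
    calc K * (l:ℝ) ^ c * (((t + 1 : ℕ)) : ℝ)
        ≤ ((K * 2 ^ c) * T ^ ((c:ℝ) * η)) * (2 * T) := mul_le_mul hlc ht1 ht10 hlc0
      _ = M1 * T ^ ((c:ℝ) * η + 1) := by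
          rw [hM1, Real.rpow_add hT0, Real.rpow_one]; ring
  · apply no_case hT (hnk 2) (h.trans _) e2
    calc K * (l:ℝ) ^ c * (T ^ ζ * (((t + 1 : ℕ)) : ℝ) ^ d)
        ≤ ((K * 2 ^ c) * T ^ ((c:ℝ) * η)) * (T ^ ζ * (2 ^ d * T ^ (d:ℝ))) := by
          apply mul_le_mul hlc _ (by positivity) hlc0
          exact mul_le_mul_of_nonneg_left (htk d) (by positivity)
      _ = M2 * T ^ ((c:ℝ) * η + ζ + d) := by
          rw [hM2, Real.rpow_add hT0, Real.rpow_add hT0]; ring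
  · have h6 : T ^ (((2 * d : ℕ) : ℝ) * β + ((2 * (d - 1) : ℕ) : ℝ) * ζ) ≤
        (n:ℝ) ^ (2 * d) * (T ^ ζ) ^ (2 * (d - 1)) := by
      rw [Real.rpow_add hT0, ← rpow_nat_mul T ζ hT0.le]
      exact mul_le_mul_of_nonneg_right (hnk (2 * d)) (by positivity)
    apply no_case hT h6 (h.trans _) e3
    calc K * (l:ℝ) ^ c * (((t + 1 : ℕ)) : ℝ) ^ (d ^ 2 + 1)
        ≤ ((K * 2 ^ c) * T ^ ((c:ℝ) * η)) * (2 ^ (d ^ 2 + 1) * T ^ ((d ^ 2 + 1 : ℕ) : ℝ)) :=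
          mul_le_mul hlc (htk _) (by positivity) hlc0
      _ = M3 * T ^ ((c:ℝ) * η + ((d ^ 2 + 1 : ℕ) : ℝ)) := by
          rw [hM3, Real.rpow_add hT0]; ring
  · apply no_case hT (hnk 2) (h.trans _) e4
    calc K * (l:ℝ) ^ c * ((T ^ ζ) ^ 18 * (((t + 1 : ℕ)) : ℝ) ^ (d - 1))
        ≤ ((K * 2 ^ c) * T ^ ((c:ℝ) * η)) *
          ((T ^ ζ) ^ 18 * (2 ^ (d - 1) * T ^ ((d - 1 : ℕ) : ℝ))) := by
          apply mul_le_mul hlc _ (by positivity) hlc0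
          exact mul_le_mul_of_nonneg_left (htk (d - 1)) (by positivity)
      _ = M4 * T ^ ((c:ℝ) * η + ((18:ℕ):ℝ) * ζ + ((d - 1 : ℕ) : ℝ)) := by
          rw [hM4, Real.rpow_add hT0, Real.rpow_add hT0, ← rpow_nat_mul T ζ hT0.le]; ring
  · apply no_case hT hn1 (h.trans _) e5
    calc K * (l:ℝ) ^ c * ((T ^ ζ) ^ (3 * E) * ((Cg + 1) * T ^ (γ + η)))
        ≤ ((K * 2 ^ c) * T ^ ((c:ℝ) * η)) * ((T ^ ζ) ^ (3 * E) * ((Cg + 1) * T ^ (γ + η))) := by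
          apply mul_le_mul_of_nonneg_right hlc
          positivity
      _ = M5 * T ^ ((c:ℝ) * η + ((3 * E : ℕ) : ℝ) * ζ + (γ + η)) := by
          rw [hM5, Real.rpow_add hT0 _ (γ + η), Real.rpow_add hT0 ((c:ℝ) * η), ← rpow_nat_mul T ζ hT0.le]
          ring

/-- (G4) -/
theorem stepG (hkey : ∀ d : ℕ, 2 ≤ d → ∃ (K : ℝ) (c A : ℕ), 1 ≤ K ∧ KeyG d K c A (6 * (d - 1))) :
    StepG := by
  intro d hd γ α ζ hγ hγ0 h1 hζ h2 h3 h4 h5
  obtain ⟨K, c, A, hK, hk⟩ := hkey d hd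
  apply pex_of_large (by linarith only [h1])
  intro ε hε hε1
  refine step_large d hd K c A _ hK hk γ α ζ hγ hγ0 h1 hζ h2 h3 h4 ?_ ε hε hε1
  have hc : ((6 * (d - 1) : ℕ) : ℝ) = 6 * ((d:ℝ) - 1) := by
    rw [Nat.cast_mul, Nat.cast_sub (by omega)]; simp
  rw [hc]
  linarith only [h5]

/-- Theorem G from the key inequality -/
theorem pex_of_key
    (hkey : ∀ d : ℕ, 2 ≤ d → ∃ (K : ℝ) (c A : ℕ), 1 ≤ K ∧ KeyG d K c A (6 * (d - 1)))
    (d : ℕ) (hd : 1 ≤ d) : Pex d (bG d) := pex_bG (stepG hkey) d hd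

end Vale.Agent.P054I
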