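import Vale.Agent.P054.MathlibUsed
import Vale.Agent.P054.H239.GMid
import Vale.Agent.P054.H449.IM.Defs3
attribute [-instance] ProperSMul.toContinuousSMul IsTopologicalTorsor.toContinuousSMul IdemSemiring.toCanonicallyOrderedAdd IdemSemiring.toMulLeftMono IdemSemiring.toMulRightMono AddQuantale.instAddLeftMono AddQuantale.instAddRightMono Quantale.instMulLeftMono Quantale.instMulRightMono FiniteDimensional.rclike_to_real IsScalarTower.complexToReal FiniteDimensional.complexToReal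

set_option linter.all false
set_option autoImplicit false

open Finset Vale.Agent.P054K

namespace Vale.Agent.P054I

/-- the key inequality with flats of codimension `r`: `F` is the exponent of `η` in the fourth and
`E` in the fifth alternative -/
def KeyGen (d r : ℕ) (K : ℝ) (c A F E : ℕ) : Prop :=
  open scoped Classical in
  ∀ (P : Finset (EuclideanSpace ℝ (Fin d))) (t t1 l I : ℕ) (N g η : ℝ), t1 = t + 1 →
    (∀ p ∈ P, (P.image (dist p)).card ≤ t + 1) → 1 ≤ N → 2 * Real.log N + 1 ≤ l →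
    2 ^ (I + 1) ≤ l → 16 * (2 * Real.log N + 1) * (A * (t1:ℝ) + 2) ≤ (l:ℝ) ^ I →
    2 * (P.card : ℝ) ^ 2 ≤ N → (P.card : ℝ) * (t1:ℝ) ≤ N →
    20 * (Real.log (A * N * (l:ℝ) ^ 2 * (t1:ℝ) + 3) + 1) ≤ l →
    (∀ j < d, PinnedBy j t (l * (t1:ℝ) ^ j)) → PinnedBy (d - r) t g → 1 ≤ g → 1 ≤ η →
    (P.card : ℝ) ≤ K * (l:ℝ) ^ c * t1 ∨
    (P.card : ℝ) ^ 2 ≤ K * (l:ℝ) ^ c * (t1:ℝ) ^ d ∨
    (P.card : ℝ) ^ (2 * d) * η ^ (d - 1) ≤ K * (l:ℝ) ^ c * (t1:ℝ) ^ (d ^ 2 + 1) ∨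
    (P.card : ℝ) ^ 2 ≤ K * (l:ℝ) ^ c * (η ^ F * (t1:ℝ) ^ (d - 1)) ∨
    (P.card : ℝ) ≤ K * (l:ℝ) ^ c * (η ^ E * g)

theorem keyGen_of_keyH {d : ℕ} {K : ℝ} {c A E : ℕ} (h : KeyH d K c A E) :
    KeyGen d 1 K c A 6 E := h

/-- the step for large `t` -/
theorem step_gen (d r : ℕ) (hd : 2 ≤ d) (K : ℝ) (c A F E : ℕ) (hK : 1 ≤ K)
    (hkey : KeyGen d r K c A F E) (γ α ζ : ℝ) (hγ : Pex (d - r) γ) (hγ0 : 0 ≤ γ) (h1 : 1 ≤ α)
    (hζ : 0 ≤ ζ) (h2 : (d:ℝ) ≤ 2 * α)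
    (h3 : (d:ℝ) ^ 2 + 1 ≤ 2 * d * α + ((d:ℝ) - 1) * ζ) (h4 : F * ζ + ((d:ℝ) - 1) ≤ 2 * α)
    (h5 : (E:ℝ) * ζ + γ ≤ α) (ε : ℝ) (hε : 0 < ε) (hε1 : ε ≤ 1) :
    ∃ T0 : ℝ, ∀ t : ℕ, T0 ≤ t → PinnedBy d t (2 * (t:ℝ) ^ (α + ε)) := by
  classical
  have hD : (2:ℝ) ≤ d := by exact_mod_cast hd
  have hc0 : (0:ℝ) ≤ c := Nat.cast_nonneg c
  have hcd1 : ((d - 1 : ℕ) : ℝ) = (d:ℝ) - 1 := by rw [Nat.cast_sub (by omega)]; simp
  obtain ⟨η, hη⟩ : ∃ η : ℝ, η = ε / (2 * (c + 1)) := ⟨_, rfl⟩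
  have hη0 : 0 < η := by rw [hη]; positivity
  have hcd : (c + 1) * η = ε / 2 := by rw [hη]; field_simp
  have hcη0 : 0 ≤ (c:ℝ) * η := mul_nonneg hc0 hη0.le
  have hcη : (c:ℝ) * η + η = ε / 2 := by linarith only [hcd]
  obtain ⟨β, hβ⟩ : ∃ β : ℝ, β = α + ε := ⟨_, rfl⟩
  have hβ0 : 0 ≤ β := by linarith only [hβ, h1, hε]
  obtain ⟨I, T0, hT01, hpar⟩ := params d A β η hβ0 hη0 (by linarith only [hcη, hcη0, hε1])
  obtain ⟨Cg, hCg0, hCg⟩ := hγ η hη0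
  obtain ⟨M1, hM1⟩ : ∃ M : ℝ, M = K * 2 ^ c * 2 := ⟨_, rfl⟩
  obtain ⟨M2, hM2⟩ : ∃ M : ℝ, M = K * 2 ^ c * 2 ^ d := ⟨_, rfl⟩
  obtain ⟨M3, hM3⟩ : ∃ M : ℝ, M = K * 2 ^ c * 2 ^ (d ^ 2 + 1) := ⟨_, rfl⟩
  obtain ⟨M4, hM4⟩ : ∃ M : ℝ, M = K * 2 ^ c * 2 ^ (d - 1) := ⟨_, rfl⟩
  obtain ⟨M5, hM5⟩ : ∃ M : ℝ, M = K * 2 ^ c * (Cg + 1) := ⟨_, rfl⟩
  obtain ⟨S1, hS1, ev1⟩ := ev_rpow (2 * M1) ((c:ℝ) * η + 1) β (by linarith only [hβ, h1, hcη, hη0, hε])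
  obtain ⟨S2, hS2, ev2⟩ := ev_rpow (2 * M2) ((c:ℝ) * η + d) (((2:ℕ):ℝ) * β) (by
    push_cast
    linarith only [hβ, h2, hcη, hη0, hε])
  obtain ⟨S3, hS3, ev3⟩ := ev_rpow (2 * M3) ((c:ℝ) * η + ((d ^ 2 + 1 : ℕ) : ℝ))
    (((2 * d : ℕ) : ℝ) * β + ((d - 1 : ℕ) : ℝ) * ζ) (by
      have h6 : 2 * (d:ℝ) * β = 2 * d * α + 2 * d * ε := by rw [hβ]; ring
      have h7 : ε ≤ 2 * (d:ℝ) * ε := by nlinarith only [hε, hD]
      rw [hcd1]
      push_cast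
      linarith only [h3, hcη, hη0, h6, h7, hε])
  obtain ⟨S4, hS4, ev4⟩ := ev_rpow (2 * M4) ((c:ℝ) * η + (F:ℝ) * ζ + ((d - 1 : ℕ) : ℝ))
    (((2:ℕ):ℝ) * β) (by
      rw [hcd1]
      push_cast
      linarith only [hβ, h4, hcη, hη0, hε])
  obtain ⟨S5, hS5, ev5⟩ := ev_rpow (2 * M5) ((c:ℝ) * η + (E:ℝ) * ζ + (γ + η)) β (by
    linarith only [hβ, h5, hcη, hε])
  refine ⟨max (max (max S1 S2) (max S3 S4)) (max S5 T0), ?_⟩
  intro t ht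
  have hS1' : S1 ≤ t :=
    ((le_max_left _ _).trans ((le_max_left _ _).trans (le_max_left _ _))).trans ht
  have hS2' : S2 ≤ t :=
    ((le_max_right _ _).trans ((le_max_left _ _).trans (le_max_left _ _))).trans ht
  have hS3' : S3 ≤ t :=
    ((le_max_left _ _).trans ((le_max_right _ _).trans (le_max_left _ _))).trans ht
  have hS4' : S4 ≤ t :=
    ((le_max_right _ _).trans ((le_max_right _ _).trans (le_max_left _ _))).trans ht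
  have hS5' : S5 ≤ t := ((le_max_left _ _).trans (le_max_right _ _)).trans ht
  have hT0' : T0 ≤ t := ((le_max_right _ _).trans (le_max_right _ _)).trans ht
  have e1 := ev1 t hS1'
  have e2 := ev2 t hS2'
  have e3 := ev3 t hS3'
  have e4 := ev4 t hS4'
  have e5 := ev5 t hS5'
  have hpar' := hpar t hT0'
  obtain ⟨T, hTt⟩ : ∃ T : ℝ, T = t := ⟨_, rfl⟩
  have hT : 1 ≤ T := by rw [hTt]; exact hT01.trans hT0'
  have htn : 1 ≤ t := by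
    have : (1:ℝ) ≤ t := by rw [← hTt]; exact hT
    exact_mod_cast this
  have hCgt := hCg t htn
  rw [← hTt] at e1 e2 e3 e4 e5 hpar' hCgt
  rw [← hβ, ← hTt]
  intro P hP
  have hT0 : 0 < T := by linarith only [hT]
  by_contra hcon
  push Not at hcon
  have hTβ : 1 ≤ T ^ β := Real.one_le_rpow hT hβ0
  obtain ⟨n, hn⟩ : ∃ n : ℕ, n = ⌈T ^ β⌉₊ := ⟨_, rfl⟩
  have hn1 : T ^ β ≤ n := by rw [hn]; exact Nat.le_ceil _
  have hn2 : (n:ℝ) ≤ 2 * T ^ β := by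
    have := Nat.ceil_lt_add_one (show 0 ≤ T ^ β by positivity)
    rw [← hn] at this
    linarith only [hTβ, this]
  have hnP : n ≤ P.card := by
    have : (n:ℝ) < P.card := lt_of_le_of_lt hn2 hcon
    exact_mod_cast this.le
  obtain ⟨P', hP'sub, hP'card⟩ := exists_subset_card_eq hnP
  have hP' : ∀ p ∈ P', (P'.image (dist p)).card ≤ t + 1 := by
    intro p hp
    refine (card_le_card (image_subset_image hP'sub)).trans ?_
    convert hP p (hP'sub hp)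
  obtain ⟨l, N, hl1, hl2, hN1, q0, q1, q2, q3, q4, q5, q6⟩ := hpar' n hn2
  have hTη : 1 ≤ T ^ η := Real.one_le_rpow hT hη0.le
  have hl0 : (0:ℝ) < l := by linarith only [hTη, hl1]
  have hcast : (((t + 1 : ℕ)) : ℝ) = T + 1 := by push_cast; rw [hTt]
  have ht1 : (((t + 1 : ℕ)) : ℝ) ≤ 2 * T := by rw [hcast]; linarith only [hT]
  have ht10 : (0:ℝ) ≤ ((t + 1 : ℕ) : ℝ) := Nat.cast_nonneg _
  have hz : 1 ≤ T ^ ζ := Real.one_le_rpow hT hζ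
  have hg : 1 ≤ (Cg + 1) * T ^ (γ + η) := by
    have h6 : 1 ≤ T ^ (γ + η) := Real.one_le_rpow hT (by linarith only [hγ0, hη0])
    nlinarith only [h6, hCg0]
  have hgP : PinnedBy (d - r) t ((Cg + 1) * T ^ (γ + η)) := by
    apply pinnedBy_mono le_rfl _ hCgt
    have h6 : 0 ≤ T ^ (γ + η) := by positivity
    nlinarith only [h6]
  have hfin := hkey P' t (t + 1) l I N ((Cg + 1) * T ^ (γ + η)) (T ^ ζ) rfl
    (fun p hp => by convert hP' p hp) hN1 q0 q1 q2 (by rw [hP'card]; exact q3)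
    (by rw [hP'card]; exact q4) q5 q6 hgP hg hz
  rw [hP'card] at hfin
  -- the polylogarithmic factor
  have hlc : K * (l:ℝ) ^ c ≤ (K * 2 ^ c) * T ^ ((c:ℝ) * η) := by
    have h6 : (l:ℝ) ^ c ≤ (2 * T ^ η) ^ c := pow_le_pow_left₀ hl0.le hl2 c
    rw [mul_pow, rpow_nat_mul T η hT0.le c] at h6
    calc K * (l:ℝ) ^ c ≤ K * (2 ^ c * T ^ ((c:ℝ) * η)) :=
          mul_le_mul_of_nonneg_left h6 (by linarith only [hK])
      _ = (K * 2 ^ c) * T ^ ((c:ℝ) * η) := by ring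
  have hK0 : 0 ≤ K * 2 ^ c := by positivity
  have hlc0 : 0 ≤ (K * 2 ^ c) * T ^ ((c:ℝ) * η) := by positivity
  have htk : ∀ k : ℕ, (((t + 1 : ℕ)) : ℝ) ^ k ≤ 2 ^ k * T ^ (k:ℝ) := by
    intro k
    have h6 := pow_le_pow_left₀ ht10 ht1 k
    rw [mul_pow] at h6
    rw [Real.rpow_natCast]
    exact h6
  have hnk : ∀ k : ℕ, T ^ ((k:ℝ) * β) ≤ (n:ℝ) ^ k := by
    intro k
    rw [← rpow_nat_mul T β hT0.le]
    exact pow_le_pow_left₀ (by positivity) hn1 _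
  rcases hfin with h | h | h | h | h
  · apply no_case hT hn1 (h.trans _) e1
    calc K * (l:ℝ) ^ c * (((t + 1 : ℕ)) : ℝ)
        ≤ ((K * 2 ^ c) * T ^ ((c:ℝ) * η)) * (2 * T) := mul_le_mul hlc ht1 ht10 hlc0
      _ = M1 * T ^ ((c:ℝ) * η + 1) := by
          rw [hM1, Real.rpow_add hT0, Real.rpow_one]; ring
  · apply no_case hT (hnk 2) (h.trans _) e2
    calc K * (l:ℝ) ^ c * ((((t + 1 : ℕ)) : ℝ) ^ d)
        ≤ ((K * 2 ^ c) * T ^ ((c:ℝ) * η)) * (2 ^ d * T ^ (d:ℝ)) :=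
          mul_le_mul hlc (htk d) (by positivity) hlc0
      _ = M2 * T ^ ((c:ℝ) * η + d) := by
          rw [hM2, Real.rpow_add hT0]; ring
  · have h6 : T ^ (((2 * d : ℕ) : ℝ) * β + ((d - 1 : ℕ) : ℝ) * ζ) ≤
        (n:ℝ) ^ (2 * d) * (T ^ ζ) ^ (d - 1) := by
      rw [Real.rpow_add hT0, ← rpow_nat_mul T ζ hT0.le]
      exact mul_le_mul_of_nonneg_right (hnk (2 * d)) (by positivity)
    apply no_case hT h6 (h.trans _) e3
    calc K * (l:ℝ) ^ c * (((t + 1 : ℕ)) : ℝ) ^ (d ^ 2 + 1)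
        ≤ ((K * 2 ^ c) * T ^ ((c:ℝ) * η)) * (2 ^ (d ^ 2 + 1) * T ^ ((d ^ 2 + 1 : ℕ) : ℝ)) :=
          mul_le_mul hlc (htk _) (by positivity) hlc0
      _ = M3 * T ^ ((c:ℝ) * η + ((d ^ 2 + 1 : ℕ) : ℝ)) := by
          rw [hM3, Real.rpow_add hT0]; ring
  · apply no_case hT (hnk 2) (h.trans _) e4
    calc K * (l:ℝ) ^ c * ((T ^ ζ) ^ F * (((t + 1 : ℕ)) : ℝ) ^ (d - 1))
        ≤ ((K * 2 ^ c) * T ^ ((c:ℝ) * η)) *
          ((T ^ ζ) ^ F * (2 ^ (d - 1) * T ^ ((d - 1 : ℕ) : ℝ))) := by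
          apply mul_le_mul hlc _ (by positivity) hlc0
          exact mul_le_mul_of_nonneg_left (htk (d - 1)) (by positivity)
      _ = M4 * T ^ ((c:ℝ) * η + (F:ℝ) * ζ + ((d - 1 : ℕ) : ℝ)) := by
          rw [hM4, Real.rpow_add hT0, Real.rpow_add hT0, ← rpow_nat_mul T ζ hT0.le]; ring
  · apply no_case hT hn1 (h.trans _) e5
    calc K * (l:ℝ) ^ c * ((T ^ ζ) ^ E * ((Cg + 1) * T ^ (γ + η)))
        ≤ ((K * 2 ^ c) * T ^ ((c:ℝ) * η)) * ((T ^ ζ) ^ E * ((Cg + 1) * T ^ (γ + η))) := by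
          apply mul_le_mul_of_nonneg_right hlc
          positivity
      _ = M5 * T ^ ((c:ℝ) * η + (E:ℝ) * ζ + (γ + η)) := by
          rw [hM5, Real.rpow_add hT0 _ (γ + η), Real.rpow_add hT0 ((c:ℝ) * η), ← rpow_nat_mul T ζ hT0.le]
          ring

/-- the new exponent in dimension `d` from the exponent `γ` in the smaller dimension -/
noncomputable def aS (d : ℕ) (κ γ : ℝ) : ℝ := ((d:ℝ) ^ 2 + 1 + κ * γ) / (2 * d + κ)

theorem aS_mul (d : ℕ) (hd : 1 ≤ d) {κ γ : ℝ} (hκ : 0 ≤ κ) :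
    aS d κ γ * (2 * d + κ) = (d:ℝ) ^ 2 + 1 + κ * γ := by
  have h : (1:ℝ) ≤ d := by exact_mod_cast hd
  unfold aS
  exact div_mul_cancel₀ _ (by positivity)

theorem aS_le_fd (d : ℕ) (hd : 1 ≤ d) {κ γ : ℝ} (hκ : 0 ≤ κ) (hγ : γ ≤ fd d) :
    aS d κ γ ≤ fd d := by
  have h : (1:ℝ) ≤ d := by exact_mod_cast hd
  have h1 := aS_mul d hd (κ := κ) (γ := γ) hκ
  have h2 := fd_mul d hd
  have h3 : (0:ℝ) < 2 * d + κ := by positivity
  refine le_of_mul_le_mul_right ?_ h3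
  rw [h1]
  have h4 : κ * γ ≤ κ * fd d := mul_le_mul_of_nonneg_left hγ hκ
  nlinarith

theorem aS_lt_fd (d : ℕ) (hd : 1 ≤ d) {κ γ : ℝ} (hκ : 0 < κ) (hγ : γ < fd d) :
    aS d κ γ < fd d := by
  have h : (1:ℝ) ≤ d := by exact_mod_cast hd
  have h1 := aS_mul d hd (κ := κ) (γ := γ) hκ.le
  have h2 := fd_mul d hd
  have h3 : (0:ℝ) < 2 * d + κ := by positivity
  refine lt_of_mul_lt_mul_right ?_ h3.le
  rw [h1]
  have h4 : κ * γ < κ * fd d := mul_lt_mul_of_pos_left hγ hκ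
  nlinarith

theorem le_aS (d : ℕ) (hd : 1 ≤ d) {κ γ : ℝ} (hκ : 0 ≤ κ) (hγ : γ ≤ fd d) :
    γ ≤ aS d κ γ := by
  have h : (1:ℝ) ≤ d := by exact_mod_cast hd
  have h1 := aS_mul d hd (κ := κ) (γ := γ) hκ
  have h2 := fd_mul d hd
  have h3 : (0:ℝ) < 2 * d + κ := by positivity
  refine le_of_mul_le_mul_right ?_ h3
  rw [h1]
  have h4 : γ * (2 * d) ≤ fd d * (2 * d) := mul_le_mul_of_nonneg_right hγ (by positivity)
  nlinarith

theorem aS_mono (d : ℕ) (hd : 1 ≤ d) {κ γ γ' : ℝ} (hκ : 0 ≤ κ) (hγ : γ ≤ γ') :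
    aS d κ γ ≤ aS d κ γ' := by
  have h : (1:ℝ) ≤ d := by exact_mod_cast hd
  unfold aS
  apply div_le_div_of_nonneg_right _ (by positivity)
  have := mul_le_mul_of_nonneg_left hγ hκ
  linarith

/-- one step of the recursion, all inequalities checked -/
theorem pex_step (d r : ℕ) (hd : 2 ≤ d) (K : ℝ) (c A F E : ℕ) (hK : 1 ≤ K)
    (hkey : KeyGen d r K c A F E) (γ κ : ℝ) (hγ : Pex (d - r) γ) (hγ0 : 0 ≤ γ)
    (hκ : 0 ≤ κ) (hE : E * κ ≤ (d:ℝ) - 1) (hγd : γ ≤ fd d) (hb1 : κ * (fd d - γ) ≤ 1)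
    (hb2 : F * (κ * (fd d - γ)) ≤ (d:ℝ) - 1) : Pex d (aS d κ γ) := by
  have hD : (2:ℝ) ≤ d := by exact_mod_cast hd
  have hd1 : (0:ℝ) < (d:ℝ) - 1 := by linarith
  obtain ⟨α, hα⟩ : ∃ α : ℝ, α = aS d κ γ := ⟨_, rfl⟩
  have a1 := aS_mul d (by omega) (κ := κ) (γ := γ) hκ
  have a2 := aS_le_fd d (by omega) hκ hγd
  have a3 := le_aS d (by omega) hκ hγd
  rw [← hα] at a1 a2 a3 ⊢
  obtain ⟨ζ, hζ⟩ : ∃ ζ : ℝ, ζ = κ * (α - γ) / ((d:ℝ) - 1) := ⟨_, rfl⟩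
  have z1 : ζ * ((d:ℝ) - 1) = κ * (α - γ) := by
    rw [hζ]; exact div_mul_cancel₀ _ hd1.ne'
  have z0 : 0 ≤ ζ := by
    rw [hζ]; exact div_nonneg (mul_nonneg hκ (by linarith)) hd1.le
  have z2 : κ * (α - γ) ≤ κ * (fd d - γ) := mul_le_mul_of_nonneg_left (by linarith) hκ
  have z3 : ζ * ((d:ℝ) - 1) ≤ 1 := by linarith
  have h2 : (d:ℝ) ≤ 2 * α := by
    have h6 : α * (2 * d) = (d:ℝ) ^ 2 + 1 - κ * (α - γ) := by linarith
    have h0 : (0:ℝ) < d := by linarith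
    refine le_of_mul_le_mul_right ?_ h0
    nlinarith
  have h4 : F * ζ + ((d:ℝ) - 1) ≤ 2 * α := by
    have hF : (0:ℝ) ≤ F := Nat.cast_nonneg F
    have h6 : (F * ζ) * ((d:ℝ) - 1) ≤ 1 * ((d:ℝ) - 1) := by
      calc (F * ζ) * ((d:ℝ) - 1) = F * (κ * (α - γ)) := by rw [← z1]; ring
        _ ≤ F * (κ * (fd d - γ)) := mul_le_mul_of_nonneg_left z2 hF
        _ ≤ 1 * ((d:ℝ) - 1) := by linarith
    have h7 := le_of_mul_le_mul_right h6 hd1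
    linarith
  have h5 : (E:ℝ) * ζ + γ ≤ α := by
    have h6 : ((E:ℝ) * ζ) * ((d:ℝ) - 1) ≤ (α - γ) * ((d:ℝ) - 1) := by
      calc ((E:ℝ) * ζ) * ((d:ℝ) - 1) = (E * κ) * (α - γ) := by rw [mul_assoc, z1]; ring
        _ ≤ ((d:ℝ) - 1) * (α - γ) := mul_le_mul_of_nonneg_right hE (by linarith)
        _ = (α - γ) * ((d:ℝ) - 1) := by ring
    have h7 := le_of_mul_le_mul_right h6 hd1
    linarith
  apply pex_of_large (by linarith)
  intro ε hε hε1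
  exact step_gen d r hd K c A F E hK hkey γ α ζ hγ hγ0 (by linarith) z0 h2 (by linarith) h4 h5 ε hε hε1

theorem fd_eq (d : ℕ) (hd : 1 ≤ d) : fd d = (d:ℝ) / 2 + 1 / (2 * d) := by
  have h : (1:ℝ) ≤ d := by exact_mod_cast hd
  unfold fd
  field_simp

/-- lower bound for the new exponent -/
theorem half_le_aS (d : ℕ) (hd : 1 ≤ d) {κ γ : ℝ} (hκ : 0 ≤ κ) (hg : κ * ((d:ℝ) / 2 - γ) ≤ 1) :
    (d:ℝ) / 2 ≤ aS d κ γ := by
  have h : (1:ℝ) ≤ d := by exact_mod_cast hd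
  have h1 := aS_mul d hd (κ := κ) (γ := γ) hκ
  have h3 : (0:ℝ) < 2 * d + κ := by positivity
  refine le_of_mul_le_mul_right ?_ h3
  rw [h1]
  nlinarith

/-! ### codimension one: `bH 1 = 1`, `bH d = (6 (d ^ 2 + 1) + bH (d - 1)) / (12 d + 1)` -/

noncomputable def bH : ℕ → ℝ
  | 0 => 0
  | 1 => 1
  | (k + 2) => (6 * (((k:ℝ) + 2) ^ 2 + 1) + bH (k + 1)) / (12 * ((k:ℝ) + 2) + 1)

theorem bH_one : bH 1 = 1 := by simp [bH]

theorem bH_eq (d : ℕ) (hd : 2 ≤ d) : bH d = aS d (1 / 6) (bH (d - 1)) := by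
  obtain ⟨k, rfl⟩ : ∃ k, d = k + 2 := ⟨d - 2, by omega⟩
  have h1 : bH (k + 2) = (6 * (((k:ℝ) + 2) ^ 2 + 1) + bH (k + 1)) / (12 * ((k:ℝ) + 2) + 1) := rfl
  have h2 : k + 2 - 1 = k + 1 := by omega
  rw [h1, h2]
  unfold aS
  push_cast
  have h3 : (0:ℝ) < 12 * ((k:ℝ) + 2) + 1 := by positivity
  have h4 : (0:ℝ) < 2 * ((k:ℝ) + 2) + 1 / 6 := by positivity
  rw [div_eq_div_iff h3.ne' h4.ne']
  ring

/-- `d / 2 ≤ bH d ≤ fd d` -/
theorem bH_bounds (d : ℕ) (hd : 1 ≤ d) : (d:ℝ) / 2 ≤ bH d ∧ bH d ≤ fd d := by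
  induction d with
  | zero => omega
  | succ m ih =>
    rcases Nat.eq_zero_or_pos m with h | h
    · subst h
      rw [Nat.zero_add, bH_one]
      unfold fd
      norm_num
    · obtain ⟨h1, h2⟩ := ih h
      have hm : m + 1 - 1 = m := by omega
      have h4 := fd_pred (m + 1) (by omega)
      rw [bH_eq (m + 1) (by omega), hm]
      rw [hm] at h4
      constructor
      · apply half_le_aS _ (by omega) (by norm_num)
        push_cast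
        linarith
      · exact aS_le_fd _ (by omega) (by norm_num) (h2.trans h4.le)

theorem bH_lt_fd (d : ℕ) (hd : 2 ≤ d) : bH d < fd d := by
  rw [bH_eq d hd]
  exact aS_lt_fd d (by omega) (by norm_num)
    ((bH_bounds (d - 1) (by omega)).2.trans_lt (fd_pred d hd))

theorem bH_incr (d : ℕ) (hd : 2 ≤ d) : fd d - bH (d - 1) ≤ 3 / 4 := by
  have h2 := (bH_bounds (d - 1) (by omega)).1
  have hD : (2:ℝ) ≤ d := by exact_mod_cast hd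
  have hc : ((d - 1 : ℕ) : ℝ) = (d:ℝ) - 1 := by rw [Nat.cast_sub (by omega)]; simp
  rw [hc] at h2
  rw [fd_eq d (by omega)]
  have h4 : (1:ℝ) / (2 * d) ≤ 1 / 4 := by
    apply one_div_le_one_div_of_le (by norm_num)
    linarith
  linarith

/-- (G4), codimension one -/
theorem pex_of_keyH
    (hkey : ∀ d : ℕ, 2 ≤ d → ∃ (K : ℝ) (c A : ℕ), 1 ≤ K ∧ KeyH d K c A (6 * (d - 1)))
    (d : ℕ) (hd : 1 ≤ d) : Pex d (bH d) := by
  induction d with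
  | zero => omega
  | succ m ih =>
    rcases Nat.eq_zero_or_pos m with h | h
    · subst h
      rw [Nat.zero_add, bH_one]
      exact pex_one
    · have hd2 : 2 ≤ m + 1 := by omega
      have hm : m + 1 - 1 = m := by omega
      have hD : (2:ℝ) ≤ ((m + 1 : ℕ) : ℝ) := by exact_mod_cast hd2
      obtain ⟨K, c, A, hK, hk⟩ := hkey (m + 1) hd2
      have hb := bH_bounds m h
      have hinc := bH_incr (m + 1) hd2
      have h4 := fd_pred (m + 1) hd2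
      rw [bH_eq (m + 1) hd2]
      rw [hm] at hinc h4 ⊢
      have hm0 : (0:ℝ) ≤ m := Nat.cast_nonneg m
      have hm1 : (1:ℝ) ≤ m := by exact_mod_cast h
      refine pex_step (m + 1) 1 hd2 K c A 6 _ hK (keyGen_of_keyH hk) (bH m) (1 / 6) ?_
        (by linarith) (by norm_num) ?_ (hb.2.trans h4.le) (by linarith) ?_
      · rw [hm]; exact ih h
      · rw [hm]; push_cast; linarith
      · push_cast
        linarith

end Vale.Agent.P054I
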