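import Vale.Agent.P054.MathlibUsed
import Vale.Agent.P054.H239.HAbs
attribute [-instance] ProperSMul.toContinuousSMul IsTopologicalTorsor.toContinuousSMul IdemSemiring.toCanonicallyOrderedAdd IdemSemiring.toMulLeftMono IdemSemiring.toMulRightMono AddQuantale.instAddLeftMono AddQuantale.instAddRightMono Quantale.instMulLeftMono Quantale.instMulRightMono FiniteDimensional.rclike_to_real IsScalarTower.complexToReal FiniteDimensional.complexToReal

set_option linter.all false
set_option autoImplicit false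

open Finset Vale.Agent.P054K

namespace Vale.Agent.P054I

/-- points with a common dual subspace: the flat is isometric to a space of dimension `j` -/
theorem flat_iso {d j : ℕ} (S : Finset (EuclideanSpace ℝ (Fin d)))
    (A : Submodule ℝ (EuclideanSpace ℝ (Fin d) × ℝ)) (hA : ∀ p ∈ S, A ≤ hyp p)
    (hj : Module.finrank ℝ A + j = d) :
    ∃ f : EuclideanSpace ℝ (Fin d) → EuclideanSpace ℝ (Fin j),
      ∀ p ∈ S, ∀ q ∈ S, dist (f p) (f q) = dist p q := by
  classical
  rcases S.eq_empty_or_nonempty with hSe | ⟨p₀, hp₀⟩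
  · subst hSe
    exact ⟨fun _ => 0, fun p hp => absurd hp (Finset.notMem_empty p)⟩
  obtain ⟨U, hU⟩ : ∃ U : Submodule ℝ (EuclideanSpace ℝ (Fin d)),
    U = A.map (LinearMap.fst ℝ (EuclideanSpace ℝ (Fin d)) ℝ) := ⟨_, rfl⟩
  have hfU : Module.finrank ℝ U = Module.finrank ℝ A := by
    have hinj : Function.Injective
        ((LinearMap.fst ℝ (EuclideanSpace ℝ (Fin d)) ℝ).domRestrict A) := by
      rw [injective_iff_map_eq_zero]
      rintro ⟨⟨u, c⟩, hx⟩ h0
      have hu : u = 0 := h0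
      subst hu
      have h1 := hA p₀ hp₀ hx
      rw [mem_hyp] at h1
      simp only [inner_zero_right, mul_zero] at h1
      subst h1
      rfl
    have h2 := LinearMap.finrank_range_of_inj hinj
    have h3 : LinearMap.range ((LinearMap.fst ℝ (EuclideanSpace ℝ (Fin d)) ℝ).domRestrict A) = U := by
      rw [hU, LinearMap.range_domRestrict]
    rw [h3] at h2
    exact h2
  have horth : ∀ p ∈ S, p - p₀ ∈ Uᗮ := by
    intro p hp
    rw [Submodule.mem_orthogonal]
    intro u hu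
    rw [hU, Submodule.mem_map] at hu
    obtain ⟨⟨u', c⟩, hx, hxu⟩ := hu
    have hxu' : u' = u := hxu
    subst hxu'
    have h1 := hA p hp hx
    have h2 := hA p₀ hp₀ hx
    rw [mem_hyp] at h1 h2
    rw [inner_sub_right, real_inner_comm, real_inner_comm p₀]
    linarith only [h1, h2]
  have hfO : Module.finrank ℝ Uᗮ = j := by
    have h1 := Submodule.finrank_add_finrank_orthogonal U
    rw [finrank_euclideanSpace_fin, hfU] at h1
    omega
  obtain ⟨b⟩ : Nonempty (OrthonormalBasis (Fin j) ℝ Uᗮ) :=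
    ⟨(stdOrthonormalBasis ℝ Uᗮ).reindex (finCongr hfO)⟩
  refine ⟨fun p => if h : p - p₀ ∈ Uᗮ then b.repr ⟨p - p₀, h⟩ else 0, ?_⟩
  intro p hp q hq
  simp only
  rw [dif_pos (horth p hp), dif_pos (horth q hq), LinearIsometryEquiv.dist_map]
  rw [Subtype.dist_eq, dist_sub_right]

/-- a hyperplane section is isometric to a set in dimension `d - 1` -/
theorem hyper_iso {d : ℕ} (S : Finset (EuclideanSpace ℝ (Fin d)))
    (p0 v : EuclideanSpace ℝ (Fin d)) (hv : v ≠ 0) (hS : ∀ z ∈ S, inner ℝ v (z - p0) = 0) :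
    ∃ f : EuclideanSpace ℝ (Fin d) → EuclideanSpace ℝ (Fin (d - 1)),
      ∀ p ∈ S, ∀ q ∈ S, dist (f p) (f q) = dist p q := by
  have hne : ((v, 2 * inner ℝ p0 v) : EuclideanSpace ℝ (Fin d) × ℝ) ≠ 0 := by
    intro h0
    rw [Prod.mk_eq_zero] at h0
    exact hv h0.1
  have hd : 1 ≤ d := by
    rcases Nat.eq_zero_or_pos d with h | h
    · subst h
      exact absurd (Subsingleton.elim v 0) hv
    · exact h
  apply flat_iso S (Submodule.span ℝ {((v, 2 * inner ℝ p0 v) : EuclideanSpace ℝ (Fin d) × ℝ)})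
  · intro p hp
    rw [Submodule.span_singleton_le_iff_mem, mem_hyp]
    have h1 := hS p hp
    rw [inner_sub_right] at h1
    rw [real_inner_comm v p, real_inner_comm v p0]
    linarith only [h1]
  · rw [finrank_span_singleton hne]
    omega

/-- every point sees at most `t` nonzero distances -/
def PC (d t : ℕ) (P : Finset (EuclideanSpace ℝ (Fin d))) : Prop :=
  ∀ p ∈ P, (P.image (dist p)).card ≤ t + 1

open scoped Classical in
/-- at most `t` distances in total -/
def DC (d t : ℕ) (P : Finset (EuclideanSpace ℝ (Fin d))) : Prop :=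
  (P.offDiag.image (fun q => dist q.1 q.2)).card ≤ t

theorem PC.sub {d t : ℕ} {P P' : Finset (EuclideanSpace ℝ (Fin d))} (h : PC d t P)
    (hP : P' ⊆ P) : PC d t P' :=
  fun p hp => (card_le_card (image_subset_image hP)).trans (h p (hP hp))

theorem DC.sub {d t : ℕ} {P P' : Finset (EuclideanSpace ℝ (Fin d))} (h : DC d t P)
    (hP : P' ⊆ P) : DC d t P' := by
  classical
  unfold DC at h ⊢
  refine (card_le_card (image_subset_image ?_)).trans h
  intro q hq
  rw [mem_offDiag] at hq ⊢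
  exact ⟨hP hq.1, hP hq.2.1, hq.2.2⟩

theorem PC.mono {d t t' : ℕ} {P : Finset (EuclideanSpace ℝ (Fin d))} (ht : t ≤ t')
    (h : PC d t P) : PC d t' P := fun p hp => (h p hp).trans (by omega)

theorem DC.mono {d t t' : ℕ} {P : Finset (EuclideanSpace ℝ (Fin d))} (ht : t ≤ t')
    (h : DC d t P) : DC d t' P := le_trans h ht

theorem DC.toPC {d t : ℕ} {P : Finset (EuclideanSpace ℝ (Fin d))} (h : DC d t P) : PC d t P := by
  classical
  intro p hp
  unfold DC at h
  have h1 : P.image (dist p) ⊆ insert 0 (P.offDiag.image (fun q => dist q.1 q.2)) := by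
    intro r hr
    rw [mem_image] at hr
    obtain ⟨q, hq, rfl⟩ := hr
    rw [mem_insert]
    by_cases hpq : p = q
    · left; rw [hpq, dist_self]
    · right
      rw [mem_image]
      exact ⟨(p, q), mem_offDiag.mpr ⟨hp, hq, hpq⟩, rfl⟩
  exact ((card_le_card h1).trans (card_insert_le _ _)).trans (Nat.add_le_add_right h 1)

theorem inj_of_iso {d j : ℕ} {S : Finset (EuclideanSpace ℝ (Fin d))}
    {f : EuclideanSpace ℝ (Fin d) → EuclideanSpace ℝ (Fin j)}
    (hf : ∀ p ∈ S, ∀ q ∈ S, dist (f p) (f q) = dist p q) :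
    Set.InjOn f (S : Set (EuclideanSpace ℝ (Fin d))) := by
  intro p hp q hq hpq
  have h1 := hf p hp q hq
  rw [hpq, dist_self] at h1
  exact dist_eq_zero.mp h1.symm

open scoped Classical in
theorem PC.iso {d j t : ℕ} {P S : Finset (EuclideanSpace ℝ (Fin d))} (h : PC d t P) (hS : S ⊆ P)
    (f : EuclideanSpace ℝ (Fin d) → EuclideanSpace ℝ (Fin j))
    (hf : ∀ p ∈ S, ∀ q ∈ S, dist (f p) (f q) = dist p q) : PC j t (S.image f) := by
  intro p' hp'
  rw [mem_image] at hp'
  obtain ⟨p, hp, rfl⟩ := hp'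
  refine le_trans ?_ (h p (hS hp))
  apply card_le_card
  intro ρ hρ
  rw [mem_image] at hρ
  obtain ⟨q', hq', rfl⟩ := hρ
  rw [mem_image] at hq'
  obtain ⟨q, hq, rfl⟩ := hq'
  rw [hf p hp q hq]
  exact mem_image_of_mem _ (hS hq)

open scoped Classical in
theorem DC.iso {d j t : ℕ} {P S : Finset (EuclideanSpace ℝ (Fin d))} (h : DC d t P) (hS : S ⊆ P)
    (f : EuclideanSpace ℝ (Fin d) → EuclideanSpace ℝ (Fin j))
    (hf : ∀ p ∈ S, ∀ q ∈ S, dist (f p) (f q) = dist p q) : DC j t (S.image f) := by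
  unfold DC at h ⊢
  refine (card_le_card ?_).trans h
  intro ρ hρ
  rw [mem_image] at hρ
  obtain ⟨⟨a', b'⟩, hab, rfl⟩ := hρ
  rw [mem_offDiag] at hab
  obtain ⟨ha, hb, hne⟩ := hab
  simp only at ha hb hne ⊢
  rw [mem_image] at ha hb
  obtain ⟨a, ha, rfl⟩ := ha
  obtain ⟨b, hb, rfl⟩ := hb
  rw [hf a ha b hb, mem_image]
  refine ⟨(a, b), mem_offDiag.mpr ⟨hS ha, hS hb, fun h0 => hne ?_⟩, rfl⟩
  have h1 : a = b := h0
  rw [h1]

/-- a family of classes that passes to isometric images of subsets -/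
def Her (Sf : (j : ℕ) → ℕ → Finset (EuclideanSpace ℝ (Fin j)) → Prop) : Prop :=
  open scoped Classical in
  ∀ (d j t : ℕ) (P S : Finset (EuclideanSpace ℝ (Fin d))), Sf d t P → S ⊆ P →
    ∀ f : EuclideanSpace ℝ (Fin d) → EuclideanSpace ℝ (Fin j),
      (∀ p ∈ S, ∀ q ∈ S, dist (f p) (f q) = dist p q) → Sf j t (S.image f)

theorem her_PC : Her PC := by
  intro d j t P S h hS f hf
  exact PC.iso h hS f hf

theorem her_DC : Her DC := by
  intro d j t P S h hS f hf
  exact DC.iso h hS f hf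

/-- bound for the hyperplane sections -/
def HY (d : ℕ) (t : ℕ) (P : Finset (EuclideanSpace ℝ (Fin d))) (g : ℝ) : Prop :=
  open scoped Classical in
  ∀ p0 v : EuclideanSpace ℝ (Fin d), v ≠ 0 →
    ((P.filter (fun z => inner ℝ v (z - p0) = 0)).card : ℝ) ≤ g

/-- bound for the sections with flats of codimension two -/
def H2Y (d : ℕ) (t : ℕ) (P : Finset (EuclideanSpace ℝ (Fin d))) (g : ℝ) : Prop :=
  open scoped Classical in
  ∀ D : Submodule ℝ (EuclideanSpace ℝ (Fin d) × ℝ), Module.finrank ℝ D = 2 →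
    ((P.filter (fun p => D ≤ hyp p)).card : ℝ) ≤ g

theorem secEx_hyper {Sf : (j : ℕ) → ℕ → Finset (EuclideanSpace ℝ (Fin j)) → Prop} (hSf : Her Sf)
    {d : ℕ} {γ : ℝ} (h : Sex (d - 1) (Sf (d - 1)) γ) : SecEx d (Sf d) (HY d) γ := by
  classical
  intro δ hδ
  obtain ⟨C, hC, hCb⟩ := h δ hδ
  refine ⟨C + 1, by linarith, ?_⟩
  intro t ht P hP p0 v hv
  obtain ⟨S, hS⟩ : ∃ S : Finset (EuclideanSpace ℝ (Fin d)),
    S = P.filter (fun z => inner ℝ v (z - p0) = 0) := ⟨_, rfl⟩
  rw [← hS]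
  obtain ⟨f, hf⟩ := hyper_iso S p0 v hv (by
    intro z hz
    rw [hS, mem_filter] at hz
    exact hz.2)
  have hSP : S ⊆ P := by rw [hS]; exact filter_subset _ _
  have h1 := hCb t ht _ (hSf d (d - 1) t P S hP hSP f hf)
  rw [card_image_of_injOn (inj_of_iso hf)] at h1
  refine h1.trans ?_
  have : 0 ≤ (t:ℝ) ^ (γ + δ) := by positivity
  linarith

theorem secEx_two {Sf : (j : ℕ) → ℕ → Finset (EuclideanSpace ℝ (Fin j)) → Prop} (hSf : Her Sf)
    {d : ℕ} (hd : 2 ≤ d) {γ : ℝ} (h : Sex (d - 2) (Sf (d - 2)) γ) :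
    SecEx d (Sf d) (H2Y d) γ := by
  classical
  intro δ hδ
  obtain ⟨C, hC, hCb⟩ := h δ hδ
  refine ⟨C + 1, by linarith, ?_⟩
  intro t ht P hP D hD
  obtain ⟨S, hS⟩ : ∃ S : Finset (EuclideanSpace ℝ (Fin d)),
    S = P.filter (fun p => D ≤ hyp p) := ⟨_, rfl⟩
  rw [← hS]
  obtain ⟨f, hf⟩ := flat_iso (j := d - 2) S D (by
    intro z hz
    rw [hS, mem_filter] at hz
    exact hz.2) (by omega)
  have hSP : S ⊆ P := by rw [hS]; exact filter_subset _ _
  have h1 := hCb t ht _ (hSf d (d - 2) t P S hP hSP f hf)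
  rw [card_image_of_injOn (inj_of_iso hf)] at h1
  refine h1.trans ?_
  have : 0 ≤ (t:ℝ) ^ (γ + δ) := by positivity
  linarith

theorem sex_PC_iff {d : ℕ} {α : ℝ} : Sex d (PC d) α ↔ Pex d α := Iff.rfl

/-- the pinned bound implies the bound for the distances in total -/
theorem sex_DC_of_PC {d : ℕ} {α : ℝ} (h : Sex d (PC d) α) : Sex d (DC d) α := by
  intro ε hε
  obtain ⟨C, hC, hCb⟩ := h ε hε
  exact ⟨C, hC, fun t ht P hP => hCb t ht P hP.toPC⟩

end Vale.Agent.P054I
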