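import Vale.Agent.P054.MathlibUsed
import Vale.Agent.P054.H239.Sec
import Vale.Agent.P054.H25.Top
import Vale.Agent.P054.R2.H524.Local3
import Vale.Agent.P054.H449.IM.Defs4
attribute [-instance] ProperSMul.toContinuousSMul IsTopologicalTorsor.toContinuousSMul IdemSemiring.toCanonicallyOrderedAdd IdemSemiring.toMulLeftMono IdemSemiring.toMulRightMono AddQuantale.instAddLeftMono AddQuantale.instAddRightMono Quantale.instMulLeftMono Quantale.instMulRightMono FiniteDimensional.rclike_to_real IsScalarTower.complexToReal FiniteDimensional.complexToReal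

set_option linter.all false
set_option autoImplicit false

open Finset Vale.Agent.P054K Vale.Agent.P054G

namespace Vale.Agent.P054I

/-- general form of the local lemma -/
def LocGen (d : ℕ) (C : ℝ) (c e0 e1 e2 : ℕ) : Prop :=
  ∀ (X P : Finset (EuclideanSpace ℝ (Fin d))) (t l : ℕ) (k M1 M2 : ℝ), 1 ≤ k →
    20 * (Real.log ((X.card : ℝ) + 3) + 1) ≤ l → C * (l:ℝ) ^ c * k ^ e0 ≤ X.card →
    0 ≤ M1 → 0 ≤ M2 → (∀ p ∈ P, Bad X k p) → HY d t P M1 → H2Y d t P M2 →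
    (P.card : ℝ) ≤ C * (l:ℝ) ^ c * (k ^ e1 * M1 + k ^ e2 * M2)

theorem locGen_of_B3 {d : ℕ} {C : ℝ} {c : ℕ} (h : LocalB3 d C c) :
    LocGen d C c 6 (3 * (d - 1)) (9 * (d - 2)) := by
  intro X P t l k M1 M2 hk hl hX h1 h2 hb hy1 hy2
  have h3 := h X P l k M1 M2 hk hl hX h1 h2 hb hy1 hy2
  rw [add_comm (k ^ (3 * (d - 1)) * M1)]
  exact h3

theorem locGen_of_B {d : ℕ} {C : ℝ} {E : ℕ} (hC : 1 ≤ C) (h : LocalB d C E) :
    LocGen d C 0 3 E 0 := by
  intro X P t l k M1 M2 hk hl hX h1 h2 hb hy1 hy2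
  rw [pow_zero, mul_one] at hX
  have h3 := h X P k M1 hk hX h1 hb hy1
  rw [pow_zero, mul_one, pow_zero, one_mul]
  refine h3.trans ?_
  have h4 : 0 ≤ C * M2 := mul_nonneg (by linarith) h2
  nlinarith

theorem coef_le {K K' l : ℝ} {c c' : ℕ} (hK : 0 ≤ K) (hKK : K ≤ K') (hl : 1 ≤ l) (hc : c ≤ c') :
    K * l ^ c ≤ K' * l ^ c' :=
  mul_le_mul hKK (pow_le_pow_right₀ hl hc) (by positivity) (hK.trans hKK)

theorem keyX_mono {d : ℕ} {K : ℝ} {c A A' : ℕ} (hA : A ≤ A') (h : KeyX d K c A) :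
    KeyX d K c A' := by
  classical
  intro P t t1 l I N η x0 Bd ht1 hP hN hl hI h16 hN2 hN1 hlog hpin hη hx0 hloc htop
  have hlogN : 0 ≤ Real.log N := Real.log_nonneg hN
  have hAA : (A:ℝ) ≤ A' := by exact_mod_cast hA
  have ht0 : (0:ℝ) ≤ t1 := Nat.cast_nonneg _
  have h1 : (A:ℝ) * t1 ≤ A' * t1 := mul_le_mul_of_nonneg_right hAA ht0
  refine h P t t1 l I N η x0 Bd ht1 hP hN hl hI (le_trans ?_ h16) hN2 hN1 (le_trans ?_ hlog) hpin
    hη hx0 hloc htop
  · apply mul_le_mul_of_nonneg_left _ (by linarith)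
    linarith
  · have h2 : A * N * (l:ℝ) ^ 2 * (t1:ℝ) ≤ A' * N * (l:ℝ) ^ 2 * (t1:ℝ) := by
      have h3 : (A:ℝ) * (N * (l:ℝ) ^ 2 * t1) ≤ A' * (N * (l:ℝ) ^ 2 * t1) :=
        mul_le_mul_of_nonneg_right hAA (by positivity)
      linarith
    have h4 : 0 ≤ A * N * (l:ℝ) ^ 2 * (t1:ℝ) := by positivity
    have h5 := Real.log_le_log (by linarith : 0 < A * N * (l:ℝ) ^ 2 * (t1:ℝ) + 3)
      (by linarith : A * N * (l:ℝ) ^ 2 * (t1:ℝ) + 3 ≤ A' * N * (l:ℝ) ^ 2 * (t1:ℝ) + 3)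
    linarith

/-- the key inequality for a class of sets -/
theorem keyAbs_of {d : ℕ} (hd : 2 ≤ d) {Sf : ℕ → Finset (EuclideanSpace ℝ (Fin d)) → Prop}
    (hSf : ∀ t P, Sf t P → PC d t P) {K : ℝ} {c A : ℕ} (hK : 1 ≤ K) (hA : 1 ≤ A)
    (hX : KeyX d K c A) {C : ℝ} {c' e0 e1 e2 : ℕ} (hC : 1 ≤ C) (he1 : 1 ≤ e1)
    (hL : LocGen d C c' e0 e1 e2) :
    ∃ (K1 : ℝ) (c1 : ℕ), 1 ≤ K1 ∧ KeyAbs d Sf (HY d) (H2Y d) K1 c1 A (2 * e0) e1 e2 := by
  classical
  obtain ⟨K1, hK1⟩ : ∃ K1 : ℝ, K1 = 8 * K * C ^ 2 * 256 ^ (2 * e0 + e1 + e2) := ⟨_, rfl⟩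
  obtain ⟨c1, hc1⟩ : ∃ c1 : ℕ, c1 = c + 2 * c' + 2 * (2 * e0 + e1 + e2) := ⟨_, rfl⟩
  have h256 : (1:ℝ) ≤ 256 ^ (2 * e0 + e1 + e2) := one_le_pow₀ (by norm_num)
  have hC2 : 1 ≤ C ^ 2 := one_le_pow₀ hC
  have hCC : C ≤ C ^ 2 := le_self_pow₀ hC (by norm_num)
  have hKC : K ≤ K * C ^ 2 := le_mul_of_one_le_right (by linarith) hC2
  have hKC1 : 1 ≤ K * C ^ 2 := hK.trans hKC
  have hKC8 : 8 * (K * C ^ 2) ≤ K1 := by
    rw [hK1]
    have : 8 * (K * C ^ 2) * 1 ≤ 8 * (K * C ^ 2) * 256 ^ (2 * e0 + e1 + e2) :=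
      mul_le_mul_of_nonneg_left h256 (by linarith)
    linarith
  have hKK1 : K ≤ K1 := by linarith
  refine ⟨K1, c1, by linarith, ?_⟩
  intro P t l I N g1 g2 η hS hN hl hI h16 hN2 hN1 hlog hpin hH1 hH2 hg1 hg2 hη
  have hPC := hSf t P hS
  have hlogN : 0 ≤ Real.log N := Real.log_nonneg hN
  have hl1 : (1:ℝ) ≤ l := by linarith
  have hl0 : (0:ℝ) < l := by linarith
  have hA' : (1:ℝ) ≤ A := by exact_mod_cast hA
  have hη0 : 0 < η := by linarith
  have hg10 : 0 < g1 := by linarith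
  have hg20 : 0 < g2 := by linarith
  have ht1 : (1:ℝ) ≤ ((t + 1 : ℕ) : ℝ) := by exact_mod_cast (by omega : 1 ≤ t + 1)
  have ht10 : (0:ℝ) < ((t + 1 : ℕ) : ℝ) := by linarith
  have hPN : (P.card : ℝ) ≤ N := by
    have h0 : (0:ℝ) ≤ P.card := Nat.cast_nonneg _
    have : (P.card : ℝ) * 1 ≤ (P.card : ℝ) * ((t + 1 : ℕ) : ℝ) := mul_le_mul_of_nonneg_left ht1 h0
    linarith
  obtain ⟨k, hk⟩ : ∃ k : ℝ, k = 256 * (l:ℝ) ^ 2 * η := ⟨_, rfl⟩
  have hk1 : 1 ≤ k := by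
    rw [hk]
    have h1 : 1 ≤ (l:ℝ) ^ 2 := one_le_pow₀ hl1
    have h2 : (1:ℝ) ≤ 256 * (l:ℝ) ^ 2 := by linarith
    exact one_le_mul_of_one_le_of_one_le h2 hη
  have hk0 : 0 < k := by linarith
  have hkp : ∀ e : ℕ, k ^ e = 256 ^ e * (l:ℝ) ^ (2 * e) * η ^ e := by
    intro e
    rw [hk, mul_pow, mul_pow, ← pow_mul]
  -- the coefficients
  have hcoef : K * (l:ℝ) ^ c ≤ K1 * (l:ℝ) ^ c1 :=
    coef_le (by linarith) hKK1 hl1 (by omega)
  have hcoef0 : 0 ≤ K1 * (l:ℝ) ^ c1 := le_trans (by positivity) hcoef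
  have hco : ∀ (a : ℝ) (e f : ℕ), 0 ≤ a → a ≤ 8 * K * C ^ 2 → e ≤ 2 * e0 + e1 + e2 →
      f ≤ c + 2 * c' + 2 * (2 * e0 + e1 + e2) → a * 256 ^ e * (l:ℝ) ^ f ≤ K1 * (l:ℝ) ^ c1 := by
    intro a e f ha ha2 he hf
    have h1 : (256:ℝ) ^ e ≤ 256 ^ (2 * e0 + e1 + e2) := pow_le_pow_right₀ (by norm_num) he
    rw [hc1, hK1]
    apply coef_le (by positivity) _ hl1 hf
    exact mul_le_mul ha2 h1 (by positivity) (ha.trans ha2)
  by_cases htop : ∀ s : ℕ, 16 * (2 * Real.log N + 1) * ((((t + 1 : ℕ)) : ℝ) + 2) ≤ s →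
      ¬ Gd P P (S2 P) rng s 2
  · have hfin := hX P t (t + 1) l I N η (C * (l:ℝ) ^ c' * k ^ e0)
      (C * (l:ℝ) ^ c' * (k ^ e1 * g1 + k ^ e2 * g2)) rfl hPC hN hl hI h16 hN2 hN1 hlog hpin hη ?_ ?_
      htop
    · rcases hfin with h | h | h | h | h | h
      · left
        exact h.trans (mul_le_mul_of_nonneg_right hcoef ht10.le)
      · right; left
        exact h.trans (mul_le_mul_of_nonneg_right hcoef (by positivity))
      · right; right; left
        exact h.trans (mul_le_mul_of_nonneg_right hcoef (by positivity))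
      · right; right; right; left
        refine h.trans ?_
        have h1 : K * (l:ℝ) ^ c * ((C * (l:ℝ) ^ c' * k ^ e0) ^ 2 * ((t + 1 : ℕ) : ℝ) ^ (d - 1)) =
            (K * C ^ 2 * 256 ^ (2 * e0) * (l:ℝ) ^ (c + 2 * c' + 4 * e0)) *
              (η ^ (2 * e0) * ((t + 1 : ℕ) : ℝ) ^ (d - 1)) := by
          rw [hkp]
          ring
        rw [h1]
        apply mul_le_mul_of_nonneg_right _ (by positivity)
        apply hco (K * C ^ 2) (2 * e0) (c + 2 * c' + 4 * e0) (by positivity) (by nlinarith)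
          (by omega) (by omega)
      · have h1 : 4 * (C * (l:ℝ) ^ c' * (k ^ e1 * g1 + k ^ e2 * g2)) =
            (4 * C * 256 ^ e1 * (l:ℝ) ^ (c' + 2 * e1)) * (η ^ e1 * g1) +
            (4 * C * 256 ^ e2 * (l:ℝ) ^ (c' + 2 * e2)) * (η ^ e2 * g2) := by
          rw [hkp, hkp]
          ring
        rw [h1] at h
        have hK8 : 8 * C ≤ 8 * K * C ^ 2 := by nlinarith
        have h2 : (8 * C * 256 ^ e1 * (l:ℝ) ^ (c' + 2 * e1)) * (η ^ e1 * g1) ≤
            K1 * (l:ℝ) ^ c1 * (η ^ e1 * g1) := by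
          apply mul_le_mul_of_nonneg_right _ (by positivity)
          exact hco (8 * C) e1 (c' + 2 * e1) (by positivity) hK8 (by omega) (by omega)
        have h3 : (8 * C * 256 ^ e2 * (l:ℝ) ^ (c' + 2 * e2)) * (η ^ e2 * g2) ≤
            K1 * (l:ℝ) ^ c1 * (η ^ e2 * g2) := by
          apply mul_le_mul_of_nonneg_right _ (by positivity)
          exact hco (8 * C) e2 (c' + 2 * e2) (by positivity) hK8 (by omega) (by omega)
        right; right; right; right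
        by_contra hcon
        rw [not_or, not_le, not_le] at hcon
        linarith
      · right; right; right; right; left
        refine h.trans ?_
        apply mul_le_mul hcoef _ hη0.le hcoef0
        calc η = η * 1 := (mul_one η).symm
          _ ≤ η ^ e1 * g1 := mul_le_mul (le_self_pow₀ hη (by omega)) hg1 (by norm_num) (by positivity)
    · have h1 : 1 ≤ (l:ℝ) ^ c' := one_le_pow₀ hl1
      have h2 : 1 ≤ k ^ e0 := one_le_pow₀ hk1
      exact one_le_mul_of_one_le_of_one_le (one_le_mul_of_one_le_of_one_le hC h1) h2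
    · intro X hXP P0 hP0 hx hbad
      rw [← hk] at hbad
      apply hL X P0 t l k g1 g2 hk1 _ hx hg10.le hg20.le hbad
      · intro p0 v hv
        refine le_trans ?_ (hH1 p0 v hv)
        exact_mod_cast card_le_card (filter_subset_filter _ hP0)
      · intro D hD
        refine le_trans ?_ (hH2 D hD)
        exact_mod_cast card_le_card (filter_subset_filter _ hP0)
      · refine le_trans ?_ hlog
        have h1 : (X.card : ℝ) ≤ P.card := by exact_mod_cast card_le_card hXP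
        have h0 : (0:ℝ) ≤ X.card := Nat.cast_nonneg _
        have h2 : (X.card : ℝ) + 3 ≤ A * N * (l:ℝ) ^ 2 * ((t + 1 : ℕ) : ℝ) + 3 := by
          have h3 : 1 ≤ (l:ℝ) ^ 2 := one_le_pow₀ hl1
          have h4 : N ≤ A * N * (l:ℝ) ^ 2 * ((t + 1 : ℕ) : ℝ) := by
            have h5 : N * 1 ≤ N * (A * (l:ℝ) ^ 2 * ((t + 1 : ℕ) : ℝ)) := by
              apply mul_le_mul_of_nonneg_left _ (by linarith)
              exact one_le_mul_of_one_le_of_one_le
                (one_le_mul_of_one_le_of_one_le hA' h3) ht1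
            linarith
          linarith
        have h6 := Real.log_le_log (by linarith) h2
        linarith
  · push Not at htop
    obtain ⟨s, hs, hgd⟩ := htop
    right; right; right; right; left
    rcases P.eq_empty_or_nonempty with hPe | hPne
    · subst hPe
      rw [card_empty, Nat.cast_zero]
      positivity
    have hP1 : (1:ℝ) ≤ P.card := by exact_mod_cast hPne.card_pos
    have h1 := L2_topF P hPC (2 * Real.log N + 1) (by
      have := Real.log_le_log (by linarith) hPN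
      linarith) s (le_trans ?_ hs) hPne hgd g1 hH1
    · refine h1.trans ?_
      have h2 : (2:ℝ) ≤ K1 * (l:ℝ) ^ c1 := by
        have h3 : 1 ≤ (l:ℝ) ^ c1 := one_le_pow₀ hl1
        have h4 : K1 * 1 ≤ K1 * (l:ℝ) ^ c1 := mul_le_mul_of_nonneg_left h3 (by linarith)
        linarith
      apply mul_le_mul h2 _ hg10.le hcoef0
      exact le_mul_of_one_le_left hg10.le (one_le_pow₀ hη)
    · apply mul_le_mul_of_nonneg_left _ (by linarith)
      push_cast
      linarith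

end Vale.Agent.P054I
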