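import Vale.Agent.P054.MathlibUsed
import Vale.Agent.P054.H239.HFin
attribute [-instance] ProperSMul.toContinuousSMul IsTopologicalTorsor.toContinuousSMul IdemSemiring.toCanonicallyOrderedAdd IdemSemiring.toMulLeftMono IdemSemiring.toMulRightMono AddQuantale.instAddLeftMono AddQuantale.instAddRightMono Quantale.instMulLeftMono Quantale.instMulRightMono FiniteDimensional.rclike_to_real IsScalarTower.complexToReal FiniteDimensional.complexToReal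

set_option linter.all false
set_option autoImplicit false

open Finset Vale.Agent.P054K Vale.Agent.P054G

namespace Vale.Agent.P054I

/-- the exponent of `η` that belongs to `α` -/
noncomputable def zt (d : ℕ) (α : ℝ) : ℝ := ((d:ℝ) ^ 2 + 1 - 2 * d * α) / ((d:ℝ) - 1)

theorem zt_mul (d : ℕ) (hd : 2 ≤ d) (α : ℝ) :
    zt d α * ((d:ℝ) - 1) = (d:ℝ) ^ 2 + 1 - 2 * d * α := by
  have hD : (2:ℝ) ≤ d := by exact_mod_cast hd
  have h : (0:ℝ) < (d:ℝ) - 1 := by linarith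
  unfold zt
  exact div_mul_cancel₀ _ h.ne'

theorem zt_nonneg (d : ℕ) (hd : 2 ≤ d) {α : ℝ} (hα : α ≤ fd d) : 0 ≤ zt d α := by
  have hD : (2:ℝ) ≤ d := by exact_mod_cast hd
  have h2 := fd_mul d (by omega)
  unfold zt
  apply div_nonneg
  · nlinarith
  · linarith

/-- the basic inequality -/
theorem zt_le (d : ℕ) (hd : 2 ≤ d) {κ γ α : ℝ} (hκ : 0 ≤ κ) (h : aS d κ γ ≤ α) :
    zt d α * ((d:ℝ) - 1) ≤ κ * (α - γ) := by
  have hD : (2:ℝ) ≤ d := by exact_mod_cast hd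
  rw [zt_mul d hd]
  have h1 := aS_mul d (by omega) (κ := κ) (γ := γ) hκ
  have h2 : aS d κ γ * (2 * d + κ) ≤ α * (2 * d + κ) :=
    mul_le_mul_of_nonneg_right h (by positivity)
  linarith

theorem zt_E (d : ℕ) (hd : 2 ≤ d) {κ γ α : ℝ} {E : ℕ} (hκ : 0 ≤ κ) (h : aS d κ γ ≤ α)
    (hγ : γ ≤ α) (hE : E * κ ≤ (d:ℝ) - 1) : (E:ℝ) * zt d α + γ ≤ α := by
  have hD : (2:ℝ) ≤ d := by exact_mod_cast hd
  have hd1 : (0:ℝ) < (d:ℝ) - 1 := by linarith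
  have h1 := zt_le d hd hκ h
  have hE0 : (0:ℝ) ≤ E := Nat.cast_nonneg E
  have h2 : ((E:ℝ) * zt d α) * ((d:ℝ) - 1) ≤ (α - γ) * ((d:ℝ) - 1) := by
    calc ((E:ℝ) * zt d α) * ((d:ℝ) - 1) = E * (zt d α * ((d:ℝ) - 1)) := by ring
      _ ≤ E * (κ * (α - γ)) := mul_le_mul_of_nonneg_left h1 hE0
      _ = (E * κ) * (α - γ) := by ring
      _ ≤ ((d:ℝ) - 1) * (α - γ) := mul_le_mul_of_nonneg_right hE (by linarith)
      _ = (α - γ) * ((d:ℝ) - 1) := by ring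
  have h3 := le_of_mul_le_mul_right h2 hd1
  linarith

/-- the side conditions from a bound for `κ (fd d - γ)` -/
theorem zt_side (d : ℕ) (hd : 2 ≤ d) {κ γ α : ℝ} {F : ℕ} (hκ : 0 ≤ κ) (h : aS d κ γ ≤ α)
    (hα : α ≤ fd d) (h1 : κ * (fd d - γ) ≤ 1) (h2 : F * (κ * (fd d - γ)) ≤ (d:ℝ) - 1) :
    (d:ℝ) ≤ 2 * α ∧ (F:ℝ) * zt d α + ((d:ℝ) - 1) ≤ 2 * α := by
  have hD : (2:ℝ) ≤ d := by exact_mod_cast hd
  have hd1 : (0:ℝ) < (d:ℝ) - 1 := by linarith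
  have h3 := zt_le d hd hκ h
  have h4 : κ * (α - γ) ≤ κ * (fd d - γ) := mul_le_mul_of_nonneg_left (by linarith) hκ
  have h5 : zt d α * ((d:ℝ) - 1) ≤ 1 := by linarith
  have h6 := zt_mul d hd α
  have hF0 : (0:ℝ) ≤ F := Nat.cast_nonneg F
  have h7 : (d:ℝ) ≤ 2 * α := by
    have h0 : (0:ℝ) < d := by linarith
    refine le_of_mul_le_mul_right ?_ h0
    nlinarith
  refine ⟨h7, ?_⟩
  have h8 : ((F:ℝ) * zt d α) * ((d:ℝ) - 1) ≤ 1 * ((d:ℝ) - 1) := by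
    calc ((F:ℝ) * zt d α) * ((d:ℝ) - 1) = F * (zt d α * ((d:ℝ) - 1)) := by ring
      _ ≤ F * (κ * (fd d - γ)) := mul_le_mul_of_nonneg_left (by linarith) hF0
      _ ≤ 1 * ((d:ℝ) - 1) := by linarith
  have h9 := le_of_mul_le_mul_right h8 hd1
  linarith

/-- all exponents of a hereditary family by induction -/
theorem sex_all {Sf : (j : ℕ) → ℕ → Finset (EuclideanSpace ℝ (Fin j)) → Prop} (hSf : Her Sf)
    (hsub : ∀ d t P P', Sf d t P → P' ⊆ P → Sf d t P')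
    (hmono : ∀ d t t', t ≤ t' → ∀ P, Sf d t P → Sf d t' P) (d0 F : ℕ) (e1 e2 : ℕ → ℕ)
    (hd0 : 2 ≤ d0)
    (hkey : ∀ d, d0 ≤ d → ∃ (K : ℝ) (c A : ℕ), 1 ≤ K ∧
      KeyAbs d (Sf d) (HY d) (H2Y d) K c A F (e1 d) (e2 d))
    (b : ℕ → ℝ) (hb0 : ∀ d, 0 ≤ b d) (hbase : ∀ d, d < d0 → Sex d (Sf d) (b d))
    (hrec : ∀ d, d0 ≤ d → b d ≤ fd d ∧ (d:ℝ) ≤ 2 * b d ∧
      (F:ℝ) * zt d (b d) + ((d:ℝ) - 1) ≤ 2 * b d ∧
      (e1 d:ℝ) * zt d (b d) + b (d - 1) ≤ b d ∧ (e2 d:ℝ) * zt d (b d) + b (d - 2) ≤ b d)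
    (d : ℕ) : Sex d (Sf d) (b d) := by
  induction d using Nat.strong_induction_on with
  | _ d ih =>
    rcases Nat.lt_or_ge d d0 with h | h
    · exact hbase d h
    · obtain ⟨r1, r2, r3, r4, r5⟩ := hrec d h
      have hd : 2 ≤ d := hd0.trans h
      have hD : (2:ℝ) ≤ d := by exact_mod_cast hd
      obtain ⟨K, c, A, hK, hk⟩ := hkey d h
      have h1 := zt_mul d hd (b d)
      apply sex_of_large (hb0 d) (fun t t' ht P hP => hmono d t t' ht P hP)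
      intro ε hε hε1
      exact step_abs d hd (Sf d) (HY d) (H2Y d) (fun t P P' hP hPP => hsub d t P P' hP hPP) K c A F
        (e1 d) (e2 d) hK hk (b (d - 1)) (b (d - 2)) (b d) (zt d (b d))
        (secEx_hyper hSf (ih (d - 1) (by omega))) (secEx_two hSf hd (ih (d - 2) (by omega)))
        (hb0 _) (hb0 _) (by linarith) (zt_nonneg d hd r1) r2 (by linarith) r3 r4 r5 ε hε hε1

theorem sex_PC_zero : Sex 0 (PC 0) 0 := by
  intro ε hε
  refine ⟨1, one_pos, ?_⟩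
  intro t ht P hP
  have h1 := pinned_zero t P hP
  have ht' : (1:ℝ) ≤ t := by exact_mod_cast ht
  have h2 : (1:ℝ) ≤ (t:ℝ) ^ (0 + ε) := Real.one_le_rpow ht' (by linarith)
  linarith

theorem sex_PC_one : Sex 1 (PC 1) 1 := pex_one

/-- lower bound for the number of distances from an exponent of the class `DC` -/
theorem lower_DC {d : ℕ} {f : ℝ} (hf : 0 < f) (hp : Sex d (DC d) f) (ε : ℝ) (hε : 0 < ε) :
    ∃ c : ℝ, 0 < c ∧ ∀ P : Finset (EuclideanSpace ℝ (Fin d)), 2 ≤ P.card →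
      c * (P.card : ℝ) ^ (1 / f - ε) ≤
        (({r : ℝ | ∃ p ∈ P, ∃ q ∈ P, p ≠ q ∧ r = dist p q}.ncard : ℕ) : ℝ) := by
  classical
  obtain ⟨C, hC0, hC⟩ := hp (ε * f ^ 2) (by positivity)
  have hexp : 1 / f - ε ≤ 1 / (f + ε * f ^ 2) := by
    rw [le_div_iff₀ (by positivity)]
    have h1 : (1 / f - ε) * (f + ε * f ^ 2) = 1 - ε ^ 2 * f ^ 2 := by field_simp; ring
    rw [h1]
    have : 0 ≤ ε ^ 2 * f ^ 2 := by positivity
    linarith only [this]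
  obtain ⟨g, hg⟩ : ∃ g : ℝ, g = f + ε * f ^ 2 := ⟨_, rfl⟩
  rw [← hg] at hexp hC
  have hg0 : 0 < g := by rw [hg]; positivity
  obtain ⟨c, hc⟩ : ∃ c : ℝ, c = (1 / C) ^ (1 / g) := ⟨_, rfl⟩
  have hc0 : 0 < c := by rw [hc]; positivity
  refine ⟨c, hc0, ?_⟩
  intro P hP
  have hset : {r : ℝ | ∃ p ∈ P, ∃ q ∈ P, p ≠ q ∧ r = dist p q} =
      (((P.offDiag).image (fun p => dist p.1 p.2) : Finset ℝ) : Set ℝ) := by
    ext r
    simp only [Set.mem_ofPred_eq, Finset.coe_image, Set.mem_image, Finset.mem_coe,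
      Finset.mem_offDiag]
    constructor
    · rintro ⟨p, hp, q, hq, hpq, rfl⟩
      exact ⟨(p, q), ⟨hp, hq, hpq⟩, rfl⟩
    · rintro ⟨⟨p, q⟩, ⟨hp, hq, hpq⟩, rfl⟩
      exact ⟨p, hp, q, hq, hpq, rfl⟩
  rw [hset, Set.ncard_coe_finset]
  obtain ⟨t, ht⟩ : ∃ t : ℕ, t = ((P.offDiag).image (fun p => dist p.1 p.2)).card := ⟨_, rfl⟩
  rw [← ht]
  have ht1 : 1 ≤ t := by
    rw [ht, Nat.one_le_iff_ne_zero, ← Nat.pos_iff_ne_zero, Finset.card_pos, Finset.image_nonempty]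
    obtain ⟨a, ha, b, hb, hab⟩ := Finset.one_lt_card.1 (show 1 < P.card by omega)
    exact ⟨(a, b), Finset.mem_offDiag.2 ⟨ha, hb, hab⟩⟩
  have h1 := hC t ht1 P (le_of_eq ht.symm)
  have hn1 : (1:ℝ) ≤ P.card := by exact_mod_cast (show 1 ≤ P.card by omega)
  have ht0 : (0:ℝ) ≤ t := Nat.cast_nonneg t
  have h2 : (1 / C * (P.card:ℝ)) ≤ (t:ℝ) ^ g := by
    rw [one_div, inv_mul_le_iff₀ hC0]; exact h1
  have hCi : 0 ≤ 1 / C := by positivity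
  have hn0 : (0:ℝ) ≤ P.card := by linarith only [hn1]
  have h3 : (1 / C * (P.card:ℝ)) ^ (1 / g) ≤ t := by
    calc (1 / C * (P.card:ℝ)) ^ (1 / g) ≤ ((t:ℝ) ^ g) ^ (1 / g) :=
          Real.rpow_le_rpow (mul_nonneg hCi hn0) h2 (by positivity)
      _ = t := by
          rw [← Real.rpow_mul ht0, mul_one_div_cancel hg0.ne', Real.rpow_one]
  refine le_trans ?_ h3
  rw [Real.mul_rpow hCi hn0, ← hc]
  apply mul_le_mul_of_nonneg_left _ hc0.le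
  exact Real.rpow_le_rpow_of_exponent_le hn1 hexp

end Vale.Agent.P054I
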