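import Vale.Agent.P054.MathlibUsed
import Vale.Agent.P054.H239.HRec
attribute [-instance] ProperSMul.toContinuousSMul IsTopologicalTorsor.toContinuousSMul IdemSemiring.toCanonicallyOrderedAdd IdemSemiring.toMulLeftMono IdemSemiring.toMulRightMono AddQuantale.instAddLeftMono AddQuantale.instAddRightMono Quantale.instMulLeftMono Quantale.instMulRightMono FiniteDimensional.rclike_to_real IsScalarTower.complexToReal FiniteDimensional.complexToReal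

set_option linter.all false
set_option autoImplicit false

open Finset Vale.Agent.P054K Vale.Agent.P054G

namespace Vale.Agent.P054I

/-- the exponent from the alternative with `η ^ F` -/
noncomputable def aF (d F : ℕ) : ℝ :=
  (F * ((d:ℝ) ^ 2 + 1) + ((d:ℝ) - 1) ^ 2) / (2 * d * F + 2 * ((d:ℝ) - 1))

theorem aF_mul (d F : ℕ) (hd : 2 ≤ d) :
    aF d F * (2 * d * F + 2 * ((d:ℝ) - 1)) = F * ((d:ℝ) ^ 2 + 1) + ((d:ℝ) - 1) ^ 2 := by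
  have hD : (2:ℝ) ≤ d := by exact_mod_cast hd
  have h1 : (0:ℝ) ≤ 2 * d * F := by positivity
  have h : (0:ℝ) < 2 * d * F + 2 * ((d:ℝ) - 1) := by linarith
  unfold aF
  exact div_mul_cancel₀ _ h.ne'

theorem aF_le_fd (d F : ℕ) (hd : 2 ≤ d) : aF d F ≤ fd d := by
  have hD : (2:ℝ) ≤ d := by exact_mod_cast hd
  have h1 : (0:ℝ) ≤ 2 * d * F := by positivity
  have h : (0:ℝ) < 2 * d * F + 2 * ((d:ℝ) - 1) := by linarith
  have h2 := fd_mul d (by omega)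
  have h3 := aF_mul d F hd
  refine le_of_mul_le_mul_right ?_ h
  rw [h3]
  have h4 : fd d * (2 * d * F + 2 * ((d:ℝ) - 1)) =
      F * ((d:ℝ) ^ 2 + 1) + 2 * ((d:ℝ) - 1) * fd d := by
    rw [← h2]; ring
  rw [h4]
  have h5 : (d:ℝ) - 1 ≤ 2 * fd d := by
    rw [fd_eq d (by omega)]
    have : (0:ℝ) ≤ 1 / (2 * d) := by positivity
    linarith
  have h6 : ((d:ℝ) - 1) * ((d:ℝ) - 1) ≤ ((d:ℝ) - 1) * (2 * fd d) :=
    mul_le_mul_of_nonneg_left h5 (by linarith)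
  nlinarith

theorem zt_F (d : ℕ) (hd : 2 ≤ d) {α : ℝ} {F : ℕ} (h : aF d F ≤ α) :
    (F:ℝ) * zt d α + ((d:ℝ) - 1) ≤ 2 * α := by
  have hD : (2:ℝ) ≤ d := by exact_mod_cast hd
  have hd1 : (0:ℝ) < (d:ℝ) - 1 := by linarith
  have h1 : (0:ℝ) ≤ 2 * d * F := by positivity
  have h3 := aF_mul d F hd
  have h4 : aF d F * (2 * d * F + 2 * ((d:ℝ) - 1)) ≤ α * (2 * d * F + 2 * ((d:ℝ) - 1)) :=
    mul_le_mul_of_nonneg_right h (by linarith)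
  rw [h3] at h4
  have h5 := zt_mul d hd α
  refine le_of_mul_le_mul_right ?_ hd1
  have h6 : ((F:ℝ) * zt d α + ((d:ℝ) - 1)) * ((d:ℝ) - 1) =
      F * (zt d α * ((d:ℝ) - 1)) + ((d:ℝ) - 1) ^ 2 := by ring
  rw [h6, h5]
  linarith

/-- the sequences of exponents -/
noncomputable def bX (κ1 κ2 : ℕ → ℝ) (F d0 : ℕ) (init : ℕ → ℝ) : ℕ → ℝ
  | 0 => init 0
  | 1 => init 1
  | (k + 2) => if k + 2 < d0 then init (k + 2) else
      max (max (aS (k + 2) (κ1 (k + 2)) (bX κ1 κ2 F d0 init (k + 1)))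
        (aS (k + 2) (κ2 (k + 2)) (bX κ1 κ2 F d0 init k))) (aF (k + 2) F)

theorem bX_zero (κ1 κ2 : ℕ → ℝ) (F d0 : ℕ) (init : ℕ → ℝ) : bX κ1 κ2 F d0 init 0 = init 0 := rfl

theorem bX_one (κ1 κ2 : ℕ → ℝ) (F d0 : ℕ) (init : ℕ → ℝ) : bX κ1 κ2 F d0 init 1 = init 1 := rfl

theorem bX_lt (κ1 κ2 : ℕ → ℝ) (F d0 : ℕ) (init : ℕ → ℝ) (d : ℕ) (hd : d < d0) :
    bX κ1 κ2 F d0 init d = init d := by
  rcases Nat.lt_or_ge d 2 with h | h
  · interval_cases d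
    · rfl
    · rfl
  · obtain ⟨k, rfl⟩ : ∃ k, d = k + 2 := ⟨d - 2, by omega⟩
    unfold bX
    rw [if_pos hd]

theorem bX_ge (κ1 κ2 : ℕ → ℝ) (F d0 : ℕ) (init : ℕ → ℝ) (d : ℕ) (hd : 2 ≤ d) (hd0 : d0 ≤ d) :
    bX κ1 κ2 F d0 init d = max (max (aS d (κ1 d) (bX κ1 κ2 F d0 init (d - 1)))
        (aS d (κ2 d) (bX κ1 κ2 F d0 init (d - 2)))) (aF d F) := by
  obtain ⟨k, rfl⟩ : ∃ k, d = k + 2 := ⟨d - 2, by omega⟩
  have h1 : k + 2 - 1 = k + 1 := by omega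
  have h2 : k + 2 - 2 = k := by omega
  rw [h1, h2]
  conv_lhs => unfold bX
  rw [if_neg (by omega)]

theorem fd_mono {i j : ℕ} (hi : 1 ≤ i) (hij : i ≤ j) : fd i ≤ fd j := by
  induction j with
  | zero => omega
  | succ m ih =>
    rcases Nat.lt_or_ge m i with h | h
    · have : i = m + 1 := by omega
      rw [this]
    · have h1 := fd_pred (m + 1) (by omega)
      have hm : m + 1 - 1 = m := by omega
      rw [hm] at h1
      exact (ih h).trans h1.le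

section

variable {κ1 κ2 : ℕ → ℝ} {F d0 : ℕ} {init : ℕ → ℝ}

theorem bX_bounds (hκ1 : ∀ d, 0 ≤ κ1 d) (hκ1' : ∀ d, κ1 d ≤ 2) (hκ2 : ∀ d, 0 ≤ κ2 d)
    (hd0 : 2 ≤ d0) (hi0 : init 0 = 0)
    (hi : ∀ d, 1 ≤ d → d < d0 → (d:ℝ) / 2 ≤ init d ∧ init d ≤ fd d) (d : ℕ) (hd : 1 ≤ d) :
    (d:ℝ) / 2 ≤ bX κ1 κ2 F d0 init d ∧ bX κ1 κ2 F d0 init d ≤ fd d := by
  induction d using Nat.strong_induction_on with
  | _ d ih =>
    rcases Nat.lt_or_ge d d0 with h | h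
    · rw [bX_lt _ _ _ _ _ d h]
      exact hi d hd h
    · have hd2 : 2 ≤ d := by omega
      have hD : (2:ℝ) ≤ d := by exact_mod_cast hd2
      have hc : ((d - 1 : ℕ) : ℝ) = (d:ℝ) - 1 := by rw [Nat.cast_sub (by omega)]; simp
      obtain ⟨l1, u1⟩ := ih (d - 1) (by omega) (by omega)
      have u1' : bX κ1 κ2 F d0 init (d - 1) ≤ fd d := u1.trans (fd_pred d hd2).le
      rw [bX_ge _ _ _ _ _ d hd2 h]
      constructor
      · refine le_trans ?_ ((le_max_left _ _).trans (le_max_left _ _))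
        apply half_le_aS d hd (hκ1 d)
        rw [hc] at l1
        have h1 : (d:ℝ) / 2 - bX κ1 κ2 F d0 init (d - 1) ≤ 1 / 2 := by linarith
        calc κ1 d * ((d:ℝ) / 2 - bX κ1 κ2 F d0 init (d - 1)) ≤ κ1 d * (1 / 2) :=
              mul_le_mul_of_nonneg_left h1 (hκ1 d)
          _ ≤ 1 := by linarith [hκ1' d]
      · refine max_le (max_le ?_ ?_) (aF_le_fd d F hd2)
        · exact aS_le_fd d hd (hκ1 d) u1'
        · apply aS_le_fd d hd (hκ2 d)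
          rcases Nat.lt_or_ge d 3 with h3 | h3
          · have : d - 2 = 0 := by omega
            rw [this, bX_zero, hi0]
            unfold fd
            positivity
          · exact (ih (d - 2) (by omega) (by omega)).2.trans (fd_mono (by omega) (by omega))

theorem bX_nonneg (hκ1 : ∀ d, 0 ≤ κ1 d) (hκ1' : ∀ d, κ1 d ≤ 2) (hκ2 : ∀ d, 0 ≤ κ2 d)
    (hd0 : 2 ≤ d0) (hi0 : init 0 = 0)
    (hi : ∀ d, 1 ≤ d → d < d0 → (d:ℝ) / 2 ≤ init d ∧ init d ≤ fd d) (d : ℕ) :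
    0 ≤ bX κ1 κ2 F d0 init d := by
  rcases Nat.eq_zero_or_pos d with h | h
  · subst h
    rw [bX_zero, hi0]
  · have h1 := (bX_bounds (F := F) hκ1 hκ1' hκ2 hd0 hi0 hi d h).1
    have h2 : (0:ℝ) ≤ (d:ℝ) / 2 := by positivity
    linarith

theorem bX_rec (hκ1 : ∀ d, 0 ≤ κ1 d) (hκ1' : ∀ d, κ1 d ≤ 2) (hκ2 : ∀ d, 0 ≤ κ2 d)
    (hd0 : 2 ≤ d0) (hi0 : init 0 = 0)
    (hi : ∀ d, 1 ≤ d → d < d0 → (d:ℝ) / 2 ≤ init d ∧ init d ≤ fd d) (e1 e2 : ℕ → ℕ)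
    (he1 : ∀ d, d0 ≤ d → e1 d * κ1 d ≤ (d:ℝ) - 1) (he2 : ∀ d, d0 ≤ d → e2 d * κ2 d ≤ (d:ℝ) - 1)
    (d : ℕ) (hd : d0 ≤ d) :
    bX κ1 κ2 F d0 init d ≤ fd d ∧ (d:ℝ) ≤ 2 * bX κ1 κ2 F d0 init d ∧
      (F:ℝ) * zt d (bX κ1 κ2 F d0 init d) + ((d:ℝ) - 1) ≤ 2 * bX κ1 κ2 F d0 init d ∧
      (e1 d:ℝ) * zt d (bX κ1 κ2 F d0 init d) + bX κ1 κ2 F d0 init (d - 1) ≤
        bX κ1 κ2 F d0 init d ∧
      (e2 d:ℝ) * zt d (bX κ1 κ2 F d0 init d) + bX κ1 κ2 F d0 init (d - 2) ≤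
        bX κ1 κ2 F d0 init d := by
  have hd2 : 2 ≤ d := hd0.trans hd
  obtain ⟨l, u⟩ := bX_bounds (F := F) hκ1 hκ1' hκ2 hd0 hi0 hi d (by omega)
  have hrec := bX_ge κ1 κ2 F d0 init d hd2 hd
  have g1 : bX κ1 κ2 F d0 init (d - 1) ≤ fd d :=
    (bX_bounds (F := F) hκ1 hκ1' hκ2 hd0 hi0 hi (d - 1) (by omega)).2.trans (fd_pred d hd2).le
  have g2 : bX κ1 κ2 F d0 init (d - 2) ≤ fd d := by
    rcases Nat.lt_or_ge d 3 with h3 | h3
    · have : d - 2 = 0 := by omega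
      rw [this, bX_zero, hi0]
      unfold fd
      positivity
    · exact (bX_bounds (F := F) hκ1 hκ1' hκ2 hd0 hi0 hi (d - 2) (by omega)).2.trans
        (fd_mono (by omega) (by omega))
  have a1 : aS d (κ1 d) (bX κ1 κ2 F d0 init (d - 1)) ≤ bX κ1 κ2 F d0 init d := by
    conv_rhs => rw [hrec]
    exact (le_max_left _ _).trans (le_max_left _ _)
  have a2 : aS d (κ2 d) (bX κ1 κ2 F d0 init (d - 2)) ≤ bX κ1 κ2 F d0 init d := by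
    conv_rhs => rw [hrec]
    exact (le_max_right _ _).trans (le_max_left _ _)
  have a3 : aF d F ≤ bX κ1 κ2 F d0 init d := by
    conv_rhs => rw [hrec]
    exact le_max_right _ _
  refine ⟨u, by linarith, zt_F d hd2 a3, ?_, ?_⟩
  · exact zt_E d hd2 (hκ1 d) a1 ((le_aS d (by omega) (hκ1 d) g1).trans a1) (he1 d hd)
  · exact zt_E d hd2 (hκ2 d) a2 ((le_aS d (by omega) (hκ2 d) g2).trans a2) (he2 d hd)

/-- the new exponent is smaller than the old one -/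
theorem bX_lt_fd (hκ1 : ∀ d, 0 ≤ κ1 d) (hκ1' : ∀ d, κ1 d ≤ 2) (hκ2 : ∀ d, 0 ≤ κ2 d)
    (hd0 : 2 ≤ d0) (hi0 : init 0 = 0)
    (hi : ∀ d, 1 ≤ d → d < d0 → (d:ℝ) / 2 ≤ init d ∧ init d ≤ fd d) (d : ℕ) (hd : d0 ≤ d)
    (h1 : 0 < κ1 d) (h2 : 0 < κ2 d) : bX κ1 κ2 F d0 init d < fd d := by
  have hd2 : 2 ≤ d := hd0.trans hd
  have hD : (2:ℝ) ≤ d := by exact_mod_cast hd2
  have g1 : bX κ1 κ2 F d0 init (d - 1) < fd d :=
    (bX_bounds (F := F) hκ1 hκ1' hκ2 hd0 hi0 hi (d - 1) (by omega)).2.trans_lt (fd_pred d hd2)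
  have g2 : bX κ1 κ2 F d0 init (d - 2) < fd d := by
    rcases Nat.lt_or_ge d 3 with h3 | h3
    · have : d - 2 = 0 := by omega
      rw [this, bX_zero, hi0]
      unfold fd
      positivity
    · exact ((bX_bounds (F := F) hκ1 hκ1' hκ2 hd0 hi0 hi (d - 2) (by omega)).2.trans
        (fd_mono (by omega) (by omega))).trans_lt (fd_pred d hd2)
  rw [bX_ge κ1 κ2 F d0 init d hd2 hd]
  refine max_lt (max_lt (aS_lt_fd d (by omega) h1 g1) (aS_lt_fd d (by omega) h2 g2)) ?_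
  have h4 := aF_mul d F hd2
  have h5 := fd_mul d (by omega)
  have h6 : (0:ℝ) ≤ 2 * d * F := by positivity
  have h : (0:ℝ) < 2 * d * F + 2 * ((d:ℝ) - 1) := by linarith
  refine lt_of_mul_lt_mul_right ?_ h.le
  rw [h4]
  have h7 : fd d * (2 * d * F + 2 * ((d:ℝ) - 1)) =
      F * ((d:ℝ) ^ 2 + 1) + ((d:ℝ) - 1) * (2 * fd d) := by
    rw [← h5]; ring
  rw [h7]
  have h8 : (d:ℝ) - 1 < 2 * fd d := by
    rw [fd_eq d (by omega)]
    have : (0:ℝ) ≤ 1 / (2 * d) := by positivity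
    linarith
  have h9 : ((d:ℝ) - 1) * ((d:ℝ) - 1) < ((d:ℝ) - 1) * (2 * fd d) :=
    mul_lt_mul_of_pos_left h8 (by linarith)
  nlinarith

end

/-- the initial values for the pinned class -/
noncomputable def iP : ℕ → ℝ := fun d => d

theorem iP_ok (d : ℕ) (h1 : 1 ≤ d) (h2 : d < 2) : (d:ℝ) / 2 ≤ iP d ∧ iP d ≤ fd d := by
  have : d = 1 := by omega
  subst this
  unfold iP fd
  norm_num

/-- the initial values for the class of all distances -/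
noncomputable def iD : ℕ → ℝ
  | 0 => 0
  | 1 => 1
  | 2 => 1
  | _ => 3 / 2

theorem iD_ok (d : ℕ) (h1 : 1 ≤ d) (h2 : d < 4) : (d:ℝ) / 2 ≤ iD d ∧ iD d ≤ fd d := by
  interval_cases d
  · unfold iD fd
    norm_num
  · unfold iD fd
    norm_num
  · unfold iD fd
    norm_num

/-- the exponents of the pinned class -/
theorem sexPC {κ1 κ2 : ℕ → ℝ} {F : ℕ} (hκ1 : ∀ d, 0 ≤ κ1 d) (hκ1' : ∀ d, κ1 d ≤ 2)
    (hκ2 : ∀ d, 0 ≤ κ2 d) (e1 e2 : ℕ → ℕ)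
    (he1 : ∀ d, 2 ≤ d → e1 d * κ1 d ≤ (d:ℝ) - 1) (he2 : ∀ d, 2 ≤ d → e2 d * κ2 d ≤ (d:ℝ) - 1)
    (hkey : ∀ d, 2 ≤ d → ∃ (K : ℝ) (c A : ℕ), 1 ≤ K ∧
      KeyAbs d (PC d) (HY d) (H2Y d) K c A F (e1 d) (e2 d)) (d : ℕ) :
    Sex d (PC d) (bX κ1 κ2 F 2 iP d) := by
  refine sex_all her_PC (fun d t P P' h hs => h.sub hs) (fun d t t' ht P h => h.mono ht) 2 F e1 e2
    le_rfl hkey _ ?_ ?_ ?_ d
  · exact bX_nonneg hκ1 hκ1' hκ2 le_rfl (by simp [iP]) iP_ok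
  · intro d hd
    interval_cases d
    · rw [bX_zero]
      have : iP 0 = 0 := by simp [iP]
      rw [this]
      exact sex_PC_zero
    · rw [bX_one]
      have : iP 1 = 1 := by simp [iP]
      rw [this]
      exact sex_PC_one
  · intro d hd
    exact bX_rec hκ1 hκ1' hκ2 le_rfl (by simp [iP]) iP_ok e1 e2 he1 he2 d hd

/-- the exponents of the class of all distances -/
theorem sexDC {κ1 κ2 : ℕ → ℝ} {F : ℕ} (hκ1 : ∀ d, 0 ≤ κ1 d) (hκ1' : ∀ d, κ1 d ≤ 2)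
    (hκ2 : ∀ d, 0 ≤ κ2 d) (e1 e2 : ℕ → ℕ)
    (he1 : ∀ d, 4 ≤ d → e1 d * κ1 d ≤ (d:ℝ) - 1) (he2 : ∀ d, 4 ≤ d → e2 d * κ2 d ≤ (d:ℝ) - 1)
    (hG2 : Sex 2 (DC 2) 1) (hG3 : Sex 3 (DC 3) (3 / 2))
    (hkey : ∀ d, 4 ≤ d → ∃ (K : ℝ) (c A : ℕ), 1 ≤ K ∧
      KeyAbs d (DC d) (HY d) (H2Y d) K c A F (e1 d) (e2 d)) (d : ℕ) :
    Sex d (DC d) (bX κ1 κ2 F 4 iD d) := by
  refine sex_all her_DC (fun d t P P' h hs => h.sub hs) (fun d t t' ht P h => h.mono ht) 4 F e1 e2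
    (by norm_num) hkey _ ?_ ?_ ?_ d
  · exact bX_nonneg hκ1 hκ1' hκ2 (by norm_num) (by simp [iD]) iD_ok
  · intro d hd
    rw [bX_lt _ _ _ _ _ d hd]
    interval_cases d
    · exact sex_DC_of_PC sex_PC_zero
    · exact sex_DC_of_PC sex_PC_one
    · exact hG2
    · exact hG3
  · intro d hd
    exact bX_rec hκ1 hκ1' hκ2 (by norm_num) (by simp [iD]) iD_ok e1 e2 he1 he2 d hd

/-! ### the version with `LocalB3`: `F = 12`, `e1 = 3 (d - 1)`, `e2 = 9 (d - 2)` -/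

noncomputable def k1A : ℕ → ℝ := fun _ => 1 / 3

noncomputable def k2A : ℕ → ℝ := fun d => if d ≤ 2 then 1 else ((d:ℝ) - 1) / (9 * ((d:ℝ) - 2))

theorem k1A_mul (d : ℕ) (hd : 2 ≤ d) : ((3 * (d - 1) : ℕ) : ℝ) * k1A d ≤ (d:ℝ) - 1 := by
  have hc : ((d - 1 : ℕ) : ℝ) = (d:ℝ) - 1 := by rw [Nat.cast_sub (by omega)]; simp
  unfold k1A
  rw [Nat.cast_mul, hc]
  push_cast
  linarith

theorem k2A_pos (d : ℕ) : 0 < k2A d := by
  unfold k2A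
  split_ifs with h
  · norm_num
  · push Not at h
    have hD : (3:ℝ) ≤ d := by exact_mod_cast h
    apply div_pos <;> linarith

theorem k2A_mul (d : ℕ) (hd : 2 ≤ d) : ((9 * (d - 2) : ℕ) : ℝ) * k2A d ≤ (d:ℝ) - 1 := by
  have hD2 : (2:ℝ) ≤ d := by exact_mod_cast hd
  unfold k2A
  split_ifs with h
  · have : d = 2 := by omega
    subst this
    norm_num
  · push Not at h
    have hD : (3:ℝ) ≤ d := by exact_mod_cast h
    have hc : ((d - 2 : ℕ) : ℝ) = (d:ℝ) - 2 := by rw [Nat.cast_sub (by omega)]; simp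
    rw [Nat.cast_mul, hc]
    push_cast
    rw [mul_div_cancel₀]
    have : (0:ℝ) < 9 * ((d:ℝ) - 2) := by linarith
    exact this.ne'

/-- the pinned exponents, version A -/
noncomputable def bPA : ℕ → ℝ := bX k1A k2A 12 2 iP

/-- the exponents for all distances, version A -/
noncomputable def bDA : ℕ → ℝ := bX k1A k2A 12 4 iD

theorem sexPC_A (hK : ∀ d, 2 ≤ d → ∃ (K : ℝ) (c A : ℕ), 1 ≤ K ∧ KeyX d K c A)
    (hL : ∀ d, 2 ≤ d → ∃ (C : ℝ) (c : ℕ), 1 ≤ C ∧ LocalB3 d C c) (d : ℕ) :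
    Sex d (PC d) (bPA d) := by
  refine sexPC (fun _ => by unfold k1A; norm_num) (fun _ => by unfold k1A; norm_num)
    (fun d => (k2A_pos d).le) (fun d => 3 * (d - 1)) (fun d => 9 * (d - 2)) k1A_mul k2A_mul ?_ d
  intro d hd
  obtain ⟨K, c, A, hK1, hX⟩ := hK d hd
  obtain ⟨C, c', hC, hL1⟩ := hL d hd
  obtain ⟨K1, c1, h1, h2⟩ := keyAbs_of hd (fun t P h => h) hK1 (by omega : 1 ≤ A + 1)
    (keyX_mono (by omega : A ≤ A + 1) hX) hC (by omega : 1 ≤ 3 * (d - 1)) (locGen_of_B3 hL1)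
  exact ⟨K1, c1, A + 1, h1, h2⟩

theorem sexDC_A (hG2 : Sex 2 (DC 2) 1) (hG3 : Sex 3 (DC 3) (3 / 2))
    (hK : ∀ d, 4 ≤ d → ∃ (K : ℝ) (c A : ℕ), 1 ≤ K ∧ KeyX d K c A)
    (hL : ∀ d, 4 ≤ d → ∃ (C : ℝ) (c : ℕ), 1 ≤ C ∧ LocalB3 d C c) (d : ℕ) :
    Sex d (DC d) (bDA d) := by
  refine sexDC (fun _ => by unfold k1A; norm_num) (fun _ => by unfold k1A; norm_num)
    (fun d => (k2A_pos d).le) (fun d => 3 * (d - 1)) (fun d => 9 * (d - 2))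
    (fun d hd => k1A_mul d (by omega)) (fun d hd => k2A_mul d (by omega)) hG2 hG3 ?_ d
  intro d hd
  obtain ⟨K, c, A, hK1, hX⟩ := hK d hd
  obtain ⟨C, c', hC, hL1⟩ := hL d hd
  obtain ⟨K1, c1, h1, h2⟩ := keyAbs_of (by omega : 2 ≤ d) (fun t P (h : DC d t P) => h.toPC) hK1
    (by omega : 1 ≤ A + 1)
    (keyX_mono (by omega : A ≤ A + 1) hX) hC (by omega : 1 ≤ 3 * (d - 1)) (locGen_of_B3 hL1)
  exact ⟨K1, c1, A + 1, h1, h2⟩

end Vale.Agent.P054I
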