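import Vale.Agent.P054.MathlibUsed
import Vale.Agent.P054.H239.HSeq
attribute [-instance] ProperSMul.toContinuousSMul IsTopologicalTorsor.toContinuousSMul IdemSemiring.toCanonicallyOrderedAdd IdemSemiring.toMulLeftMono IdemSemiring.toMulRightMono AddQuantale.instAddLeftMono AddQuantale.instAddRightMono Quantale.instMulLeftMono Quantale.instMulRightMono FiniteDimensional.rclike_to_real IsScalarTower.complexToReal FiniteDimensional.complexToReal

set_option linter.all false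
set_option autoImplicit false

open Finset Vale.Agent.P054K Vale.Agent.P054G

namespace Vale.Agent.P054I

/-- closed bound for one step -/
theorem aS_le_del (d : ℕ) (hd : 1 ≤ d) {κ γ δ : ℝ} (hκ : 0 ≤ κ)
    (h : 1 - δ ≤ κ * ((d:ℝ) / 2 + δ / (2 * d) - γ)) : aS d κ γ ≤ (d:ℝ) / 2 + δ / (2 * d) := by
  have hD : (1:ℝ) ≤ d := by exact_mod_cast hd
  have h1 := aS_mul d hd (κ := κ) (γ := γ) hκ
  have h3 : (0:ℝ) < 2 * d + κ := by positivity
  refine le_of_mul_le_mul_right ?_ h3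
  rw [h1]
  have h4 : ((d:ℝ) / 2 + δ / (2 * d)) * (2 * d + κ) =
      (d:ℝ) ^ 2 + δ + κ * ((d:ℝ) / 2 + δ / (2 * d)) := by
    field_simp
  rw [h4]
  linarith

theorem aF_le_del (d : ℕ) (hd : 2 ≤ d) : aF d 12 ≤ (d:ℝ) / 2 + (8 / 9) / (2 * d) := by
  have hD : (2:ℝ) ≤ d := by exact_mod_cast hd
  have h0 : (0:ℝ) < d := by linarith
  have h1 := aF_mul d 12 hd
  have h3 : (0:ℝ) < 2 * d * ((12:ℕ):ℝ) + 2 * ((d:ℝ) - 1) := by push_cast; linarith
  refine le_of_mul_le_mul_right ?_ h3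
  rw [h1]
  push_cast
  have h4 : ((d:ℝ) / 2 + (8 / 9) / (2 * d)) * (2 * d * 12 + 2 * ((d:ℝ) - 1)) =
      13 * (d:ℝ) ^ 2 - d + 104 / 9 - 8 / (9 * d) := by
    field_simp
    ring
  rw [h4]
  have h5 : 8 / (9 * (d:ℝ)) ≤ 8 / (9 * 2) := by
    apply div_le_div_of_nonneg_left (by norm_num) (by norm_num)
    linarith
  have h6 : 8 / (9 * (2:ℝ)) = 4 / 9 := by norm_num
  rw [h6] at h5
  nlinarith

theorem k2A_eq (d : ℕ) (hd : 3 ≤ d) : k2A d = ((d:ℝ) - 1) / (9 * ((d:ℝ) - 2)) := by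
  unfold k2A
  rw [if_neg (by omega)]

/-- the hyperplane term, `d ≥ 3` -/
theorem term1 (d : ℕ) (hd : 3 ≤ d) {γ : ℝ} (hγ : γ ≤ ((d:ℝ) - 1) / 2 + (8 / 9) / (2 * ((d:ℝ) - 1))) :
    aS d (1 / 3) γ ≤ (d:ℝ) / 2 + (8 / 9) / (2 * d) := by
  have hD : (3:ℝ) ≤ d := by exact_mod_cast hd
  have h0 : (0:ℝ) < d := by linarith
  have h1 : (0:ℝ) < (d:ℝ) - 1 := by linarith
  apply aS_le_del d (by omega) (by norm_num)
  have h2 : (8 / 9) / (2 * ((d:ℝ) - 1)) - (8 / 9) / (2 * d) = (4 / 9) / (d * ((d:ℝ) - 1)) := by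
    field_simp
    ring
  have h3 : (4 / 9) / (d * ((d:ℝ) - 1)) ≤ (4 / 9) / 6 := by
    apply div_le_div_of_nonneg_left (by norm_num) (by norm_num)
    nlinarith
  linarith

/-- the term of codimension two, `d ≥ 3` -/
theorem term2 (d : ℕ) (hd : 3 ≤ d) {γ : ℝ} (hγ : γ ≤ ((d:ℝ) - 2) / 2 + (8 / 9) / (2 * ((d:ℝ) - 2))) :
    aS d (k2A d) γ ≤ (d:ℝ) / 2 + (8 / 9) / (2 * d) := by
  have hD : (3:ℝ) ≤ d := by exact_mod_cast hd
  have h0 : (0:ℝ) < d := by linarith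
  have h1 : (0:ℝ) < (d:ℝ) - 2 := by linarith
  apply aS_le_del d (by omega) (k2A_pos d).le
  rw [k2A_eq d hd]
  have h2 : (8 / 9) / (2 * ((d:ℝ) - 2)) - (8 / 9) / (2 * d) = (8 / 9) / (d * ((d:ℝ) - 2)) := by
    field_simp
    ring
  have h3 : 1 - (8 / 9) / (d * ((d:ℝ) - 2)) ≤ (d:ℝ) / 2 + (8 / 9) / (2 * d) - γ := by linarith
  have h4 : (0:ℝ) ≤ ((d:ℝ) - 1) / (9 * ((d:ℝ) - 2)) := by
    apply div_nonneg <;> linarith
  refine le_trans ?_ (mul_le_mul_of_nonneg_left h3 h4)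
  have h5 : ((d:ℝ) - 1) / (9 * ((d:ℝ) - 2)) * (1 - (8 / 9) / (d * ((d:ℝ) - 2))) - (1 - 8 / 9) =
      (1 / (9 * ((d:ℝ) - 2))) * (1 - (8 / 9) * ((d:ℝ) - 1) / (d * ((d:ℝ) - 2))) := by
    field_simp
    ring
  have h6 : (8 / 9) * ((d:ℝ) - 1) / (d * ((d:ℝ) - 2)) ≤ 1 := by
    rw [div_le_one (by positivity)]
    nlinarith
  have h7 : 0 ≤ (1 / (9 * ((d:ℝ) - 2))) * (1 - (8 / 9) * ((d:ℝ) - 1) / (d * ((d:ℝ) - 2))) := by
    apply mul_nonneg
    · positivity
    · linarith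
  linarith

/-- the pinned exponents in closed form -/
theorem bPA_le (d : ℕ) (hd : 3 ≤ d) : bPA d ≤ (d:ℝ) / 2 + (8 / 9) / (2 * d) := by
  have hiP0 : iP 0 = 0 := by simp [iP]
  have hiP1 : iP 1 = 1 := by simp [iP]
  have hb0 : bPA 0 = 0 := by unfold bPA; rw [bX_zero, hiP0]
  have hb1 : bPA 1 = 1 := by unfold bPA; rw [bX_one, hiP1]
  have hge : ∀ e : ℕ, 2 ≤ e → bPA e =
      max (max (aS e (1 / 3) (bPA (e - 1))) (aS e (k2A e) (bPA (e - 2)))) (aF e 12) := by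
    intro e he
    have h1 := bX_ge k1A k2A 12 2 iP e he he
    unfold bPA
    rw [h1]
    rfl
  have hb2 : bPA 2 ≤ 16 / 13 := by
    rw [hge 2 le_rfl]
    simp only [Nat.reduceSub, hb0, hb1]
    refine max_le (max_le ?_ ?_) ?_
    · unfold aS; norm_num
    · unfold aS k2A; norm_num
    · unfold aF; norm_num
  have hb3 : bPA 3 ≤ (3:ℝ) / 2 + (8 / 9) / (2 * 3) := by
    rw [hge 3 (by norm_num)]
    simp only [Nat.reduceSub, hb1]
    refine max_le (max_le ?_ ?_) ?_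
    · refine (aS_mono 3 (by norm_num) (by norm_num) hb2).trans ?_
      unfold aS; norm_num
    · unfold aS k2A; norm_num
    · unfold aF; norm_num
  have hb4 : bPA 4 ≤ (4:ℝ) / 2 + (8 / 9) / (2 * 4) := by
    rw [hge 4 (by norm_num)]
    simp only [Nat.reduceSub]
    refine max_le (max_le ?_ ?_) ?_
    · refine (aS_mono 4 (by norm_num) (by norm_num) hb3).trans ?_
      unfold aS; norm_num
    · refine (aS_mono 4 (by norm_num) (k2A_pos 4).le hb2).trans ?_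
      unfold aS k2A; norm_num
    · unfold aF; norm_num
  induction d using Nat.strong_induction_on with
  | _ d ih =>
    rcases Nat.lt_or_ge d 5 with h | h
    · interval_cases d
      · exact_mod_cast hb3
      · exact_mod_cast hb4
    · have c1 : ((d - 1 : ℕ) : ℝ) = (d:ℝ) - 1 := by rw [Nat.cast_sub (by omega)]; simp
      have c2 : ((d - 2 : ℕ) : ℝ) = (d:ℝ) - 2 := by rw [Nat.cast_sub (by omega)]; simp
      have i1 := ih (d - 1) (by omega) (by omega)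
      have i2 := ih (d - 2) (by omega) (by omega)
      rw [c1] at i1
      rw [c2] at i2
      rw [hge d (by omega)]
      exact max_le (max_le (term1 d hd i1) (term2 d hd i2)) (aF_le_del d (by omega))

/-- the exponents for all distances in closed form -/
theorem bDA_le (d : ℕ) (hd : 3 ≤ d) : bDA d ≤ (d:ℝ) / 2 + (8 / 9) / (2 * d) := by
  have hge : ∀ e : ℕ, 4 ≤ e → bDA e =
      max (max (aS e (1 / 3) (bDA (e - 1))) (aS e (k2A e) (bDA (e - 2)))) (aF e 12) := by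
    intro e he
    have h1 := bX_ge k1A k2A 12 4 iD e (by omega) he
    unfold bDA
    rw [h1]
    rfl
  have hb2 : bDA 2 = 1 := by unfold bDA; rw [bX_lt _ _ _ _ _ 2 (by norm_num)]; rfl
  have hb3' : bDA 3 = 3 / 2 := by unfold bDA; rw [bX_lt _ _ _ _ _ 3 (by norm_num)]; rfl
  have hb3 : bDA 3 ≤ (3:ℝ) / 2 + (8 / 9) / (2 * 3) := by rw [hb3']; norm_num
  have hb4 : bDA 4 ≤ (4:ℝ) / 2 + (8 / 9) / (2 * 4) := by
    rw [hge 4 (by norm_num)]
    simp only [Nat.reduceSub, hb2, hb3']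
    refine max_le (max_le ?_ ?_) ?_
    · unfold aS; norm_num
    · unfold aS k2A; norm_num
    · unfold aF; norm_num
  induction d using Nat.strong_induction_on with
  | _ d ih =>
    rcases Nat.lt_or_ge d 5 with h | h
    · interval_cases d
      · exact_mod_cast hb3
      · exact_mod_cast hb4
    · have c1 : ((d - 1 : ℕ) : ℝ) = (d:ℝ) - 1 := by rw [Nat.cast_sub (by omega)]; simp
      have c2 : ((d - 2 : ℕ) : ℝ) = (d:ℝ) - 2 := by rw [Nat.cast_sub (by omega)]; simp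
      have i1 := ih (d - 1) (by omega) (by omega)
      have i2 := ih (d - 2) (by omega) (by omega)
      rw [c1] at i1
      rw [c2] at i2
      rw [hge d (by omega)]
      exact max_le (max_le (term1 d hd i1) (term2 d hd i2)) (aF_le_del d (by omega))

/-- the value in dimension four -/
theorem bDA_four : bDA 4 = 103 / 49 := by
  have hge : bDA 4 =
      max (max (aS 4 (1 / 3) (bDA (4 - 1))) (aS 4 (k2A 4) (bDA (4 - 2)))) (aF 4 12) := by
    have h1 := bX_ge k1A k2A 12 4 iD 4 (by omega) le_rfl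
    unfold bDA
    rw [h1]
    rfl
  have hb2 : bDA 2 = 1 := by unfold bDA; rw [bX_lt _ _ _ _ _ 2 (by norm_num)]; rfl
  have hb3 : bDA 3 = 3 / 2 := by unfold bDA; rw [bX_lt _ _ _ _ _ 3 (by norm_num)]; rfl
  rw [hge]
  simp only [Nat.reduceSub, hb2, hb3]
  have e1 : aS 4 (1 / 3) (3 / 2) = 21 / 10 := by unfold aS; norm_num
  have e2 : aS 4 (k2A 4) 1 = 103 / 49 := by unfold aS k2A; norm_num
  have e3 : aF 4 12 = 71 / 34 := by unfold aF; norm_num
  rw [e1, e2, e3]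
  norm_num

/-- a smaller exponent is allowed to be increased -/
theorem Sex.mono {d : ℕ} {S : ℕ → Finset (EuclideanSpace ℝ (Fin d)) → Prop} {α β : ℝ}
    (h : Sex d S α) (hαβ : α ≤ β) : Sex d S β := by
  intro ε hε
  obtain ⟨C, hC, hCb⟩ := h ε hε
  refine ⟨C, hC, fun t ht P hP => (hCb t ht P hP).trans ?_⟩
  have ht' : (1:ℝ) ≤ t := by exact_mod_cast ht
  apply mul_le_mul_of_nonneg_left _ hC.le
  exact Real.rpow_le_rpow_of_exponent_le ht' (by linarith)

end Vale.Agent.P054I
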