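import Vale.Agent.P054.MathlibUsed
import Vale.Agent.P054.H239.HClosed
attribute [-instance] ProperSMul.toContinuousSMul IsTopologicalTorsor.toContinuousSMul IdemSemiring.toCanonicallyOrderedAdd IdemSemiring.toMulLeftMono IdemSemiring.toMulRightMono AddQuantale.instAddLeftMono AddQuantale.instAddRightMono Quantale.instMulLeftMono Quantale.instMulRightMono FiniteDimensional.rclike_to_real IsScalarTower.complexToReal FiniteDimensional.complexToReal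

set_option linter.all false
set_option autoImplicit false

open Finset Vale.Agent.P054K Vale.Agent.P054G

namespace Vale.Agent.P054I

/-! ### the version with the local lemma `k ^ (3 (d - 2)) M1 + k ^ (6 (d - 2)) M2` for `d ≥ 3` -/

noncomputable def k1C : ℕ → ℝ := fun d => if d ≤ 2 then 1 / 3 else ((d:ℝ) - 1) / (3 * ((d:ℝ) - 2))

noncomputable def k2C : ℕ → ℝ := fun d => if d ≤ 2 then 1 else ((d:ℝ) - 1) / (6 * ((d:ℝ) - 2))

/-- the exponents of `η` -/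
def e1C : ℕ → ℕ := fun d => if d ≤ 2 then 3 else 3 * (d - 2)

def e2C : ℕ → ℕ := fun d => if d ≤ 2 then 0 else 6 * (d - 2)

theorem k1C_pos (d : ℕ) : 0 < k1C d := by
  unfold k1C
  split_ifs with h
  · norm_num
  · push Not at h
    have hD : (3:ℝ) ≤ d := by exact_mod_cast h
    apply div_pos <;> linarith

theorem k1C_le (d : ℕ) : k1C d ≤ 2 := by
  unfold k1C
  split_ifs with h
  · norm_num
  · push Not at h
    have hD : (3:ℝ) ≤ d := by exact_mod_cast h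
    rw [div_le_iff₀ (by linarith)]
    linarith

theorem k2C_pos (d : ℕ) : 0 < k2C d := by
  unfold k2C
  split_ifs with h
  · norm_num
  · push Not at h
    have hD : (3:ℝ) ≤ d := by exact_mod_cast h
    apply div_pos <;> linarith

theorem k1C_mul (d : ℕ) (hd : 2 ≤ d) : (e1C d : ℝ) * k1C d ≤ (d:ℝ) - 1 := by
  unfold e1C k1C
  split_ifs with h
  · have : d = 2 := by omega
    subst this
    norm_num
  · push Not at h
    have hD : (3:ℝ) ≤ d := by exact_mod_cast h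
    have hc : ((d - 2 : ℕ) : ℝ) = (d:ℝ) - 2 := by rw [Nat.cast_sub (by omega)]; simp
    rw [Nat.cast_mul, hc]
    push_cast
    rw [mul_div_cancel₀]
    have : (0:ℝ) < 3 * ((d:ℝ) - 2) := by linarith
    exact this.ne'

theorem k2C_mul (d : ℕ) (hd : 2 ≤ d) : (e2C d : ℝ) * k2C d ≤ (d:ℝ) - 1 := by
  unfold e2C k2C
  split_ifs with h
  · have : d = 2 := by omega
    subst this
    norm_num
  · push Not at h
    have hD : (3:ℝ) ≤ d := by exact_mod_cast h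
    have hc : ((d - 2 : ℕ) : ℝ) = (d:ℝ) - 2 := by rw [Nat.cast_sub (by omega)]; simp
    rw [Nat.cast_mul, hc]
    push_cast
    rw [mul_div_cancel₀]
    have : (0:ℝ) < 6 * ((d:ℝ) - 2) := by linarith
    exact this.ne'

/-- the pinned exponents, version C -/
noncomputable def bPC : ℕ → ℝ := bX k1C k2C 12 2 iP

/-- the exponents for all distances, version C -/
noncomputable def bDC : ℕ → ℝ := bX k1C k2C 12 4 iD

/-- the local lemma of version C -/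
def LocC : Prop := ∀ d : ℕ, 3 ≤ d → ∃ (C : ℝ) (c : ℕ), 1 ≤ C ∧ LocGen d C c 6 (3 * (d - 2)) (6 * (d - 2))

theorem locC_all (hL : LocC) (hL2 : ∃ (C : ℝ) (c : ℕ), 1 ≤ C ∧ LocalB3 2 C c) (d : ℕ) (hd : 2 ≤ d) :
    ∃ (C : ℝ) (c : ℕ), 1 ≤ C ∧ LocGen d C c 6 (e1C d) (e2C d) := by
  rcases Nat.lt_or_ge d 3 with h | h
  · have : d = 2 := by omega
    subst this
    obtain ⟨C, c, hC, h1⟩ := hL2
    exact ⟨C, c, hC, locGen_of_B3 h1⟩
  · obtain ⟨C, c, hC, h1⟩ := hL d h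
    have a1 : e1C d = 3 * (d - 2) := by unfold e1C; rw [if_neg (by omega)]
    have a2 : e2C d = 6 * (d - 2) := by unfold e2C; rw [if_neg (by omega)]
    rw [a1, a2]
    exact ⟨C, c, hC, h1⟩

theorem e1C_pos (d : ℕ) (hd : 2 ≤ d) : 1 ≤ e1C d := by
  unfold e1C
  split_ifs with h
  · norm_num
  · omega

theorem keyAbs_C (hL : LocC) (hL2 : ∃ (C : ℝ) (c : ℕ), 1 ≤ C ∧ LocalB3 2 C c) (d : ℕ) (hd : 2 ≤ d)
    (hK : ∃ (K : ℝ) (c A : ℕ), 1 ≤ K ∧ KeyX d K c A)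
    {Sf : ℕ → Finset (EuclideanSpace ℝ (Fin d)) → Prop} (hSf : ∀ t P, Sf t P → PC d t P) :
    ∃ (K : ℝ) (c A : ℕ), 1 ≤ K ∧ KeyAbs d Sf (HY d) (H2Y d) K c A 12 (e1C d) (e2C d) := by
  obtain ⟨K, c, A, hK1, hX⟩ := hK
  obtain ⟨C, c', hC, hL1⟩ := locC_all hL hL2 d hd
  obtain ⟨K1, c1, h1, h2⟩ := keyAbs_of hd hSf hK1 (by omega : 1 ≤ A + 1)
    (keyX_mono (by omega : A ≤ A + 1) hX) hC (e1C_pos d hd) hL1
  exact ⟨K1, c1, A + 1, h1, h2⟩

theorem sexPC_C (hL : LocC) (hL2 : ∃ (C : ℝ) (c : ℕ), 1 ≤ C ∧ LocalB3 2 C c)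
    (hK : ∀ d, 2 ≤ d → ∃ (K : ℝ) (c A : ℕ), 1 ≤ K ∧ KeyX d K c A) (d : ℕ) :
    Sex d (PC d) (bPC d) :=
  sexPC (fun d => (k1C_pos d).le) k1C_le (fun d => (k2C_pos d).le) e1C e2C k1C_mul k2C_mul
    (fun d hd => keyAbs_C hL hL2 d hd (hK d hd) (fun t P h => h)) d

theorem sexDC_C (hL : LocC) (hL2 : ∃ (C : ℝ) (c : ℕ), 1 ≤ C ∧ LocalB3 2 C c)
    (hG2 : Sex 2 (DC 2) 1) (hG3 : Sex 3 (DC 3) (3 / 2))
    (hK : ∀ d, 2 ≤ d → ∃ (K : ℝ) (c A : ℕ), 1 ≤ K ∧ KeyX d K c A) (d : ℕ) :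
    Sex d (DC d) (bDC d) :=
  sexDC (fun d => (k1C_pos d).le) k1C_le (fun d => (k2C_pos d).le) e1C e2C
    (fun d hd => k1C_mul d (by omega)) (fun d hd => k2C_mul d (by omega)) hG2 hG3
    (fun d hd => keyAbs_C hL hL2 d (by omega) (hK d (by omega)) (fun t P (h : DC d t P) => h.toPC)) d

/-! ### closed form -/

theorem aF_le_delC (d : ℕ) (hd : 3 ≤ d) : aF d 12 ≤ (d:ℝ) / 2 + (5 / 6) / (2 * d) := by
  have hD : (3:ℝ) ≤ d := by exact_mod_cast hd
  have h0 : (0:ℝ) < d := by linarith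
  have h1 := aF_mul d 12 (by omega)
  have h3 : (0:ℝ) < 2 * d * ((12:ℕ):ℝ) + 2 * ((d:ℝ) - 1) := by push_cast; linarith
  refine le_of_mul_le_mul_right ?_ h3
  rw [h1]
  push_cast
  have h4 : ((d:ℝ) / 2 + (5 / 6) / (2 * d)) * (2 * d * 12 + 2 * ((d:ℝ) - 1)) =
      13 * (d:ℝ) ^ 2 - d + 65 / 6 - 5 / (6 * d) := by
    field_simp
    ring
  rw [h4]
  have h5 : 5 / (6 * (d:ℝ)) ≤ 5 / (6 * 3) := by
    apply div_le_div_of_nonneg_left (by norm_num) (by norm_num)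
    linarith
  have h6 : 5 / (6 * (3:ℝ)) = 5 / 18 := by norm_num
  rw [h6] at h5
  nlinarith

theorem k1C_eq (d : ℕ) (hd : 3 ≤ d) : k1C d = ((d:ℝ) - 1) / (3 * ((d:ℝ) - 2)) := by
  unfold k1C
  rw [if_neg (by omega)]

theorem k2C_eq (d : ℕ) (hd : 3 ≤ d) : k2C d = ((d:ℝ) - 1) / (6 * ((d:ℝ) - 2)) := by
  unfold k2C
  rw [if_neg (by omega)]

theorem term1C (d : ℕ) (hd : 3 ≤ d) {γ : ℝ}
    (hγ : γ ≤ ((d:ℝ) - 1) / 2 + (5 / 6) / (2 * ((d:ℝ) - 1))) :
    aS d (k1C d) γ ≤ (d:ℝ) / 2 + (5 / 6) / (2 * d) := by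
  have hD : (3:ℝ) ≤ d := by exact_mod_cast hd
  have h0 : (0:ℝ) < d := by linarith
  have h1 : (0:ℝ) < (d:ℝ) - 1 := by linarith
  have h1' : (0:ℝ) < (d:ℝ) - 2 := by linarith
  apply aS_le_del d (by omega) (k1C_pos d).le
  rw [k1C_eq d hd]
  have h2 : (5 / 6) / (2 * ((d:ℝ) - 1)) - (5 / 6) / (2 * d) = (5 / 12) / (d * ((d:ℝ) - 1)) := by
    field_simp
    ring
  have h3 : 1 / 2 - (5 / 12) / (d * ((d:ℝ) - 1)) ≤ (d:ℝ) / 2 + (5 / 6) / (2 * d) - γ := by linarith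
  have h4 : (0:ℝ) ≤ ((d:ℝ) - 1) / (3 * ((d:ℝ) - 2)) := by
    apply div_nonneg <;> linarith
  refine le_trans ?_ (mul_le_mul_of_nonneg_left h3 h4)
  have h5 : ((d:ℝ) - 1) / (3 * ((d:ℝ) - 2)) * (1 / 2 - (5 / 12) / (d * ((d:ℝ) - 1))) - (1 - 5 / 6) =
      (1 / (6 * ((d:ℝ) - 2))) * (1 - (5 / 6) / d) := by
    field_simp
    ring
  have h6 : (5 / 6) / (d:ℝ) ≤ 1 := by
    rw [div_le_one h0]
    linarith
  have h7 : 0 ≤ (1 / (6 * ((d:ℝ) - 2))) * (1 - (5 / 6) / d) := by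
    apply mul_nonneg
    · positivity
    · linarith
  linarith

theorem term2C (d : ℕ) (hd : 3 ≤ d) {γ : ℝ}
    (hγ : γ ≤ ((d:ℝ) - 2) / 2 + (5 / 6) / (2 * ((d:ℝ) - 2))) :
    aS d (k2C d) γ ≤ (d:ℝ) / 2 + (5 / 6) / (2 * d) := by
  have hD : (3:ℝ) ≤ d := by exact_mod_cast hd
  have h0 : (0:ℝ) < d := by linarith
  have h1 : (0:ℝ) < (d:ℝ) - 2 := by linarith
  apply aS_le_del d (by omega) (k2C_pos d).le
  rw [k2C_eq d hd]
  have h2 : (5 / 6) / (2 * ((d:ℝ) - 2)) - (5 / 6) / (2 * d) = (5 / 6) / (d * ((d:ℝ) - 2)) := by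
    field_simp
    ring
  have h3 : 1 - (5 / 6) / (d * ((d:ℝ) - 2)) ≤ (d:ℝ) / 2 + (5 / 6) / (2 * d) - γ := by linarith
  have h4 : (0:ℝ) ≤ ((d:ℝ) - 1) / (6 * ((d:ℝ) - 2)) := by
    apply div_nonneg <;> linarith
  refine le_trans ?_ (mul_le_mul_of_nonneg_left h3 h4)
  have h5 : ((d:ℝ) - 1) / (6 * ((d:ℝ) - 2)) * (1 - (5 / 6) / (d * ((d:ℝ) - 2))) - (1 - 5 / 6) =
      (1 / (6 * ((d:ℝ) - 2))) * (1 - (5 / 6) * ((d:ℝ) - 1) / (d * ((d:ℝ) - 2))) := by
    field_simp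
    ring
  have h6 : (5 / 6) * ((d:ℝ) - 1) / (d * ((d:ℝ) - 2)) ≤ 1 := by
    rw [div_le_one (by positivity)]
    nlinarith
  have h7 : 0 ≤ (1 / (6 * ((d:ℝ) - 2))) * (1 - (5 / 6) * ((d:ℝ) - 1) / (d * ((d:ℝ) - 2))) := by
    apply mul_nonneg
    · positivity
    · linarith
  linarith

/-- the pinned exponents in closed form -/
theorem bPC_le (d : ℕ) (hd : 3 ≤ d) : bPC d ≤ (d:ℝ) / 2 + (5 / 6) / (2 * d) := by
  have hiP0 : iP 0 = 0 := by simp [iP]
  have hiP1 : iP 1 = 1 := by simp [iP]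
  have hb0 : bPC 0 = 0 := by unfold bPC; rw [bX_zero, hiP0]
  have hb1 : bPC 1 = 1 := by unfold bPC; rw [bX_one, hiP1]
  have hge : ∀ e : ℕ, 2 ≤ e → bPC e =
      max (max (aS e (k1C e) (bPC (e - 1))) (aS e (k2C e) (bPC (e - 2)))) (aF e 12) := by
    intro e he
    have h1 := bX_ge k1C k2C 12 2 iP e he he
    unfold bPC
    rw [h1]
  have hb2 : bPC 2 ≤ 16 / 13 := by
    rw [hge 2 le_rfl]
    simp only [Nat.reduceSub, hb0, hb1]
    refine max_le (max_le ?_ ?_) ?_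
    · unfold aS k1C; norm_num
    · unfold aS k2C; norm_num
    · unfold aF; norm_num
  have hb3 : bPC 3 ≤ (3:ℝ) / 2 + (5 / 6) / (2 * 3) := by
    rw [hge 3 (by norm_num)]
    simp only [Nat.reduceSub, hb1]
    refine max_le (max_le ?_ ?_) ?_
    · refine (aS_mono 3 (by norm_num) (k1C_pos 3).le hb2).trans ?_
      unfold aS k1C; norm_num
    · unfold aS k2C; norm_num
    · unfold aF; norm_num
  have hb4 : bPC 4 ≤ (4:ℝ) / 2 + (5 / 6) / (2 * 4) := by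
    rw [hge 4 (by norm_num)]
    simp only [Nat.reduceSub]
    refine max_le (max_le ?_ ?_) ?_
    · refine (aS_mono 4 (by norm_num) (k1C_pos 4).le hb3).trans ?_
      unfold aS k1C; norm_num
    · refine (aS_mono 4 (by norm_num) (k2C_pos 4).le hb2).trans ?_
      unfold aS k2C; norm_num
    · unfold aF; norm_num
  induction d using Nat.strong_induction_on with
  | _ d ih =>
    rcases Nat.lt_or_ge d 5 with h | h
    · interval_cases d
      · exact_mod_cast hb3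
      · exact_mod_cast hb4
    · have c1 : ((d - 1 : ℕ) : ℝ) = (d:ℝ) - 1 := by rw [Nat.cast_sub (by omega)]; simp
      have c2 : ((d - 2 : ℕ) : ℝ) = (d:ℝ) - 2 := by rw [Nat.cast_sub (by omega)]; simp
      have i1 := ih (d - 1) (by omega) (by omega)
      have i2 := ih (d - 2) (by omega) (by omega)
      rw [c1] at i1
      rw [c2] at i2
      rw [hge d (by omega)]
      exact max_le (max_le (term1C d hd i1) (term2C d hd i2)) (aF_le_delC d (by omega))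

/-- the exponents for all distances in closed form -/
theorem bDC_le (d : ℕ) (hd : 3 ≤ d) : bDC d ≤ (d:ℝ) / 2 + (5 / 6) / (2 * d) := by
  have hge : ∀ e : ℕ, 4 ≤ e → bDC e =
      max (max (aS e (k1C e) (bDC (e - 1))) (aS e (k2C e) (bDC (e - 2)))) (aF e 12) := by
    intro e he
    have h1 := bX_ge k1C k2C 12 4 iD e (by omega) he
    unfold bDC
    rw [h1]
  have hb2 : bDC 2 = 1 := by unfold bDC; rw [bX_lt _ _ _ _ _ 2 (by norm_num)]; rfl
  have hb3' : bDC 3 = 3 / 2 := by unfold bDC; rw [bX_lt _ _ _ _ _ 3 (by norm_num)]; rfl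
  have hb3 : bDC 3 ≤ (3:ℝ) / 2 + (5 / 6) / (2 * 3) := by rw [hb3']; norm_num
  have hb4 : bDC 4 ≤ (4:ℝ) / 2 + (5 / 6) / (2 * 4) := by
    rw [hge 4 (by norm_num)]
    simp only [Nat.reduceSub, hb2, hb3']
    refine max_le (max_le ?_ ?_) ?_
    · unfold aS k1C; norm_num
    · unfold aS k2C; norm_num
    · unfold aF; norm_num
  induction d using Nat.strong_induction_on with
  | _ d ih =>
    rcases Nat.lt_or_ge d 5 with h | h
    · interval_cases d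
      · exact_mod_cast hb3
      · exact_mod_cast hb4
    · have c1 : ((d - 1 : ℕ) : ℝ) = (d:ℝ) - 1 := by rw [Nat.cast_sub (by omega)]; simp
      have c2 : ((d - 2 : ℕ) : ℝ) = (d:ℝ) - 2 := by rw [Nat.cast_sub (by omega)]; simp
      have i1 := ih (d - 1) (by omega) (by omega)
      have i2 := ih (d - 2) (by omega) (by omega)
      rw [c1] at i1
      rw [c2] at i2
      rw [hge d (by omega)]
      exact max_le (max_le (term1C d hd i1) (term2C d hd i2)) (aF_le_delC d (by omega))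

/-- the value in dimension four -/
theorem bDC_four : bDC 4 = 23 / 11 := by
  have hge : bDC 4 =
      max (max (aS 4 (k1C 4) (bDC (4 - 1))) (aS 4 (k2C 4) (bDC (4 - 2)))) (aF 4 12) := by
    have h1 := bX_ge k1C k2C 12 4 iD 4 (by omega) le_rfl
    unfold bDC
    rw [h1]
  have hb2 : bDC 2 = 1 := by unfold bDC; rw [bX_lt _ _ _ _ _ 2 (by norm_num)]; rfl
  have hb3 : bDC 3 = 3 / 2 := by unfold bDC; rw [bX_lt _ _ _ _ _ 3 (by norm_num)]; rfl
  rw [hge]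
  simp only [Nat.reduceSub, hb2, hb3]
  have e1 : aS 4 (k1C 4) (3 / 2) = 71 / 34 := by unfold aS k1C; norm_num
  have e2 : aS 4 (k2C 4) 1 = 23 / 11 := by unfold aS k2C; norm_num
  have e3 : aF 4 12 = 71 / 34 := by unfold aF; norm_num
  rw [e1, e2, e3]
  norm_num

end Vale.Agent.P054I
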