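import Vale.Agent.P054.MathlibUsed
import Vale.Agent.P054.H239.HSeqC
import Vale.Agent.P054.H343.G.LocC
attribute [-instance] ProperSMul.toContinuousSMul IsTopologicalTorsor.toContinuousSMul IdemSemiring.toCanonicallyOrderedAdd IdemSemiring.toMulLeftMono IdemSemiring.toMulRightMono AddQuantale.instAddLeftMono AddQuantale.instAddRightMono Quantale.instMulLeftMono Quantale.instMulRightMono FiniteDimensional.rclike_to_real IsScalarTower.complexToReal FiniteDimensional.complexToReal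

set_option linter.all false
set_option autoImplicit false

open Finset Vale.Agent.P054K Vale.Agent.P054G

namespace Vale.Agent.P054I

/-- any hereditary family inside the pinned class, any initial exponents -/
theorem sexGen {Sf : (j : ℕ) → ℕ → Finset (EuclideanSpace ℝ (Fin j)) → Prop} (hSf : Her Sf)
    (hsub : ∀ d t P P', Sf d t P → P' ⊆ P → Sf d t P')
    (hmono : ∀ d t t', t ≤ t' → ∀ P, Sf d t P → Sf d t' P)
    {κ1 κ2 : ℕ → ℝ} {F d0 : ℕ} {init : ℕ → ℝ} (hκ1 : ∀ d, 0 ≤ κ1 d) (hκ1' : ∀ d, κ1 d ≤ 2)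
    (hκ2 : ∀ d, 0 ≤ κ2 d) (hd0 : 2 ≤ d0) (hi0 : init 0 = 0)
    (hi : ∀ d, 1 ≤ d → d < d0 → (d:ℝ) / 2 ≤ init d ∧ init d ≤ fd d)
    (hbase : ∀ d, d < d0 → Sex d (Sf d) (init d)) (e1 e2 : ℕ → ℕ)
    (he1 : ∀ d, d0 ≤ d → e1 d * κ1 d ≤ (d:ℝ) - 1) (he2 : ∀ d, d0 ≤ d → e2 d * κ2 d ≤ (d:ℝ) - 1)
    (hkey : ∀ d, d0 ≤ d → ∃ (K : ℝ) (c A : ℕ), 1 ≤ K ∧
      KeyAbs d (Sf d) (HY d) (H2Y d) K c A F (e1 d) (e2 d)) (d : ℕ) :
    Sex d (Sf d) (bX κ1 κ2 F d0 init d) := by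
  refine sex_all hSf hsub hmono d0 F e1 e2 hd0 hkey _ ?_ ?_ ?_ d
  · exact bX_nonneg hκ1 hκ1' hκ2 hd0 hi0 hi
  · intro d hd
    rw [bX_lt _ _ _ _ _ d hd]
    exact hbase d hd
  · intro d hd
    exact bX_rec hκ1 hκ1' hκ2 hd0 hi0 hi e1 e2 he1 he2 d hd

/-- the family version of the step, `d ≥ 3`, with the best local lemma -/
theorem sexFam {Sf : (j : ℕ) → ℕ → Finset (EuclideanSpace ℝ (Fin j)) → Prop} (hSf : Her Sf)
    (hsub : ∀ d t P P', Sf d t P → P' ⊆ P → Sf d t P')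
    (hmono : ∀ d t t', t ≤ t' → ∀ P, Sf d t P → Sf d t' P)
    (hPC : ∀ d t P, Sf d t P → PC d t P)
    (hK : ∀ d, 2 ≤ d → ∃ (K : ℝ) (c A : ℕ), 1 ≤ K ∧ KeyX d K c A)
    {d0 : ℕ} {init : ℕ → ℝ} (hd0 : 3 ≤ d0) (hi0 : init 0 = 0)
    (hi : ∀ d, 1 ≤ d → d < d0 → (d:ℝ) / 2 ≤ init d ∧ init d ≤ fd d)
    (hbase : ∀ d, d < d0 → Sex d (Sf d) (init d)) (d : ℕ) :
    Sex d (Sf d) (bX k1C k2C 12 d0 init d) := by
  refine sexGen hSf hsub hmono (fun d => (k1C_pos d).le) k1C_le (fun d => (k2C_pos d).le)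
    (by omega) hi0 hi hbase e1C e2C (fun d hd => k1C_mul d (by omega))
    (fun d hd => k2C_mul d (by omega)) ?_ d
  intro d hd
  obtain ⟨K, c, A, hK1, hX⟩ := hK d (by omega)
  obtain ⟨C, c', hC, hL1⟩ := locGen_adj d (by omega)
  have a1 : e1C d = 3 * (d - 2) := by unfold e1C; rw [if_neg (by omega)]
  have a2 : e2C d = 6 * (d - 2) := by unfold e2C; rw [if_neg (by omega)]
  obtain ⟨K1, c1, h1, h2⟩ := keyAbs_of (by omega : 2 ≤ d) (fun t P h => hPC d t P h) hK1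
    (by omega : 1 ≤ A + 1)
    (keyX_mono (by omega : A ≤ A + 1) hX) hC (by omega : 1 ≤ 3 * (d - 2)) hL1
  rw [a1, a2]
  exact ⟨K1, c1, A + 1, h1, h2⟩

/-- initial values `0, 1, u, v` -/
noncomputable def iUV (u v : ℝ) : ℕ → ℝ
  | 0 => 0
  | 1 => 1
  | 2 => u
  | _ => v

theorem iUV_ok {u v : ℝ} (hu : 1 ≤ u) (hu' : u ≤ 5 / 4) (hv : 3 / 2 ≤ v) (hv' : v ≤ 5 / 3) (d : ℕ)
    (h1 : 1 ≤ d) (h2 : d < 4) : (d:ℝ) / 2 ≤ iUV u v d ∧ iUV u v d ≤ fd d := by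
  interval_cases d
  · unfold iUV fd
    norm_num
  · unfold iUV fd
    norm_num
    exact ⟨hu, hu'⟩
  · unfold iUV fd
    norm_num
    exact ⟨hv, hv'⟩

/-- the pinned class from the exponents `u` in the plane and `v` in space -/
theorem sexPC_uv (hK : ∀ d, 2 ≤ d → ∃ (K : ℝ) (c A : ℕ), 1 ≤ K ∧ KeyX d K c A) {u v : ℝ}
    (hu : 1 ≤ u) (hu' : u ≤ 5 / 4) (hv : 3 / 2 ≤ v) (hv' : v ≤ 5 / 3)
    (h2 : Sex 2 (PC 2) u) (h3 : Sex 3 (PC 3) v) (d : ℕ) :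
    Sex d (PC d) (bX k1C k2C 12 4 (iUV u v) d) := by
  refine sexFam her_PC (fun d t P P' h hs => h.sub hs) (fun d t t' ht P h => h.mono ht)
    (fun d t P h => h) hK (by norm_num) rfl (iUV_ok hu hu' hv hv') ?_ d
  intro d hd
  interval_cases d
  · exact sex_PC_zero
  · exact sex_PC_one
  · exact h2
  · exact h3

/-- the class of all distances from the exponents `u` in the plane and `v` in space -/
theorem sexDC_uv (hK : ∀ d, 2 ≤ d → ∃ (K : ℝ) (c A : ℕ), 1 ≤ K ∧ KeyX d K c A) {u v : ℝ}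
    (hu : 1 ≤ u) (hu' : u ≤ 5 / 4) (hv : 3 / 2 ≤ v) (hv' : v ≤ 5 / 3)
    (h2 : Sex 2 (DC 2) u) (h3 : Sex 3 (DC 3) v) (d : ℕ) :
    Sex d (DC d) (bX k1C k2C 12 4 (iUV u v) d) := by
  refine sexFam her_DC (fun d t P P' h hs => h.sub hs) (fun d t t' ht P h => h.mono ht)
    (fun d t P h => h.toPC) hK (by norm_num) rfl (iUV_ok hu hu' hv hv') ?_ d
  intro d hd
  interval_cases d
  · exact sex_DC_of_PC sex_PC_zero
  · exact sex_DC_of_PC sex_PC_one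
  · exact h2
  · exact h3

end Vale.Agent.P054I
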