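import Vale.Agent.P054.MathlibUsed
import Vale.Agent.P054.H449.IM.Defs
attribute [-instance] ProperSMul.toContinuousSMul IsTopologicalTorsor.toContinuousSMul IdemSemiring.toCanonicallyOrderedAdd IdemSemiring.toMulLeftMono IdemSemiring.toMulRightMono AddQuantale.instAddLeftMono AddQuantale.instAddRightMono Quantale.instMulLeftMono Quantale.instMulRightMono FiniteDimensional.rclike_to_real IsScalarTower.complexToReal FiniteDimensional.complexToReal

set_option linter.all false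
set_option autoImplicit false

open Finset Vale.Agent.P054K

namespace Vale.Agent.P054I

open scoped Classical in
/-- a set with a small sum of rank differences has a window -/
theorem win_of_sum {d : ℕ} (Q X : Finset (EuclideanSpace ℝ (Fin d))) (hX : X ⊆ Q)
    (p : EuclideanSpace ℝ (Fin d)) (ε : ℝ) (hε : 0 < ε) (h4 : 4 ≤ ε * X.card)
    (hD : ∑ π ∈ X ×ˢ X, (|rkv (Q.image (dist p)) (dist p π.2) -
      rkv (Q.image (dist p)) (dist p π.1)| : ℝ) ≤ ε ^ 2 / 16 * (X.card : ℝ) ^ 3) :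
    Win X (ε * X.card / 2) p := by
  obtain ⟨D, hDD⟩ : ∃ D : Finset ℝ, D = Q.image (dist p) := ⟨_, rfl⟩
  rw [← hDD] at hD
  obtain ⟨x, hx⟩ : ∃ x : ℝ, x = (X.card : ℝ) := ⟨_, rfl⟩
  rw [← hx] at h4 hD ⊢
  have hx0 : 0 < x := by
    by_contra hc
    push Not at hc
    have : ε * x ≤ 0 := mul_nonpos_of_nonneg_of_nonpos hε.le hc
    linarith only [h4, this]
  have hne : X.Nonempty := by
    rw [← Finset.card_pos]
    have : (0:ℝ) < (X.card : ℝ) := by rw [← hx]; exact hx0
    exact_mod_cast this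
  obtain ⟨a, ha, hsum⟩ : ∃ a ∈ X, ∑ b ∈ X, (|rkv D (dist p b) - rkv D (dist p a)| : ℝ) ≤
      ε ^ 2 / 16 * x ^ 2 := by
    by_contra hcon
    push Not at hcon
    have h5 : ∑ a ∈ X, ε ^ 2 / 16 * x ^ 2 <
        ∑ a ∈ X, ∑ b ∈ X, (|rkv D (dist p b) - rkv D (dist p a)| : ℝ) :=
      Finset.sum_lt_sum_of_nonempty hne (fun a ha => hcon a ha)
    rw [Finset.sum_const, nsmul_eq_mul, ← hx] at h5
    rw [Finset.sum_product] at hD
    have h6 : x * (ε ^ 2 / 16 * x ^ 2) = ε ^ 2 / 16 * x ^ 3 := by ring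
    rw [h6] at h5
    exact absurd (lt_of_lt_of_le h5 hD) (lt_irrefl _)
  refine ⟨X.filter (fun b => (|rkv D (dist p b) - rkv D (dist p a)| : ℝ) ≤ ε * x / 8),
    filter_subset _ _, ?_, ?_⟩
  · obtain ⟨Z, hZ⟩ : ∃ Z : Finset (EuclideanSpace ℝ (Fin d)), Z = X \ X.filter (fun b =>
      (|rkv D (dist p b) - rkv D (dist p a)| : ℝ) ≤ ε * x / 8) := ⟨_, rfl⟩
    rw [← hZ]
    have h6 : (Z.card : ℝ) * (ε * x / 8) ≤ ε ^ 2 / 16 * x ^ 2 := by
      calc (Z.card : ℝ) * (ε * x / 8) = ∑ b ∈ Z, ε * x / 8 := by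
            rw [Finset.sum_const, nsmul_eq_mul]
        _ ≤ ∑ b ∈ Z, (|rkv D (dist p b) - rkv D (dist p a)| : ℝ) := by
            apply Finset.sum_le_sum
            intro b hb
            rw [hZ, mem_sdiff, mem_filter, not_and] at hb
            have := hb.2 hb.1
            push Not at this
            exact this.le
        _ ≤ ∑ b ∈ X, (|rkv D (dist p b) - rkv D (dist p a)| : ℝ) := by
            apply Finset.sum_le_sum_of_subset_of_nonneg
            · rw [hZ]; exact sdiff_subset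
            · intro b _ _; exact abs_nonneg _
        _ ≤ _ := hsum
    have h7 : (Z.card : ℝ) * (ε * x / 8) ≤ (ε * x / 2) * (ε * x / 8) := by
      refine h6.trans (le_of_eq ?_)
      ring
    exact le_of_mul_le_mul_right h7 (by positivity)
  · obtain ⟨Y, hY⟩ : ∃ Y : Finset (EuclideanSpace ℝ (Fin d)), Y = X.filter (fun b =>
      (|rkv D (dist p b) - rkv D (dist p a)| : ℝ) ≤ ε * x / 8) := ⟨_, rfl⟩
    rw [← hY]
    obtain ⟨m, hm⟩ : ∃ m : ℤ, m = ⌊ε * x / 8⌋ := ⟨_, rfl⟩
    have hm0 : 0 ≤ m := by rw [hm]; exact Int.floor_nonneg.mpr (by positivity)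
    have h8 : (Y.image (dist p)).card ≤
        (Finset.Icc (rkv D (dist p a) - m) (rkv D (dist p a) + m)).card := by
      apply Finset.card_le_card_of_injOn (fun v => rkv D v)
      · intro v hv
        rw [Finset.mem_coe, mem_image] at hv
        obtain ⟨b, hb, rfl⟩ := hv
        rw [hY, mem_filter] at hb
        have h9 : |rkv D (dist p b) - rkv D (dist p a)| ≤ m := by
          rw [hm, Int.le_floor]
          push_cast
          exact hb.2
        rw [abs_le] at h9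
        rw [Finset.mem_coe, Finset.mem_Icc]
        constructor
        · linarith only [h9.1]
        · linarith only [h9.2]
      · intro v hv w hw hvw
        have hmem : ∀ u, u ∈ (↑(Y.image (dist p)) : Set ℝ) → u ∈ D := by
          intro u hu
          rw [Finset.mem_coe, mem_image] at hu
          obtain ⟨b, hb, rfl⟩ := hu
          rw [hY, mem_filter] at hb
          rw [hDD]
          exact mem_image_of_mem _ (hX hb.1)
        exact ((rkv_eq_iff D v w (hmem v hv) (hmem w hw)).mp hvw.symm)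
    rw [Int.card_Icc] at h8
    have h10 : (rkv D (dist p a) + m + 1 - (rkv D (dist p a) - m)).toNat = (2 * m + 1).toNat := by
      congr 1
      ring
    rw [h10] at h8
    have h11 : ((2 * m + 1).toNat : ℤ) = 2 * m + 1 := Int.toNat_of_nonneg (by linarith only [hm0])
    have h12 : (((Y.image (dist p)).card : ℤ)) ≤ 2 * m + 1 := by
      rw [← h11]
      exact_mod_cast h8
    have h13 : (((Y.image (dist p)).card : ℝ)) ≤ 2 * m + 1 := by exact_mod_cast h12
    have h14 : (m : ℝ) ≤ ε * x / 8 := by rw [hm]; exact Int.floor_le _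
    linarith only [h13, h14, h4]

/-- **G1** for most of the blocks the window exists -/
theorem win_blocks (d : ℕ) : WinBlocks d := by
  classical
  intro P Q s x l t1 I C1 Λ κ F jp h ε hε hC h4 p hp hpin
  obtain ⟨W, hW⟩ : ∃ W : Finset (Σ _ : Fin s, Finset (EuclideanSpace ℝ (Fin d))),
    W = (Bl F).filter (fun B => ¬ Win B.2 (ε * x / 2) p) := ⟨_, rfl⟩
  rw [← hW]
  have hex : ∀ c : ℝ, ∃ z, c ∈ Q.image (dist p) → z ∈ Q ∧ dist p z = c := by
    intro c
    by_cases hc : c ∈ Q.image (dist p)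
    · obtain ⟨z, hz, hzc⟩ := mem_image.mp hc
      exact ⟨z, fun _ => ⟨hz, hzc⟩⟩
    · exact ⟨p, fun h' => absurd h' hc⟩
  choose z hz using hex
  have hBX : ∀ B ∈ Bl F, B.2 ∈ F B.1 := by
    intro B hB
    unfold Bl at hB
    rw [mem_sigma] at hB
    exact hB.2
  have hx0 : (0:ℝ) < x := by
    have := h.hx8
    exact_mod_cast (by omega : 0 < x)
  have hs0 : (0:ℝ) < s := by
    have := h.hs1
    exact_mod_cast (by omega : 0 < s)
  have hn0 : (0:ℝ) < Q.card := by exact_mod_cast h.hQne.card_pos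
  -- the sum of the rank differences over one block
  have hblock : ∀ B ∈ Bl F, ∑ π ∈ B.2 ×ˢ B.2, (|rkv (Q.image (dist p)) (dist p π.2) -
      rkv (Q.image (dist p)) (dist p π.1)| : ℝ) =
        ∑ c ∈ Q.image (dist p), sepc rng ((p, z c), true) B.2 := by
    intro B hB
    apply sum_rkv Q B.2 (h.hFsub B.1 B.2 (hBX B hB)) (dist p) rng (fun c => ((p, z c), true))
    intro c hc q hq
    have h1 := hz c hc
    rw [rng_ball, h1.2]
  -- bad blocks have a large sum
  have hbad : ∀ B ∈ W, ε ^ 2 / 16 * (x:ℝ) ^ 3 ≤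
      ∑ c ∈ Q.image (dist p), sepc rng ((p, z c), true) B.2 := by
    intro B hB
    rw [hW, mem_filter] at hB
    by_contra hcon
    push Not at hcon
    apply hB.2
    have hcard := h.hFcard B.1 B.2 (hBX B hB.1)
    have h5 := win_of_sum Q B.2 (h.hFsub B.1 B.2 (hBX B hB.1)) p ε hε (by rw [hcard]; exact h4)
      (by rw [hblock B hB.1, hcard]; exact hcon.le)
    rw [hcard] at h5
    exact h5
  -- the total
  have htot : ∀ c ∈ Q.image (dist p), ∑ B ∈ Bl F, sepc rng ((p, z c), true) B.2 ≤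
      (x * Q.card) * (4 * Λ) := by
    intro c hc
    have h1 : ((p, z c), true) ∈ S2 P := by
      unfold S2
      rw [mem_product, mem_product]
      exact ⟨⟨hp, h.hQP (hz c hc).1⟩, mem_univ _⟩
    have h2 := h.hsep _ h1
    unfold Bl
    rw [Finset.sum_sigma]
    exact h2
  have hΛ : 0 ≤ ((x:ℝ) * Q.card) * (4 * Λ) := by
    have h1 : ((p, p), true) ∈ S2 P := by
      unfold S2
      rw [mem_product, mem_product]
      exact ⟨⟨hp, hp⟩, mem_univ _⟩
    refine le_trans ?_ (h.hsep _ h1)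
    apply Finset.sum_nonneg
    intro τ _
    apply Finset.sum_nonneg
    intro X _
    exact sepc_nonneg _ _ _
  have hvals : ((Q.image (dist p)).card : ℝ) ≤ t1 := by
    have h1 : (Q.image (dist p)).card ≤ (P.image (dist p)).card :=
      card_le_card (image_subset_image h.hQP)
    exact_mod_cast h1.trans hpin
  have hT : (W.card : ℝ) * (ε ^ 2 / 16 * (x:ℝ) ^ 3) ≤ t1 * ((x * Q.card) * (4 * Λ)) := by
    calc (W.card : ℝ) * (ε ^ 2 / 16 * (x:ℝ) ^ 3) = ∑ B ∈ W, ε ^ 2 / 16 * (x:ℝ) ^ 3 := by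
          rw [Finset.sum_const, nsmul_eq_mul]
      _ ≤ ∑ B ∈ W, ∑ c ∈ Q.image (dist p), sepc rng ((p, z c), true) B.2 :=
          Finset.sum_le_sum hbad
      _ ≤ ∑ B ∈ Bl F, ∑ c ∈ Q.image (dist p), sepc rng ((p, z c), true) B.2 := by
          apply Finset.sum_le_sum_of_subset_of_nonneg
          · rw [hW]; exact filter_subset _ _
          · intro B _ _
            apply Finset.sum_nonneg
            intro c _
            exact sepc_nonneg _ _ _
      _ = ∑ c ∈ Q.image (dist p), ∑ B ∈ Bl F, sepc rng ((p, z c), true) B.2 :=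
          Finset.sum_comm
      _ ≤ ∑ c ∈ Q.image (dist p), ((x:ℝ) * Q.card) * (4 * Λ) := Finset.sum_le_sum htot
      _ = ((Q.image (dist p)).card : ℝ) * (((x:ℝ) * Q.card) * (4 * Λ)) := by
          rw [Finset.sum_const, nsmul_eq_mul]
      _ ≤ t1 * ((x * Q.card) * (4 * Λ)) := mul_le_mul_of_nonneg_right hvals hΛ
  -- the size of the blocks
  have hxl : 1024 * Λ * (C1 * t1) ≤ x * s := by
    have h1 := h.hxlow
    have h2 : 1024 * (Λ / s) * (C1 * t1) * s ≤ x * s := mul_le_mul_of_nonneg_right h1 hs0.le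
    have h3 : 1024 * (Λ / s) * (C1 * t1) * s = 1024 * Λ * (C1 * t1) := by
      field_simp
    rw [h3] at h2
    exact h2
  have hB := h.hBlow
  have e1 : (W.card : ℝ) * (ε ^ 2 / 16 * (x:ℝ) ^ 3) * C1 ≤ (x:ℝ) ^ 3 * (Bl F).card / 32 := by
    calc (W.card : ℝ) * (ε ^ 2 / 16 * (x:ℝ) ^ 3) * C1
        ≤ t1 * ((x * Q.card) * (4 * Λ)) * C1 :=
          mul_le_mul_of_nonneg_right hT (Nat.cast_nonneg _)
      _ = (x * Q.card / 256) * (1024 * Λ * (C1 * t1)) := by ring
      _ ≤ (x * Q.card / 256) * (x * s) := mul_le_mul_of_nonneg_left hxl (by positivity)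
      _ = ((x:ℝ) ^ 2 / 256) * (s * Q.card) := by ring
      _ ≤ ((x:ℝ) ^ 2 / 256) * (8 * x * (Bl F).card) := mul_le_mul_of_nonneg_left hB (by positivity)
      _ = (x:ℝ) ^ 3 * (Bl F).card / 32 := by ring
  have e2 : (W.card : ℝ) * (1 / 4) * (x:ℝ) ^ 3 ≤ (W.card : ℝ) * (ε ^ 2 / 16 * (x:ℝ) ^ 3) * C1 := by
    have h1 : (W.card : ℝ) * (ε ^ 2 / 16 * (x:ℝ) ^ 3) * C1 =
        ((W.card : ℝ) * (x:ℝ) ^ 3 / 16) * (C1 * ε ^ 2) := by ring
    rw [h1]
    have h2 : (W.card : ℝ) * (1 / 4) * (x:ℝ) ^ 3 = ((W.card : ℝ) * (x:ℝ) ^ 3 / 16) * 4 := by ring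
    rw [h2]
    exact mul_le_mul_of_nonneg_left hC (by positivity)
  have e3 : (8 * (W.card : ℝ)) * ((x:ℝ) ^ 3 / 32) ≤ ((Bl F).card : ℝ) * ((x:ℝ) ^ 3 / 32) := by
    have h1 := e2.trans e1
    have h2 : (8 * (W.card : ℝ)) * ((x:ℝ) ^ 3 / 32) = (W.card : ℝ) * (1 / 4) * (x:ℝ) ^ 3 := by ring
    have h3 : ((Bl F).card : ℝ) * ((x:ℝ) ^ 3 / 32) = (x:ℝ) ^ 3 * (Bl F).card / 32 := by ring
    rw [h2, h3]
    exact h1
  have e4 : 8 * (W.card : ℝ) ≤ ((Bl F).card : ℝ) := le_of_mul_le_mul_right e3 (by positivity)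
  exact_mod_cast e4

end Vale.Agent.P054I
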