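import Vale.Agent.P054.MathlibUsed
import Vale.Agent.P054.H239.Win
import Vale.Agent.P054.H239.HSeq
import Vale.Agent.P054.H449.IM.KeyX
import Vale.Agent.P054.H998.Light
import Vale.Agent.P054.H998.Tri
import Vale.Agent.P054.H343.G.Few
import Vale.Agent.P054.H343.G.DataB
import Vale.Agent.P054.H420.G.HeavyB
import Vale.Agent.P054.R2.H524.Loc3
attribute [-instance] ProperSMul.toContinuousSMul IsTopologicalTorsor.toContinuousSMul IdemSemiring.toCanonicallyOrderedAdd IdemSemiring.toMulLeftMono IdemSemiring.toMulRightMono AddQuantale.instAddLeftMono AddQuantale.instAddRightMono Quantale.instMulLeftMono Quantale.instMulRightMono FiniteDimensional.rclike_to_real IsScalarTower.complexToReal FiniteDimensional.complexToReal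

set_option linter.all false
set_option autoImplicit false

open Finset Vale.Agent.P054K Vale.Agent.P054G

namespace Vale.Agent.P054I

/-- the key inequality, unconditional -/
theorem keyX_all (d : ℕ) (hd : 2 ≤ d) : ∃ (K : ℝ) (c A : ℕ), 1 ≤ K ∧ KeyX d K c A :=
  keyX_of d hd (has_dataB d (by omega)) (few_blocks d (win_blocks d) (heavy_blocks d))
    (tri_blocks d) (light_pairs d)

/-- the exponents of the pinned problem -/
theorem sexPC_final (d : ℕ) : Sex d (PC d) (bPA d) :=
  sexPC_A keyX_all localB3_ex d

/-- the exponents for all distances, from the planar and the spatial bound -/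
theorem sexDC_final (hG2 : Sex 2 (DC 2) 1) (hG3 : Sex 3 (DC 3) (3 / 2)) (d : ℕ) :
    Sex d (DC d) (bDA d) :=
  sexDC_A hG2 hG3 (fun d hd => keyX_all d (by omega)) (fun d hd => localB3_ex d (by omega)) d

end Vale.Agent.P054I
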