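import Vale.Agent.P054.MathlibUsed
import Vale.Agent.P054.H239.HFam
import Vale.Agent.P054.H449.IM.KeyY
import Vale.Agent.P054.H438.G.ElimH
attribute [-instance] ProperSMul.toContinuousSMul IsTopologicalTorsor.toContinuousSMul IdemSemiring.toCanonicallyOrderedAdd IdemSemiring.toMulLeftMono IdemSemiring.toMulRightMono AddQuantale.instAddLeftMono AddQuantale.instAddRightMono Quantale.instMulLeftMono Quantale.instMulRightMono FiniteDimensional.rclike_to_real IsScalarTower.complexToReal FiniteDimensional.complexToReal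

set_option linter.all false
set_option autoImplicit false

open Finset Vale.Agent.P054K Vale.Agent.P054G

namespace Vale.Agent.P054I

/-- as `KeyAbs`, with the fourth alternative of the version in which `η` depends on the block size -/
def KeyAbsY (d : ℕ) (S : ℕ → Finset (EuclideanSpace ℝ (Fin d)) → Prop)
    (H1 H2 : ℕ → Finset (EuclideanSpace ℝ (Fin d)) → ℝ → Prop)
    (K : ℝ) (c A E1 E2 : ℕ) : Prop :=
  ∀ (P : Finset (EuclideanSpace ℝ (Fin d))) (t l I : ℕ) (N g1 g2 η : ℝ), S t P → 1 ≤ N →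
    2 * Real.log N + 1 ≤ l → 2 ^ (I + 1) ≤ l →
    16 * (2 * Real.log N + 1) * (A * ((t + 1 : ℕ) : ℝ) + 2) ≤ (l:ℝ) ^ I →
    2 * (P.card : ℝ) ^ 2 ≤ N → (P.card : ℝ) * ((t + 1 : ℕ) : ℝ) ≤ N →
    20 * (Real.log (A * N * (l:ℝ) ^ 2 * ((t + 1 : ℕ) : ℝ) + 3) + 1) ≤ l →
    (∀ j < d, PinnedBy j t (l * ((t + 1 : ℕ) : ℝ) ^ j)) → H1 t P g1 → H2 t P g2 →
    1 ≤ g1 → 1 ≤ g2 → 1 ≤ η →
    (P.card : ℝ) ≤ K * (l:ℝ) ^ c * ((t + 1 : ℕ) : ℝ) ∨
    (P.card : ℝ) ^ 2 ≤ K * (l:ℝ) ^ c * ((t + 1 : ℕ) : ℝ) ^ d ∨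
    (P.card : ℝ) ^ (2 * d) * η ^ (d - 1) ≤ K * (l:ℝ) ^ c * ((t + 1 : ℕ) : ℝ) ^ (d ^ 2 + 1) ∨
    (P.card : ℝ) ^ (12 * d - 1) ≤ K * (l:ℝ) ^ c * ((t + 1 : ℕ) : ℝ) ^ (6 * d ^ 2 + 6 - d) ∨
    (P.card : ℝ) ≤ K * (l:ℝ) ^ c * (η ^ E1 * g1) ∨
    (P.card : ℝ) ≤ K * (l:ℝ) ^ c * (η ^ E2 * g2)

/-- elimination of `s` and `x`, the case `η ^ 6 = x / B` -/
theorem elimY (d : ℕ) (hd : 2 ≤ d) {n W B t s x η : ℝ} (hn : 0 ≤ n) (hW : 1 ≤ W) (hB : 1 ≤ B)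
    (ht : 1 ≤ t) (hs : 1 ≤ s) (hη : 0 < η) (hη6 : η ^ 6 * B = x) (hx : t ≤ x * s)
    (h1 : n ≤ W * (t * s ^ (d - 1))) (h2 : n ^ 2 * (s ^ 2 * η) ≤ 2 * W * t ^ (d + 1)) :
    n ^ (12 * d - 1) ≤ ((2 * W) ^ 6 * B) ^ (d - 1) * W ^ 11 * t ^ (6 * d ^ 2 + 6 - d) := by
  have hs0 : 0 < s := by linarith
  have ht0 : 0 < t := by linarith
  have hW0 : 0 < W := by linarith
  have hB0 : 0 < B := by linarith
  -- sixth power
  have h3 : n ^ 12 * s ^ 12 * η ^ 6 ≤ (2 * W) ^ 6 * t ^ (6 * (d + 1)) := by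
    have h4 := pow_le_pow_left₀ (by positivity) h2 6
    calc n ^ 12 * s ^ 12 * η ^ 6 = (n ^ 2 * (s ^ 2 * η)) ^ 6 := by ring
      _ ≤ (2 * W * t ^ (d + 1)) ^ 6 := h4
      _ = (2 * W) ^ 6 * t ^ (6 * (d + 1)) := by
          rw [mul_pow, ← pow_mul, mul_comm (d + 1) 6]
  have h5 : n ^ 12 * s ^ 11 * t ≤ ((2 * W) ^ 6 * B) * t ^ (6 * d + 5) * t := by
    calc n ^ 12 * s ^ 11 * t ≤ n ^ 12 * s ^ 11 * (x * s) :=
          mul_le_mul_of_nonneg_left hx (by positivity)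
      _ = (n ^ 12 * s ^ 12 * η ^ 6) * B := by rw [← hη6]; ring
      _ ≤ ((2 * W) ^ 6 * t ^ (6 * (d + 1))) * B := mul_le_mul_of_nonneg_right h3 hB0.le
      _ = ((2 * W) ^ 6 * B) * t ^ (6 * d + 5) * t := by
          have : 6 * (d + 1) = 6 * d + 5 + 1 := by ring
          rw [this, pow_succ]
          ring
  have h6 : n ^ 12 * s ^ 11 ≤ ((2 * W) ^ 6 * B) * t ^ (6 * d + 5) := le_of_mul_le_mul_right h5 ht0
  have h7 := pow_le_pow_left₀ (by positivity) h6 (d - 1)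
  have h8 := pow_le_pow_left₀ hn h1 11
  have h9 : (n ^ 12 * s ^ 11) ^ (d - 1) * n ^ 11 ≤
      (((2 * W) ^ 6 * B) * t ^ (6 * d + 5)) ^ (d - 1) * (W * (t * s ^ (d - 1))) ^ 11 :=
    mul_le_mul h7 h8 (by positivity) (by positivity)
  obtain ⟨e, rfl⟩ : ∃ e, d = e + 1 := ⟨d - 1, by omega⟩
  have he : e + 1 - 1 = e := by omega
  rw [he] at h9
  have E1 : 12 * (e + 1) - 1 = 12 * e + 11 := by omega
  have E2 : 6 * (e + 1) ^ 2 + 6 - (e + 1) = (6 * (e + 1) + 5) * e + 11 := by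
    have : 6 * (e + 1) ^ 2 + 6 = (6 * (e + 1) + 5) * e + 11 + (e + 1) := by ring
    omega
  have hse : 0 < s ^ (11 * e) := by positivity
  have h10 : n ^ (12 * (e + 1) - 1) * s ^ (11 * e) ≤
      (((2 * W) ^ 6 * B) ^ e * W ^ 11 * t ^ (6 * (e + 1) ^ 2 + 6 - (e + 1))) * s ^ (11 * e) := by
    rw [E1, E2]
    calc n ^ (12 * e + 11) * s ^ (11 * e) = (n ^ 12 * s ^ 11) ^ e * n ^ 11 := by
          rw [mul_pow, ← pow_mul, ← pow_mul, pow_add]; ring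
      _ ≤ (((2 * W) ^ 6 * B) * t ^ (6 * (e + 1) + 5)) ^ e * (W * (t * s ^ e)) ^ 11 := h9
      _ = _ := by
          rw [mul_pow, mul_pow W, mul_pow t, ← pow_mul t, ← pow_mul s, pow_add t, mul_comm e 11]
          ring
  rw [he]
  exact le_of_mul_le_mul_right h10 hse


/-- the coefficients of all the alternatives -/
theorem coefsY (d : ℕ) {K KB C : ℝ} (c cB c' e1 e2 : ℕ) (hK : 1 ≤ K) (hKB1 : 1 ≤ KB) (hC : 1 ≤ C) :
    ∃ (K1 : ℝ) (c1 : ℕ), 2 ≤ K1 ∧ ∀ l : ℝ, 1 ≤ l →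
      K * l ^ c ≤ K1 * l ^ c1 ∧ 2 * (K * l ^ c) ≤ K1 * l ^ c1 ∧ l * (K * l ^ c) ≤ K1 * l ^ c1 ∧
      (K * l ^ c) * (1024 * (KB * l ^ cB) ^ 2 + 1) ≤ K1 * l ^ c1 ∧
      (2 * (K * l ^ c)) ^ (d - 1) * (K * l ^ c) ^ 2 ≤ K1 * l ^ c1 ∧
      ((2 * (K * l ^ c)) ^ 6 * (KB * l ^ cB)) ^ (d - 1) * (K * l ^ c) ^ 11 ≤ K1 * l ^ c1 ∧
      ∀ e : ℕ, e ≤ e1 + e2 → 8 * C * 256 ^ e * l ^ (c' + 2 * e) ≤ K1 * l ^ c1 := by
  obtain ⟨Ka, hKa⟩ : ∃ Ka : ℝ, Ka = K * (1024 * KB ^ 2 + 1) := ⟨_, rfl⟩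
  obtain ⟨Kb, hKb⟩ : ∃ Kb : ℝ, Kb = (2 * K) ^ (d - 1) * K ^ 2 := ⟨_, rfl⟩
  obtain ⟨Kc, hKc⟩ : ∃ Kc : ℝ, Kc = ((2 * K) ^ 6 * KB) ^ (d - 1) * K ^ 11 := ⟨_, rfl⟩
  obtain ⟨Kd, hKd⟩ : ∃ Kd : ℝ, Kd = 8 * C * 256 ^ (e1 + e2) := ⟨_, rfl⟩
  have hKa0 : 0 ≤ Ka := by rw [hKa]; positivity
  have hKb0 : 0 ≤ Kb := by rw [hKb]; positivity
  have hKc0 : 0 ≤ Kc := by rw [hKc]; positivity
  have hKd0 : 0 ≤ Kd := by rw [hKd]; positivity
  obtain ⟨K1, hK1⟩ : ∃ K1 : ℝ, K1 = 2 * K + Ka + Kb + Kc + Kd + 2 := ⟨_, rfl⟩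
  obtain ⟨c1, hc1⟩ : ∃ c1 : ℕ, c1 = (c + 1) + (c + 2 * cB) + (c * (d - 1) + c * 2) +
    ((c * 6 + cB) * (d - 1) + c * 11) + (c' + 2 * (e1 + e2)) := ⟨_, rfl⟩
  refine ⟨K1, c1, by rw [hK1]; linarith, ?_⟩
  intro l hl1
  have hl0 : 0 < l := by linarith
  have hcmp : ∀ (a : ℝ) (f : ℕ), 0 ≤ a → a ≤ K1 → f ≤ c1 → a * l ^ f ≤ K1 * l ^ c1 :=
    fun a f ha ha2 hf => coef_le ha ha2 hl1 hf
  refine ⟨hcmp K c (by linarith) (by rw [hK1]; linarith) (by omega), ?_, ?_, ?_, ?_, ?_, ?_⟩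
  · rw [← mul_assoc]; exact hcmp (2 * K) c (by linarith) (by rw [hK1]; linarith) (by omega)
  · have : l * (K * l ^ c) = K * l ^ (c + 1) := by rw [pow_succ]; ring
    rw [this]; exact hcmp K (c + 1) (by linarith) (by rw [hK1]; linarith) (by omega)
  · have h1 : (K * l ^ c) * (1024 * (KB * l ^ cB) ^ 2 + 1) ≤ Ka * l ^ (c + 2 * cB) := by
      have h2 : 1 ≤ l ^ (2 * cB) := one_le_pow₀ hl1
      have h3 : (KB * l ^ cB) ^ 2 = KB ^ 2 * l ^ (2 * cB) := by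
        rw [mul_pow, ← pow_mul, mul_comm cB 2]
      rw [h3, hKa, pow_add]
      have h4 : 1024 * (KB ^ 2 * l ^ (2 * cB)) + 1 ≤ (1024 * KB ^ 2 + 1) * l ^ (2 * cB) := by
        nlinarith
      calc K * l ^ c * (1024 * (KB ^ 2 * l ^ (2 * cB)) + 1)
          ≤ K * l ^ c * ((1024 * KB ^ 2 + 1) * l ^ (2 * cB)) :=
            mul_le_mul_of_nonneg_left h4 (by positivity)
        _ = _ := by ring
    exact h1.trans (hcmp Ka _ hKa0 (by rw [hK1]; linarith) (by omega))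
  · have h1 : (2 * (K * l ^ c)) ^ (d - 1) * (K * l ^ c) ^ 2 = Kb * l ^ (c * (d - 1) + c * 2) := by
      rw [hKb, pow_add, pow_mul, pow_mul, ← mul_assoc 2 K, mul_pow (2 * K), mul_pow K]
      ring
    rw [h1]
    exact hcmp Kb _ hKb0 (by rw [hK1]; linarith) (by omega)
  · have h1 : ((2 * (K * l ^ c)) ^ 6 * (KB * l ^ cB)) ^ (d - 1) * (K * l ^ c) ^ 11 =
        Kc * l ^ ((c * 6 + cB) * (d - 1) + c * 11) := by
      have h2 : (2 * (K * l ^ c)) ^ 6 * (KB * l ^ cB) = ((2 * K) ^ 6 * KB) * l ^ (c * 6 + cB) := by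
        rw [pow_add, pow_mul, ← mul_assoc 2 K, mul_pow (2 * K)]
        ring
      rw [h2, mul_pow, ← pow_mul, mul_pow K, ← pow_mul l c 11, hKc, pow_add]
      ring
    rw [h1]
    exact hcmp Kc _ hKc0 (by rw [hK1]; linarith) (by omega)
  · intro e he
    have h1 : 8 * C * 256 ^ e ≤ Kd := by
      rw [hKd]
      exact mul_le_mul_of_nonneg_left (pow_le_pow_right₀ (by norm_num) he) (by linarith)
    exact hcmp _ _ (by positivity) (h1.trans (by rw [hK1]; linarith)) (by omega)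

/-- small blocks -/
theorem smallY (d : ℕ) (hd : 2 ≤ d) {n W B T s x : ℝ} (hW0 : 0 < W) (hB0 : 0 < B) (ht1 : 1 ≤ T)
    (hs0 : 0 < s) (hsm : x ≤ 32 * B) (f3 : T ≤ x * s)
    (f4 : n ^ 2 ≤ W * (T ^ (d + 1) / s ^ 2 + T ^ d)) :
    n ^ 2 ≤ (W * (1024 * B ^ 2 + 1)) * T ^ d := by
  have ht10 : 0 < T := by linarith
  have h1 : T ≤ 32 * B * s := f3.trans (mul_le_mul_of_nonneg_right hsm hs0.le)
  have h2 : T ^ 2 ≤ 1024 * B ^ 2 * s ^ 2 := by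
    calc T ^ 2 ≤ (32 * B * s) ^ 2 := pow_le_pow_left₀ ht10.le h1 2
      _ = 1024 * B ^ 2 * s ^ 2 := by ring
  have h3 : T ^ (d + 1) / s ^ 2 ≤ 1024 * B ^ 2 * T ^ d := by
    rw [div_le_iff₀ (by positivity)]
    obtain ⟨e, rfl⟩ : ∃ e, d = e + 1 := ⟨d - 1, by omega⟩
    calc T ^ (e + 1 + 1) = T ^ e * T ^ 2 := by ring
      _ ≤ T ^ e * (1024 * B ^ 2 * s ^ 2) := mul_le_mul_of_nonneg_left h2 (by positivity)
      _ ≤ T ^ (e + 1) * (1024 * B ^ 2 * s ^ 2) := by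
          apply mul_le_mul_of_nonneg_right _ (by positivity)
          exact pow_le_pow_right₀ ht1 (by omega)
      _ = 1024 * B ^ 2 * T ^ (e + 1) * s ^ 2 := by ring
  calc n ^ 2 ≤ W * (T ^ (d + 1) / s ^ 2 + T ^ d) := f4
    _ ≤ W * (1024 * B ^ 2 * T ^ d + T ^ d) := by
        apply mul_le_mul_of_nonneg_left _ hW0.le
        linarith
    _ = (W * (1024 * B ^ 2 + 1)) * T ^ d := by ring

/-- the sixth root of `x / B` -/
theorem rootY {x B : ℝ} (hB : 1 ≤ B) (hx : B ≤ x) :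
    ∃ y : ℝ, 1 ≤ y ∧ y ^ 6 * B = x ∧ y ≤ x := by
  have hB0 : 0 < B := by linarith
  have hx0 : 0 < x := by linarith
  have hxB1 : 1 ≤ x / B := by rw [le_div_iff₀ hB0]; linarith
  have hy1 : 1 ≤ (x / B) ^ (1 / 6 : ℝ) := Real.one_le_rpow hxB1 (by norm_num)
  have hy6 : ((x / B) ^ (1 / 6 : ℝ)) ^ 6 * B = x := by
    have h1 : ((x / B) ^ (1 / 6 : ℝ)) ^ 6 = x / B := by
      rw [← Real.rpow_natCast, ← Real.rpow_mul (by positivity)]
      norm_num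
    rw [h1]
    exact div_mul_cancel₀ _ hB0.ne'
  obtain ⟨y, hy⟩ : ∃ y : ℝ, y = (x / B) ^ (1 / 6 : ℝ) := ⟨_, rfl⟩
  rw [← hy] at hy1 hy6
  refine ⟨y, hy1, hy6, ?_⟩
  calc y ≤ y ^ 6 := le_self_pow₀ hy1 (by norm_num)
    _ = y ^ 6 * 1 := (mul_one _).symm
    _ ≤ y ^ 6 * B := mul_le_mul_of_nonneg_left hB (by positivity)
    _ = x := hy6

/-- the real inequalities of the case of a large block -/
theorem largeY (d : ℕ) (hd : 2 ≤ d) {n W B T s x z y l Q C g1 g2 η k : ℝ} {c' e1 e2 : ℕ}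
    (hn : 0 ≤ n) (hW1 : 1 ≤ W) (hB1 : 1 ≤ B) (ht1 : 1 ≤ T) (hs : 1 ≤ s) (hl1 : 1 ≤ l) (hC : 1 ≤ C)
    (hg1 : 1 ≤ g1) (hg2 : 1 ≤ g2)
    (hz : 1 ≤ z) (hy1 : 1 ≤ y) (hy6 : y ^ 6 * B = x) (hyx : y ≤ x) (hη : η = min z y)
    (hk : k = 256 * l ^ 2 * η)
    (f1 : n ≤ W * T * s ^ (d - 1)) (f2 : x * s ≤ W * T) (f3 : T ≤ x * s)
    (h : n ≤ 4 * (C * l ^ c' * (k ^ e1 * g1 + k ^ e2 * g2)) ∨ n ≤ l * η ∨
      n ^ 2 ≤ W * (T ^ (d + 1) / (s ^ 2 * η) + T ^ d))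
    (c_2W : 2 * W ≤ Q) (c_lW : l * W ≤ Q)
    (c_b : (2 * W) ^ (d - 1) * W ^ 2 ≤ Q)
    (c_c : ((2 * W) ^ 6 * B) ^ (d - 1) * W ^ 11 ≤ Q)
    (c_d : ∀ e : ℕ, e ≤ e1 + e2 → 8 * C * 256 ^ e * l ^ (c' + 2 * e) ≤ Q) :
    n ≤ Q * T ∨ n ^ 2 ≤ Q * T ^ d ∨ n ^ (2 * d) * z ^ (d - 1) ≤ Q * T ^ (d ^ 2 + 1) ∨
    n ^ (12 * d - 1) ≤ Q * T ^ (6 * d ^ 2 + 6 - d) ∨
    n ≤ Q * (z ^ e1 * g1) ∨ n ≤ Q * (z ^ e2 * g2) := by
  have hW0 : 0 < W := by linarith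
  have hB0 : 0 < B := by linarith
  have ht10 : 0 < T := by linarith
  have hs0 : 0 < s := by linarith
  have hl0 : 0 < l := by linarith
  have hy0 : 0 < y := by linarith
  have hx0 : 0 < x := by linarith
  have hg10 : 0 < g1 := by linarith
  have hg20 : 0 < g2 := by linarith
  have hz0 : 0 < z := by linarith
  have hQ0 : 0 ≤ Q := by linarith
  have hη1 : 1 ≤ η := by rw [hη]; exact le_min hz hy1
  have hη0 : 0 < η := by linarith
  have hηz : η ≤ z := by rw [hη]; exact min_le_left _ _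
  have hηy : η ≤ y := by rw [hη]; exact min_le_right _ _
  have hkp : ∀ e : ℕ, k ^ e = 256 ^ e * l ^ (2 * e) * η ^ e := by
    intro e
    rw [hk, mul_pow, mul_pow, ← pow_mul]
  rcases h with h | h | h
  · have h1 : 4 * (C * l ^ c' * (k ^ e1 * g1 + k ^ e2 * g2)) =
        (4 * C * 256 ^ e1 * l ^ (c' + 2 * e1)) * (η ^ e1 * g1) +
        (4 * C * 256 ^ e2 * l ^ (c' + 2 * e2)) * (η ^ e2 * g2) := by
      rw [hkp, hkp]
      ring
    rw [h1] at h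
    have z1 : η ^ e1 ≤ z ^ e1 := pow_le_pow_left₀ hη0.le hηz e1
    have z2 : η ^ e2 ≤ z ^ e2 := pow_le_pow_left₀ hη0.le hηz e2
    have h2 : (8 * C * 256 ^ e1 * l ^ (c' + 2 * e1)) * (η ^ e1 * g1) ≤ Q * (z ^ e1 * g1) := by
      apply mul_le_mul (c_d e1 (by omega)) _ (by positivity) hQ0
      exact mul_le_mul_of_nonneg_right z1 hg10.le
    have h3 : (8 * C * 256 ^ e2 * l ^ (c' + 2 * e2)) * (η ^ e2 * g2) ≤ Q * (z ^ e2 * g2) := by
      apply mul_le_mul (c_d e2 (by omega)) _ (by positivity) hQ0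
      exact mul_le_mul_of_nonneg_right z2 hg20.le
    right; right; right; right
    by_contra hcon
    rw [not_or, not_le, not_le] at hcon
    linarith
  · left
    calc n ≤ l * η := h
      _ ≤ l * (x * s) := by
          apply mul_le_mul_of_nonneg_left _ hl0.le
          have h1 : x * 1 ≤ x * s := mul_le_mul_of_nonneg_left hs hx0.le
          linarith
      _ ≤ l * (W * T) := mul_le_mul_of_nonneg_left f2 hl0.le
      _ = (l * W) * T := by ring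
      _ ≤ _ := mul_le_mul_of_nonneg_right c_lW ht10.le
  · by_cases hsq : n ^ 2 ≤ 2 * W * T ^ d
    · right; left
      exact hsq.trans (mul_le_mul_of_nonneg_right c_2W (by positivity))
    · push Not at hsq
      have h1 : n ^ 2 ≤ 2 * W * (T ^ (d + 1) / (s ^ 2 * η)) := by
        have h2 : W * (T ^ (d + 1) / (s ^ 2 * η) + T ^ d) =
          W * (T ^ (d + 1) / (s ^ 2 * η)) + W * T ^ d := by ring
        rw [h2] at h
        linarith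
      have h3 : n ^ 2 * (s ^ 2 * η) ≤ 2 * W * T ^ (d + 1) := by
        have h4 : 0 < s ^ 2 * η := by positivity
        calc n ^ 2 * (s ^ 2 * η)
            ≤ (2 * W * (T ^ (d + 1) / (s ^ 2 * η))) * (s ^ 2 * η) :=
              mul_le_mul_of_nonneg_right h1 h4.le
          _ = 2 * W * T ^ (d + 1) := by
              rw [mul_assoc, div_mul_cancel₀ _ h4.ne']
      rcases le_total z y with hzy | hzy
      · -- `η = z`
        right; right; left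
        have hηz' : η = z := by rw [hη]; exact min_eq_left hzy
        have h5 := elimH d (by omega) n W W T s z hn hW1 hW1 ht1 hs hz
          f1 (by rw [hηz'] at h; exact h)
        rcases h5 with h5 | h5
        · exact absurd h5 (not_le.mpr hsq)
        · exact h5.trans (mul_le_mul_of_nonneg_right c_b (by positivity))
      · -- `η = y`
        right; right; right; left
        have hηy' : η = y := by rw [hη]; exact min_eq_right hzy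
        rw [hηy'] at h3
        have h5 := elimY d hd hn hW1 hB1 ht1 hs hy0 hy6 f3 (by rw [← mul_assoc]; exact f1) h3
        exact h5.trans (mul_le_mul_of_nonneg_right c_c (by positivity))

/-- the transition from `A` to `A + 1` in the logarithmic hypotheses -/
theorem logsY {A : ℕ} {N T l : ℝ} (hN : 1 ≤ N) (hT : 1 ≤ T) (hl : 1 ≤ l) :
    Real.log (A * N * l ^ 2 * T + 3) ≤ Real.log (((A + 1 : ℕ) : ℝ) * N * l ^ 2 * T + 3) ∧
    ∀ X : ℝ, 0 ≤ X → X ≤ N →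
      Real.log (X + 3) ≤ Real.log (((A + 1 : ℕ) : ℝ) * N * l ^ 2 * T + 3) := by
  have hAA : (A:ℝ) ≤ ((A + 1 : ℕ) : ℝ) := by push_cast; linarith
  have hA' : (1:ℝ) ≤ ((A + 1 : ℕ) : ℝ) := by exact_mod_cast (by omega : 1 ≤ A + 1)
  have hA0 : (0:ℝ) ≤ A := Nat.cast_nonneg _
  have h3 : 1 ≤ l ^ 2 := one_le_pow₀ hl
  have hp : 0 ≤ N * l ^ 2 * T := by positivity
  constructor
  · have h1 : (A:ℝ) * (N * l ^ 2 * T) ≤ ((A + 1 : ℕ) : ℝ) * (N * l ^ 2 * T) :=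
      mul_le_mul_of_nonneg_right hAA hp
    have h2 : 0 ≤ (A:ℝ) * (N * l ^ 2 * T) := mul_nonneg hA0 hp
    exact Real.log_le_log (by linarith) (by linarith)
  · intro X hX0 hXN
    have h5 : N * 1 ≤ N * (((A + 1 : ℕ) : ℝ) * l ^ 2 * T) := by
      apply mul_le_mul_of_nonneg_left _ (by linarith)
      exact one_le_mul_of_one_le_of_one_le (one_le_mul_of_one_le_of_one_le hA' h3) hT
    exact Real.log_le_log (by linarith) (by linarith)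


/-- the local theorem for the sub-blocks of a large block -/
theorem localY {d : ℕ} {C : ℝ} {c' e1 e2 A : ℕ} (hL : LocGen d C c' 6 e1 e2)
    {P : Finset (EuclideanSpace ℝ (Fin d))} {t l x : ℕ} {N T B z y g1 g2 η k : ℝ}
    (hN : 1 ≤ N) (hT : 1 ≤ T) (hl1 : (1:ℝ) ≤ l) (hC : 1 ≤ C) (hPN : (P.card : ℝ) ≤ N)
    (hlog : 20 * (Real.log (((A + 1 : ℕ) : ℝ) * N * (l:ℝ) ^ 2 * T + 3) + 1) ≤ l)
    (hg1 : 1 ≤ g1) (hg2 : 1 ≤ g2) (hH1 : HY d t P g1) (hH2 : H2Y d t P g2)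
    (hz : 1 ≤ z) (hy1 : 1 ≤ y) (hB : B = C * 256 ^ 6 * (l:ℝ) ^ (c' + 12))
    (hy6 : y ^ 6 * B = x) (hη : η = min z y) (hk : k = 256 * (l:ℝ) ^ 2 * η) :
    ∀ X ⊆ P, ∀ P0 ⊆ P, X.card = x → (∀ p ∈ P0, Bad X (256 * (l:ℝ) ^ 2 * η) p) →
      (P0.card : ℝ) ≤ C * (l:ℝ) ^ c' * (k ^ e1 * g1 + k ^ e2 * g2) := by
  classical
  have hl0 : (0:ℝ) < l := by linarith
  have hη1 : 1 ≤ η := by rw [hη]; exact le_min hz hy1
  have hη0 : 0 < η := by linarith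
  have hηy : η ≤ y := by rw [hη]; exact min_le_right _ _
  have hB0 : 0 < B := by rw [hB]; positivity
  have hk1 : 1 ≤ k := by
    rw [hk]
    have h1 : 1 ≤ (l:ℝ) ^ 2 := one_le_pow₀ hl1
    have h2 : (1:ℝ) ≤ 256 * (l:ℝ) ^ 2 := by linarith
    exact one_le_mul_of_one_le_of_one_le h2 hη1
  have hk6 : C * (l:ℝ) ^ c' * k ^ 6 ≤ x := by
    have h1 : C * (l:ℝ) ^ c' * k ^ 6 = η ^ 6 * B := by
      rw [hk, hB, pow_add]
      ring
    rw [h1, ← hy6]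
    apply mul_le_mul_of_nonneg_right _ hB0.le
    exact pow_le_pow_left₀ hη0.le hηy 6
  intro X hXP P0 hP0 hXc hbad
  rw [← hk] at hbad
  have h1 : (X.card : ℝ) ≤ N := le_trans (by exact_mod_cast card_le_card hXP) hPN
  have h2 := (logsY (A := A) hN hT hl1).2 (X.card : ℝ) (Nat.cast_nonneg _) h1
  refine hL X P0 t l k g1 g2 hk1 (by linarith) (by rw [hXc]; exact hk6) (by linarith) (by linarith)
    hbad ?_ ?_
  · intro p0 v hv
    refine le_trans ?_ (hH1 p0 v hv)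
    exact_mod_cast card_le_card (filter_subset_filter _ hP0)
  · intro D hD
    refine le_trans ?_ (hH2 D hD)
    exact_mod_cast card_le_card (filter_subset_filter _ hP0)

/-- the case in which one scale is good for half of the pairs -/
theorem topY {d : ℕ} {P : Finset (EuclideanSpace ℝ (Fin d))} {t s e1 : ℕ} {N Q z g1 : ℝ}
    (hPC : PC d t P) (hN : 1 ≤ N) (hPN : (P.card : ℝ) ≤ N)
    (hs : 16 * (2 * Real.log N + 1) * ((((t + 1 : ℕ)) : ℝ) + 2) ≤ s)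
    (hgd : Gd P P (S2 P) rng s 2) (hH1 : HY d t P g1) (hg1 : 1 ≤ g1) (hz : 1 ≤ z) (hQ : 2 ≤ Q) :
    (P.card : ℝ) ≤ Q * (z ^ e1 * g1) := by
  have hg10 : 0 < g1 := by linarith
  have hlogN : 0 ≤ Real.log N := Real.log_nonneg hN
  rcases P.eq_empty_or_nonempty with hPe | hPne
  · subst hPe
    rw [card_empty, Nat.cast_zero]
    positivity
  have hP1 : (1:ℝ) ≤ P.card := by exact_mod_cast hPne.card_pos
  have h0 : 2 * Real.log P.card + 1 ≤ 2 * Real.log N + 1 := by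
    have := Real.log_le_log (by linarith) hPN
    linarith
  have h1 := L2_topF P hPC (2 * Real.log N + 1) h0 s (le_trans ?_ hs) hPne hgd g1 hH1
  · refine h1.trans ?_
    apply mul_le_mul hQ _ hg10.le (by linarith)
    exact le_mul_of_one_le_left hg10.le (one_le_pow₀ hz)
  · apply mul_le_mul_of_nonneg_left _ (by linarith)
    push_cast
    linarith

/-- the key inequality for a class of sets, `η` depending on the block size -/
theorem keyAbsY_of {d : ℕ} (hd : 2 ≤ d) {Sf : ℕ → Finset (EuclideanSpace ℝ (Fin d)) → Prop}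
    (hSf : ∀ t P, Sf t P → PC d t P) {K : ℝ} {c A : ℕ} (hK : 1 ≤ K)
    (hX : KeyY d K c A) {C : ℝ} {c' e1 e2 : ℕ} (hC : 1 ≤ C)
    (hL : LocGen d C c' 6 e1 e2) :
    ∃ (K1 : ℝ) (c1 : ℕ), 1 ≤ K1 ∧ KeyAbsY d Sf (HY d) (H2Y d) K1 c1 (A + 1) e1 e2 := by
  classical
  have hKB1 : 1 ≤ C * 256 ^ 6 := by linarith
  obtain ⟨K1, c1, hK1, hco⟩ := coefsY d c (c' + 12) c' e1 e2 hK hKB1 hC
  refine ⟨K1, c1, by linarith, ?_⟩
  intro P t l I N g1 g2 z hS hN hl hI h16 hN2 hN1 hlog hpin hH1 hH2 hg1 hg2 hz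
  have hPC := hSf t P hS
  have hlogN : 0 ≤ Real.log N := Real.log_nonneg hN
  have hl1 : (1:ℝ) ≤ l := by linarith
  have hl0 : (0:ℝ) < l := by linarith
  have hAA : (A:ℝ) ≤ ((A + 1 : ℕ) : ℝ) := by push_cast; linarith
  obtain ⟨T, hT⟩ : ∃ T : ℝ, T = ((t + 1 : ℕ) : ℝ) := ⟨_, rfl⟩
  have ht1 : 1 ≤ T := by rw [hT]; exact_mod_cast (by omega : 1 ≤ t + 1)
  have ht10 : 0 < T := by linarith
  rw [← hT] at h16 hN1 hlog
  have hn0 : (0:ℝ) ≤ P.card := Nat.cast_nonneg _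
  have hPN : (P.card : ℝ) ≤ N := by
    have : (P.card : ℝ) * 1 ≤ (P.card : ℝ) * T := mul_le_mul_of_nonneg_left ht1 hn0
    linarith
  obtain ⟨c_W, c_2W, c_lW, c_a, c_b, c_c, c_d⟩ := hco (l:ℝ) hl1
  obtain ⟨W, hW⟩ : ∃ W : ℝ, W = K * (l:ℝ) ^ c := ⟨_, rfl⟩
  have hW1 : 1 ≤ W := by rw [hW]; exact one_le_mul_of_one_le_of_one_le hK (one_le_pow₀ hl1)
  obtain ⟨B, hB⟩ : ∃ B : ℝ, B = C * 256 ^ 6 * (l:ℝ) ^ (c' + 12) := ⟨_, rfl⟩
  have hB1 : 1 ≤ B := by rw [hB]; exact one_le_mul_of_one_le_of_one_le hKB1 (one_le_pow₀ hl1)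
  obtain ⟨Q, hQ⟩ : ∃ Q : ℝ, Q = K1 * (l:ℝ) ^ c1 := ⟨_, rfl⟩
  rw [← hW, ← hQ] at c_W c_2W c_lW c_a c_b c_c
  rw [← hB] at c_a c_c
  rw [← hQ] at c_d
  rw [← hQ]
  have hQ2 : 2 ≤ Q := by
    rw [hQ]
    have h3 : 1 ≤ (l:ℝ) ^ c1 := one_le_pow₀ hl1
    have h4 : K1 * 1 ≤ K1 * (l:ℝ) ^ c1 := mul_le_mul_of_nonneg_left h3 (by linarith)
    linarith
  by_cases htop : ∀ s : ℕ, 16 * (2 * Real.log N + 1) * ((((t + 1 : ℕ)) : ℝ) + 2) ≤ s →
      ¬ Gd P P (S2 P) rng s 2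
  · have hfin := hX P t (t + 1) l I N rfl hPC hN hl hI (by
        rw [← hT]
        refine le_trans ?_ h16
        apply mul_le_mul_of_nonneg_left _ (by linarith)
        have : (A:ℝ) * T ≤ ((A + 1 : ℕ) : ℝ) * T := mul_le_mul_of_nonneg_right hAA ht10.le
        linarith) hN2 (by rw [← hT]; exact hN1) (by
        rw [← hT]
        have := (logsY (A := A) hN ht1 hl1).1
        linarith) hpin htop
    rw [← hT, ← hW] at hfin
    rw [← hT]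
    rcases hfin with h | ⟨s, x, hs1, hx1, f1, f2, f3, f4, f5⟩
    · left
      exact h.trans (mul_le_mul_of_nonneg_right c_W ht10.le)
    · have hs : (1:ℝ) ≤ s := by exact_mod_cast hs1
      by_cases hsm : (x:ℝ) ≤ 32 * B
      · right; left
        exact (smallY d hd (by linarith) (by linarith) ht1 (by linarith) hsm f3 f4).trans
          (mul_le_mul_of_nonneg_right c_a (by positivity))
      · push Not at hsm
        have hx32 : 32 ≤ x := by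
          have : (32:ℝ) ≤ x := by linarith
          exact_mod_cast this
        obtain ⟨y, hy1, hy6, hyx⟩ := rootY hB1 (by linarith : B ≤ (x:ℝ))
        obtain ⟨η, hη⟩ : ∃ η : ℝ, η = min z y := ⟨_, rfl⟩
        obtain ⟨k, hk⟩ : ∃ k : ℝ, k = 256 * (l:ℝ) ^ 2 * η := ⟨_, rfl⟩
        have hη1 : 1 ≤ η := by rw [hη]; exact le_min hz hy1
        have hfin2 := f5 η (C * (l:ℝ) ^ c' * (k ^ e1 * g1 + k ^ e2 * g2)) hη1 hx32
          (localY hL hN ht1 hl1 hC hPN hlog hg1 hg2 hH1 hH2 hz hy1 hB hy6 hη hk)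
        exact largeY d hd hn0 hW1 hB1 ht1 hs hl1 hC hg1 hg2 hz hy1 hy6 hyx hη hk
          (by rw [mul_assoc]; exact f1) f2 f3 hfin2 c_2W c_lW c_b c_c c_d
  · push Not at htop
    obtain ⟨s, hs, hgd⟩ := htop
    right; right; right; right; left
    exact topY hPC hN hPN hs hgd hH1 hg1 hz hQ2

end Vale.Agent.P054I
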