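import Vale.Agent.P054.MathlibUsed
import Vale.Agent.P054.H239.YAbs
attribute [-instance] ProperSMul.toContinuousSMul IsTopologicalTorsor.toContinuousSMul IdemSemiring.toCanonicallyOrderedAdd IdemSemiring.toMulLeftMono IdemSemiring.toMulRightMono AddQuantale.instAddLeftMono AddQuantale.instAddRightMono Quantale.instMulLeftMono Quantale.instMulRightMono FiniteDimensional.rclike_to_real IsScalarTower.complexToReal FiniteDimensional.complexToReal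

set_option linter.all false
set_option autoImplicit false

open Finset Vale.Agent.P054K Vale.Agent.P054G

namespace Vale.Agent.P054I

/-- the step, `η` depending on the block size -/
theorem step_absY (d : ℕ) (hd : 2 ≤ d) (S : ℕ → Finset (EuclideanSpace ℝ (Fin d)) → Prop)
    (H1 H2 : ℕ → Finset (EuclideanSpace ℝ (Fin d)) → ℝ → Prop)
    (hS : ∀ t P P', S t P → P' ⊆ P → S t P') (K : ℝ) (c A E1 E2 : ℕ) (hK : 1 ≤ K)
    (hkey : KeyAbsY d S H1 H2 K c A E1 E2) (γ1 γ2 α ζ : ℝ)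
    (hH1 : SecEx d S H1 γ1) (hH2 : SecEx d S H2 γ2) (hγ1 : 0 ≤ γ1) (hγ2 : 0 ≤ γ2) (h1 : 1 ≤ α)
    (hζ : 0 ≤ ζ) (h2 : (d:ℝ) ≤ 2 * α)
    (h3 : (d:ℝ) ^ 2 + 1 ≤ 2 * d * α + ((d:ℝ) - 1) * ζ) (h4 : 6 * (d:ℝ) ^ 2 + 6 - d ≤ (12 * (d:ℝ) - 1) * α)
    (h5 : (E1:ℝ) * ζ + γ1 ≤ α) (h6 : (E2:ℝ) * ζ + γ2 ≤ α) (ε : ℝ) (hε : 0 < ε) (hε1 : ε ≤ 1) :
    ∃ T0 : ℝ, ∀ t : ℕ, T0 ≤ t → ∀ P, S t P → (P.card : ℝ) ≤ 2 * (t:ℝ) ^ (α + ε) := by
  classical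
  have hD : (2:ℝ) ≤ d := by exact_mod_cast hd
  have hc0 : (0:ℝ) ≤ c := Nat.cast_nonneg c
  have hcd1 : ((d - 1 : ℕ) : ℝ) = (d:ℝ) - 1 := by rw [Nat.cast_sub (by omega)]; simp
  have hcY1 : ((6 * d ^ 2 + 6 - d : ℕ) : ℝ) = 6 * (d:ℝ) ^ 2 + 6 - d := by
    have h : d ≤ 6 * d ^ 2 + 6 := by nlinarith
    rw [Nat.cast_sub h]
    push_cast
    ring
  have hcY2 : ((12 * d - 1 : ℕ) : ℝ) = 12 * (d:ℝ) - 1 := by
    rw [Nat.cast_sub (by omega)]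
    push_cast
    ring
  obtain ⟨η, hη⟩ : ∃ η : ℝ, η = ε / (2 * (c + 1)) := ⟨_, rfl⟩
  have hη0 : 0 < η := by rw [hη]; positivity
  have hcd : (c + 1) * η = ε / 2 := by rw [hη]; field_simp
  have hcη0 : 0 ≤ (c:ℝ) * η := mul_nonneg hc0 hη0.le
  have hcη : (c:ℝ) * η + η = ε / 2 := by linarith only [hcd]
  obtain ⟨β, hβ⟩ : ∃ β : ℝ, β = α + ε := ⟨_, rfl⟩
  have hβ0 : 0 ≤ β := by linarith only [hβ, h1, hε]
  obtain ⟨I, T0, hT01, hpar⟩ := params d A β η hβ0 hη0 (by linarith only [hcη, hcη0, hε1])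
  obtain ⟨Cg, hCg0, hCg⟩ := hH1 η hη0
  obtain ⟨Cf, hCf0, hCf⟩ := hH2 η hη0
  obtain ⟨M1, hM1⟩ : ∃ M : ℝ, M = K * 2 ^ c * 2 := ⟨_, rfl⟩
  obtain ⟨M2, hM2⟩ : ∃ M : ℝ, M = K * 2 ^ c * 2 ^ d := ⟨_, rfl⟩
  obtain ⟨M3, hM3⟩ : ∃ M : ℝ, M = K * 2 ^ c * 2 ^ (d ^ 2 + 1) := ⟨_, rfl⟩
  obtain ⟨M4, hM4⟩ : ∃ M : ℝ, M = K * 2 ^ c * 2 ^ (6 * d ^ 2 + 6 - d) := ⟨_, rfl⟩
  obtain ⟨M5, hM5⟩ : ∃ M : ℝ, M = K * 2 ^ c * Cg := ⟨_, rfl⟩
  obtain ⟨M6, hM6⟩ : ∃ M : ℝ, M = K * 2 ^ c * Cf := ⟨_, rfl⟩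
  obtain ⟨S1, hS1, ev1⟩ := ev_rpow (2 * M1) ((c:ℝ) * η + 1) β (by linarith only [hβ, h1, hcη, hη0, hε])
  obtain ⟨S2, hS2, ev2⟩ := ev_rpow (2 * M2) ((c:ℝ) * η + d) (((2:ℕ):ℝ) * β) (by
    push_cast
    linarith only [hβ, h2, hcη, hη0, hε])
  obtain ⟨S3, hS3, ev3⟩ := ev_rpow (2 * M3) ((c:ℝ) * η + ((d ^ 2 + 1 : ℕ) : ℝ))
    (((2 * d : ℕ) : ℝ) * β + ((d - 1 : ℕ) : ℝ) * ζ) (by
      have h8 : 2 * (d:ℝ) * β = 2 * d * α + 2 * d * ε := by rw [hβ]; ring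
      have h7 : ε ≤ 2 * (d:ℝ) * ε := by nlinarith only [hε, hD]
      rw [hcd1]
      push_cast
      linarith only [h3, hcη, hη0, h8, h7, hε])
  obtain ⟨S4, hS4, ev4⟩ := ev_rpow (2 * M4) ((c:ℝ) * η + ((6 * d ^ 2 + 6 - d : ℕ) : ℝ))
    (((12 * d - 1 : ℕ) : ℝ) * β) (by
      rw [hcY1, hcY2]
      have h8 : (12 * (d:ℝ) - 1) * β = (12 * (d:ℝ) - 1) * α + (12 * (d:ℝ) - 1) * ε := by
        rw [hβ]; ring
      have h7 : ε ≤ (12 * (d:ℝ) - 1) * ε := by nlinarith only [hε, hD]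
      linarith only [h4, hcη, hη0, h8, h7, hε])
  obtain ⟨S5, hS5, ev5⟩ := ev_rpow (2 * M5) ((c:ℝ) * η + (E1:ℝ) * ζ + (γ1 + η)) β (by
    linarith only [hβ, h5, hcη, hε])
  obtain ⟨S6, hS6, ev6⟩ := ev_rpow (2 * M6) ((c:ℝ) * η + (E2:ℝ) * ζ + (γ2 + η)) β (by
    linarith only [hβ, h6, hcη, hε])
  refine ⟨max (max (max (max S1 S2) (max S3 S4)) (max S5 T0)) S6, ?_⟩
  intro t ht''
  have hS6' : S6 ≤ t := (le_max_right _ _).trans ht''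
  have ht := (le_max_left _ _).trans ht''
  have hS1' : S1 ≤ t :=
    ((le_max_left _ _).trans ((le_max_left _ _).trans (le_max_left _ _))).trans ht
  have hS2' : S2 ≤ t :=
    ((le_max_right _ _).trans ((le_max_left _ _).trans (le_max_left _ _))).trans ht
  have hS3' : S3 ≤ t :=
    ((le_max_left _ _).trans ((le_max_right _ _).trans (le_max_left _ _))).trans ht
  have hS4' : S4 ≤ t :=
    ((le_max_right _ _).trans ((le_max_right _ _).trans (le_max_left _ _))).trans ht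
  have hS5' : S5 ≤ t := ((le_max_left _ _).trans (le_max_right _ _)).trans ht
  have hT0' : T0 ≤ t := ((le_max_right _ _).trans (le_max_right _ _)).trans ht
  have e1 := ev1 t hS1'
  have e2 := ev2 t hS2'
  have e3 := ev3 t hS3'
  have e4 := ev4 t hS4'
  have e5 := ev5 t hS5'
  have e6 := ev6 t hS6'
  have hpar' := hpar t hT0'
  obtain ⟨T, hTt⟩ : ∃ T : ℝ, T = t := ⟨_, rfl⟩
  have hT : 1 ≤ T := by rw [hTt]; exact hT01.trans hT0'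
  have htn : 1 ≤ t := by
    have : (1:ℝ) ≤ t := by rw [← hTt]; exact hT
    exact_mod_cast this
  have hCgt := hCg t htn
  have hCft := hCf t htn
  rw [← hTt] at e1 e2 e3 e4 e5 e6 hpar' hCgt hCft
  rw [← hβ, ← hTt]
  intro P hP
  have hT0 : 0 < T := by linarith only [hT]
  by_contra hcon
  push Not at hcon
  have hTβ : 1 ≤ T ^ β := Real.one_le_rpow hT hβ0
  obtain ⟨n, hn⟩ : ∃ n : ℕ, n = ⌈T ^ β⌉₊ := ⟨_, rfl⟩
  have hn1 : T ^ β ≤ n := by rw [hn]; exact Nat.le_ceil _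
  have hn2 : (n:ℝ) ≤ 2 * T ^ β := by
    have := Nat.ceil_lt_add_one (show 0 ≤ T ^ β by positivity)
    rw [← hn] at this
    linarith only [hTβ, this]
  have hnP : n ≤ P.card := by
    have : (n:ℝ) < P.card := lt_of_le_of_lt hn2 hcon
    exact_mod_cast this.le
  obtain ⟨P', hP'sub, hP'card⟩ := exists_subset_card_eq hnP
  have hP' : S t P' := hS t P P' hP hP'sub
  obtain ⟨l, N, hl1, hl2, hN1, q0, q1, q2, q3, q4, q5, q6⟩ := hpar' n hn2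
  have hTη : 1 ≤ T ^ η := Real.one_le_rpow hT hη0.le
  have hl0 : (0:ℝ) < l := by linarith only [hTη, hl1]
  have hcast : (((t + 1 : ℕ)) : ℝ) = T + 1 := by push_cast; rw [hTt]
  have ht1 : (((t + 1 : ℕ)) : ℝ) ≤ 2 * T := by rw [hcast]; linarith only [hT]
  have ht10 : (0:ℝ) ≤ ((t + 1 : ℕ) : ℝ) := Nat.cast_nonneg _
  have hz : 1 ≤ T ^ ζ := Real.one_le_rpow hT hζ
  have hg : 1 ≤ Cg * T ^ (γ1 + η) := by
    have h8 : 1 ≤ T ^ (γ1 + η) := Real.one_le_rpow hT (by linarith only [hγ1, hη0])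
    nlinarith only [h8, hCg0]
  have hf : 1 ≤ Cf * T ^ (γ2 + η) := by
    have h8 : 1 ≤ T ^ (γ2 + η) := Real.one_le_rpow hT (by linarith only [hγ2, hη0])
    nlinarith only [h8, hCf0]
  have hfin := hkey P' t l I N (Cg * T ^ (γ1 + η)) (Cf * T ^ (γ2 + η)) (T ^ ζ) hP'
    hN1 q0 q1 q2 (by rw [hP'card]; exact q3)
    (by rw [hP'card]; exact q4) q5 q6 (hCgt P' hP') (hCft P' hP') hg hf hz
  rw [hP'card] at hfin
  -- the polylogarithmic factor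
  have hlc : K * (l:ℝ) ^ c ≤ (K * 2 ^ c) * T ^ ((c:ℝ) * η) := by
    have h6 : (l:ℝ) ^ c ≤ (2 * T ^ η) ^ c := pow_le_pow_left₀ hl0.le hl2 c
    rw [mul_pow, rpow_nat_mul T η hT0.le c] at h6
    calc K * (l:ℝ) ^ c ≤ K * (2 ^ c * T ^ ((c:ℝ) * η)) :=
          mul_le_mul_of_nonneg_left h6 (by linarith only [hK])
      _ = (K * 2 ^ c) * T ^ ((c:ℝ) * η) := by ring
  have hK0 : 0 ≤ K * 2 ^ c := by positivity
  have hlc0 : 0 ≤ (K * 2 ^ c) * T ^ ((c:ℝ) * η) := by positivity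
  have htk : ∀ k : ℕ, (((t + 1 : ℕ)) : ℝ) ^ k ≤ 2 ^ k * T ^ (k:ℝ) := by
    intro k
    have h6 := pow_le_pow_left₀ ht10 ht1 k
    rw [mul_pow] at h6
    rw [Real.rpow_natCast]
    exact h6
  have hnk : ∀ k : ℕ, T ^ ((k:ℝ) * β) ≤ (n:ℝ) ^ k := by
    intro k
    rw [← rpow_nat_mul T β hT0.le]
    exact pow_le_pow_left₀ (by positivity) hn1 _
  rcases hfin with h | h | h | h | h | h
  · apply no_case hT hn1 (h.trans _) e1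
    calc K * (l:ℝ) ^ c * (((t + 1 : ℕ)) : ℝ)
        ≤ ((K * 2 ^ c) * T ^ ((c:ℝ) * η)) * (2 * T) := mul_le_mul hlc ht1 ht10 hlc0
      _ = M1 * T ^ ((c:ℝ) * η + 1) := by
          rw [hM1, Real.rpow_add hT0, Real.rpow_one]; ring
  · apply no_case hT (hnk 2) (h.trans _) e2
    calc K * (l:ℝ) ^ c * ((((t + 1 : ℕ)) : ℝ) ^ d)
        ≤ ((K * 2 ^ c) * T ^ ((c:ℝ) * η)) * (2 ^ d * T ^ (d:ℝ)) :=
          mul_le_mul hlc (htk d) (by positivity) hlc0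
      _ = M2 * T ^ ((c:ℝ) * η + d) := by
          rw [hM2, Real.rpow_add hT0]; ring
  · have h6 : T ^ (((2 * d : ℕ) : ℝ) * β + ((d - 1 : ℕ) : ℝ) * ζ) ≤
        (n:ℝ) ^ (2 * d) * (T ^ ζ) ^ (d - 1) := by
      rw [Real.rpow_add hT0, ← rpow_nat_mul T ζ hT0.le]
      exact mul_le_mul_of_nonneg_right (hnk (2 * d)) (by positivity)
    apply no_case hT h6 (h.trans _) e3
    calc K * (l:ℝ) ^ c * (((t + 1 : ℕ)) : ℝ) ^ (d ^ 2 + 1)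
        ≤ ((K * 2 ^ c) * T ^ ((c:ℝ) * η)) * (2 ^ (d ^ 2 + 1) * T ^ ((d ^ 2 + 1 : ℕ) : ℝ)) :=
          mul_le_mul hlc (htk _) (by positivity) hlc0
      _ = M3 * T ^ ((c:ℝ) * η + ((d ^ 2 + 1 : ℕ) : ℝ)) := by
          rw [hM3, Real.rpow_add hT0]; ring
  · apply no_case hT (hnk (12 * d - 1)) (h.trans _) e4
    calc K * (l:ℝ) ^ c * (((t + 1 : ℕ)) : ℝ) ^ (6 * d ^ 2 + 6 - d)
        ≤ ((K * 2 ^ c) * T ^ ((c:ℝ) * η)) *
          (2 ^ (6 * d ^ 2 + 6 - d) * T ^ ((6 * d ^ 2 + 6 - d : ℕ) : ℝ)) :=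
          mul_le_mul hlc (htk _) (by positivity) hlc0
      _ = M4 * T ^ ((c:ℝ) * η + ((6 * d ^ 2 + 6 - d : ℕ) : ℝ)) := by
          rw [hM4, Real.rpow_add hT0]; ring
  · apply no_case hT hn1 (h.trans _) e5
    calc K * (l:ℝ) ^ c * ((T ^ ζ) ^ E1 * (Cg * T ^ (γ1 + η)))
        ≤ ((K * 2 ^ c) * T ^ ((c:ℝ) * η)) * ((T ^ ζ) ^ E1 * (Cg * T ^ (γ1 + η))) := by
          apply mul_le_mul_of_nonneg_right hlc
          positivity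
      _ = M5 * T ^ ((c:ℝ) * η + (E1:ℝ) * ζ + (γ1 + η)) := by
          rw [hM5, Real.rpow_add hT0 _ (γ1 + η), Real.rpow_add hT0 ((c:ℝ) * η),
            ← rpow_nat_mul T ζ hT0.le]
          ring
  · apply no_case hT hn1 (h.trans _) e6
    calc K * (l:ℝ) ^ c * ((T ^ ζ) ^ E2 * (Cf * T ^ (γ2 + η)))
        ≤ ((K * 2 ^ c) * T ^ ((c:ℝ) * η)) * ((T ^ ζ) ^ E2 * (Cf * T ^ (γ2 + η))) := by
          apply mul_le_mul_of_nonneg_right hlc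
          positivity
      _ = M6 * T ^ ((c:ℝ) * η + (E2:ℝ) * ζ + (γ2 + η)) := by
          rw [hM6, Real.rpow_add hT0 _ (γ2 + η), Real.rpow_add hT0 ((c:ℝ) * η),
            ← rpow_nat_mul T ζ hT0.le]
          ring

end Vale.Agent.P054I
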