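import Vale.Agent.P054.MathlibUsed
import Vale.Agent.P054.H239.YStep
import Vale.Agent.P054.H239.HOut
import Vale.Agent.P054.H343.G.LocX
import Vale.Agent.P054.H343.G.LocC
attribute [-instance] ProperSMul.toContinuousSMul IsTopologicalTorsor.toContinuousSMul IdemSemiring.toCanonicallyOrderedAdd IdemSemiring.toMulLeftMono IdemSemiring.toMulRightMono AddQuantale.instAddLeftMono AddQuantale.instAddRightMono Quantale.instMulLeftMono Quantale.instMulRightMono FiniteDimensional.rclike_to_real IsScalarTower.complexToReal FiniteDimensional.complexToReal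

set_option linter.all false
set_option autoImplicit false

open Finset Vale.Agent.P054K Vale.Agent.P054G

namespace Vale.Agent.P054I

/-- the key inequality with visible scale and block size, unconditional -/
theorem keyY_all (d : ℕ) (hd : 2 ≤ d) : ∃ (K : ℝ) (c A : ℕ), 1 ≤ K ∧ KeyY d K c A :=
  keyY_of d hd (has_dataB d (by omega)) (few_blocks d (win_blocks d) (heavy_blocks d))
    (tri_blocks d) (light_pairs d)

/-- one dimension, from the exponents `γ1`, `γ2` of the two lower dimensions -/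
theorem sexY {Sf : (j : ℕ) → ℕ → Finset (EuclideanSpace ℝ (Fin j)) → Prop} (hSf : Her Sf)
    {d : ℕ} (hd : 2 ≤ d)
    (hsub : ∀ t P P', Sf d t P → P' ⊆ P → Sf d t P')
    (hmono : ∀ t t', t ≤ t' → ∀ P, Sf d t P → Sf d t' P)
    (hPC : ∀ t P, Sf d t P → PC d t P)
    {C : ℝ} {c' e1 e2 : ℕ} (hC : 1 ≤ C) (hL : LocGen d C c' 6 e1 e2)
    {γ1 γ2 α ζ : ℝ} (g1 : Sex (d - 1) (Sf (d - 1)) γ1) (g2 : Sex (d - 2) (Sf (d - 2)) γ2)
    (hγ1 : 0 ≤ γ1) (hγ2 : 0 ≤ γ2) (h1 : 1 ≤ α) (hζ : 0 ≤ ζ) (h2 : (d:ℝ) ≤ 2 * α)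
    (h3 : (d:ℝ) ^ 2 + 1 ≤ 2 * d * α + ((d:ℝ) - 1) * ζ)
    (h4 : 6 * (d:ℝ) ^ 2 + 6 - d ≤ (12 * (d:ℝ) - 1) * α)
    (h5 : (e1:ℝ) * ζ + γ1 ≤ α) (h6 : (e2:ℝ) * ζ + γ2 ≤ α) : Sex d (Sf d) α := by
  obtain ⟨K, c, A, hK, hX⟩ := keyY_all d hd
  obtain ⟨K1, c1, hK1, hY⟩ := keyAbsY_of hd (fun t P h => hPC t P h) hK hX hC hL
  apply sex_of_large (by linarith) (fun t t' ht P hP => hmono t t' ht P hP)
  intro ε hε hε1
  exact step_absY d hd (Sf d) (HY d) (H2Y d) (fun t P P' hP hPP => hsub t P P' hP hPP) K1 c1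
    (A + 1) e1 e2 hK1 hY γ1 γ2 α ζ (secEx_hyper hSf g1) (secEx_two hSf hd g2) hγ1 hγ2 h1 hζ h2 h3
    h4 h5 h6 ε hε hε1

/-- **the plane, pinned**: `28 / 23` -/
theorem sexPC_two : Sex 2 (PC 2) (28 / 23) := by
  obtain ⟨C, c', hC, hL⟩ := locGen_adj 2 le_rfl
  have hL' : LocGen 2 C c' 6 0 0 := hL
  refine sexY her_PC (d := 2) le_rfl (fun t P P' h hs => h.sub hs) (fun t t' ht P h => h.mono ht)
    (fun t P h => h) hC hL' (γ1 := 1) (γ2 := 0) (ζ := 1) sex_PC_one sex_PC_zero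
    (by norm_num) (by norm_num) (by norm_num) (by norm_num) ?_ ?_ ?_ ?_ ?_
  all_goals norm_num

/-- **the space, pinned**: `57 / 35` -/
theorem sexPC_three : Sex 3 (PC 3) (57 / 35) := by
  obtain ⟨C, c', hC, hL⟩ := locGen_pairs 3 (by norm_num)
  have hL' : LocGen 3 C c' 6 3 0 := hL
  refine sexY her_PC (d := 3) (by norm_num) (fun t P P' h hs => h.sub hs)
    (fun t t' ht P h => h.mono ht)
    (fun t P h => h) hC hL' (γ1 := 28 / 23) (γ2 := 1) (ζ := 4 / 35) sexPC_two sex_PC_one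
    (by norm_num) (by norm_num) (by norm_num) (by norm_num) ?_ ?_ ?_ ?_ ?_
  all_goals norm_num

end Vale.Agent.P054I
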